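import Vale.Agent.P093.T.PolyDef

/-!
The affine extension of a vertex map, and the retraction of a simplex onto a face.
-/

open Set

namespace Vale.Agent.P093.T

variable {U W : Type*} [Fintype U] [Fintype W]

omit [Fintype W] in
/-- the affine extension of a vertex map -/
noncomputable def affMap (φ : U → W) (z : U → ℝ) : W → ℝ := fun w => ∑ u, z u * vtx (φ u) w

omit [Fintype W] in
theorem continuous_affMap (φ : U → W) : Continuous (affMap φ) := by
  refine continuous_pi fun w => ?_
  exact continuous_finsetSum _ fun u _ => (continuous_apply u).mul continuous_const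

omit [Fintype W] in
theorem affMapAux_vtx_nonneg (v w : W) : (0 : ℝ) ≤ vtx v w := by
  by_cases h : w = v
  · rw [h, vtx_self]
    exact zero_le_one
  · rw [vtx_of_ne h]

theorem affMapAux_vtx_sum (v : W) : ∑ w, (vtx v w : ℝ) = 1 := by
  rw [Finset.sum_eq_single v]
  · exact vtx_self v
  · intro w _ h
    exact vtx_of_ne h
  · intro h
    exact absurd (Finset.mem_univ v) h

theorem affMapAux_mem_spt (y : W → ℝ) (w : W) : w ∈ spt y ↔ y w ≠ 0 := by
  simp [spt]

open Classical in
theorem affMapAux_spt (φ : U → W) (z : U → ℝ) : spt (affMap φ z) ⊆ (spt z).image φ := by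
  intro w hw
  rw [affMapAux_mem_spt] at hw
  obtain ⟨u, _, hu⟩ := Finset.exists_ne_zero_of_sum_ne_zero hw
  rw [Finset.mem_image]
  refine ⟨u, (affMapAux_mem_spt z u).2 (left_ne_zero_of_mul hu), ?_⟩
  by_contra h
  exact right_ne_zero_of_mul hu (vtx_of_ne (fun h' => h h'.symm))

open Classical in
theorem affMap_mem (φ : U → W) (S : U → Finset W) (hφ : ∀ u, φ u ∈ S u) (z : U → ℝ)
    (hz : z ∈ stdSimplex ℝ U) : affMap φ z ∈ stdSimplex ℝ W ∧
      spt (affMap φ z) ⊆ (spt z).biUnion S ∧ (spt (affMap φ z)).card ≤ (spt z).card := by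
  refine ⟨⟨fun w => ?_, ?_⟩, ?_, ?_⟩
  · exact Finset.sum_nonneg fun u _ => mul_nonneg (hz.1 u) (affMapAux_vtx_nonneg _ _)
  · show ∑ w, ∑ u, z u * vtx (φ u) w = 1
    rw [Finset.sum_comm]
    rw [← hz.2]
    refine Finset.sum_congr rfl fun u _ => ?_
    rw [← Finset.mul_sum, affMapAux_vtx_sum, mul_one]
  · refine (affMapAux_spt φ z).trans ?_
    intro w hw
    obtain ⟨u, hu, rfl⟩ := Finset.mem_image.1 hw
    exact Finset.mem_biUnion.2 ⟨u, hu, hφ u⟩
  · exact (Finset.card_le_card (affMapAux_spt φ z)).trans Finset.card_image_le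

theorem affMapAux_fix (ρ : W → W) (y : W → ℝ) (h : ∀ u, y u ≠ 0 → ρ u = u) :
    affMap ρ y = y := by
  funext w
  show ∑ u, y u * vtx (ρ u) w = y w
  rw [Finset.sum_eq_single w]
  · by_cases hw : y w = 0
    · rw [hw, zero_mul]
    · rw [h w hw, vtx_self, mul_one]
  · intro u _ hu
    by_cases hy : y u = 0
    · rw [hy, zero_mul]
    · rw [h u hy, vtx_of_ne (fun e => hu e.symm), mul_zero]
  · intro hw
    exact absurd (Finset.mem_univ w) hw

open Classical in
/-- the retraction of the simplex on `W` onto the face spanned by `S` -/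
theorem exists_retract (S : Finset W) (hS : S.Nonempty) :
    ∃ r : (W → ℝ) → (W → ℝ), Continuous r ∧ (∀ y, y ∈ stdSimplex ℝ W → r y ∈ stdSimplex ℝ W ∧
      spt (r y) ⊆ S ∧ (spt (r y)).card ≤ (spt y).card) ∧
      ∀ y, y ∈ stdSimplex ℝ W → spt y ⊆ S → r y = y := by
  obtain ⟨s0, hs0⟩ := hS
  refine ⟨affMap fun w => if w ∈ S then w else s0, continuous_affMap _, ?_, ?_⟩
  · intro y hy
    obtain ⟨h1, h2, h3⟩ := affMap_mem (fun w => if w ∈ S then w else s0) (fun _ => S)
      (fun w => by
        by_cases h : w ∈ S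
        · simp [h]
        · simp [h, hs0]) y hy
    refine ⟨h1, h2.trans ?_, h3⟩
    intro w hw
    obtain ⟨_, _, h⟩ := Finset.mem_biUnion.1 hw
    exact h
  · intro y _ hyS
    refine affMapAux_fix _ y fun u hu => ?_
    have : u ∈ S := hyS ((affMapAux_mem_spt y u).2 hu)
    simp [this]

end Vale.Agent.P093.T
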