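import Vale.Agent.P093.MeanDim

/-!
Closed shrinking of a finite open cover; monotonicity of the order of the iterated covers.
-/

open Set Filter
open scoped ENNReal

namespace Vale.Agent.P093.T

/-- closed shrinking of a finite open cover -/
theorem exists_shrink {X : Type*} [TopologicalSpace X] [NormalSpace X] {𝒰 : Set (Set X)}
    (h𝒰 : IsFinOpenCover 𝒰) :
    ∃ 𝒰' : Set (Set X), IsFinOpenCover 𝒰' ∧ ∀ A ∈ 𝒰', ∃ U ∈ 𝒰, closure A ⊆ U := by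
  have hfin : Finite 𝒰 := h𝒰.1.to_subtype
  obtain ⟨v, hv1, hv2, hv3⟩ := exists_iUnion_eq_closure_subset (u := fun U : 𝒰 => (U : Set X))
    (fun U => h𝒰.2.1 _ U.2) (fun x => Set.toFinite _)
    (by rw [← Set.sUnion_eq_iUnion]; exact h𝒰.2.2)
  refine ⟨Set.range v, ⟨Set.finite_range v, ?_, ?_⟩, ?_⟩
  · rintro _ ⟨U, rfl⟩
    exact hv2 U
  · rw [Set.sUnion_range]
    exact hv1
  · rintro _ ⟨U, rfl⟩
    exact ⟨U, U.2, hv3 U⟩

theorem att_iterCover_fin {X : Type*} [TopologicalSpace X] (h : X ≃ₜ X) {𝒰 : Set (Set X)}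
    (h𝒰 : IsFinOpenCover 𝒰) (N : ℕ) : IsFinOpenCover (iterCover h 𝒰 N) := by
  refine ⟨?_, ?_, ?_⟩
  · have := h𝒰.1.to_subtype
    refine (Set.finite_range fun g : Fin N → 𝒰 =>
      ⋂ j : Fin N, (⇑(h ^ (j : ℕ))) ⁻¹' (g j : Set X)).subset ?_
    rintro W ⟨f, hf, rfl⟩
    refine ⟨fun j => ⟨f j, hf j⟩, ?_⟩
    ext x
    simp only [mem_iInter, mem_preimage, Finset.mem_range]
    exact ⟨fun H j hj => H ⟨j, hj⟩, fun H j => H j j.2⟩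
  · rintro W ⟨f, hf, rfl⟩
    exact isOpen_biInter_finset fun j _ => (h𝒰.2.1 _ (hf j)).preimage (h ^ j).continuous
  · rw [eq_univ_iff_forall]
    intro x
    have h1 : ∀ j : ℕ, ∃ U ∈ 𝒰, (h ^ j) x ∈ U := fun j => by
      have h2 : (h ^ j) x ∈ ⋃₀ 𝒰 := by rw [h𝒰.2.2]; trivial
      exact h2
    choose f hf hfx using h1
    refine ⟨_, ⟨f, hf, rfl⟩, ?_⟩
    simp only [mem_iInter, mem_preimage]
    exact fun j _ => hfx j

/-- monotonicity of the order under refinement -/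
theorem coverDim_le_of_refines {X : Type*} [TopologicalSpace X] {𝒱 𝒲 : Set (Set X)}
    (h𝒲 : IsFinOpenCover 𝒲) (hr : ∀ W ∈ 𝒲, ∃ V ∈ 𝒱, W ⊆ V) : coverDim 𝒱 ≤ coverDim 𝒲 := by
  have hne : {d : ℕ | ∃ 𝒱' : Set (Set X), IsFinOpenCover 𝒱' ∧ (∀ V ∈ 𝒱', ∃ U ∈ 𝒲, V ⊆ U) ∧
      ∀ S ⊆ 𝒱', (⋂₀ S).Nonempty → S.encard ≤ d + 1}.Nonempty := by
    refine ⟨h𝒲.1.toFinset.card, 𝒲, h𝒲, fun u hu => ⟨u, hu, le_rfl⟩, fun S hS _ => ?_⟩
    have h1 : S.encard ≤ 𝒲.encard := Set.encard_le_encard hS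
    rw [h𝒲.1.encard_eq_coe_toFinset_card] at h1
    exact h1.trans (by exact_mod_cast Nat.le_succ _)
  obtain ⟨𝒱', h1, h2, h3⟩ := Nat.sInf_mem hne
  refine Nat.sInf_le ⟨𝒱', h1, fun V hV => ?_, h3⟩
  obtain ⟨W, hW, hVW⟩ := h2 V hV
  obtain ⟨U, hU, hWU⟩ := hr W hW
  exact ⟨U, hU, hVW.trans hWU⟩

/-- monotonicity of the order in the length -/
theorem coverDim_iterCover_mono {X : Type*} [TopologicalSpace X] (h : X ≃ₜ X) {𝒰 : Set (Set X)}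
    (h𝒰 : IsFinOpenCover 𝒰) {N N' : ℕ} (hN : N ≤ N') :
    coverDim (iterCover h 𝒰 N) ≤ coverDim (iterCover h 𝒰 N') := by
  refine coverDim_le_of_refines (att_iterCover_fin h h𝒰 N') ?_
  rintro _ ⟨f, hf, rfl⟩
  refine ⟨_, ⟨f, hf, rfl⟩, ?_⟩
  intro x hx
  simp only [mem_iInter, mem_preimage, Finset.mem_range] at hx ⊢
  exact fun j hj => hx j (hj.trans_le hN)

end Vale.Agent.P093.T
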