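import Vale.Agent.P093.Colors
import Mathlib.Topology.UrysohnsLemma
import Mathlib.Topology.ShrinkingLemma

/-!
Functions version of coloured covers.
-/

open Set

namespace Vale.Agent.P093.T

/-- `k - q` colours are full at every point: functions version of `Colored`. -/
theorem exists_full_functions {X : Type*} [TopologicalSpace X] [NormalSpace X]
    {W : Set (Set X)} {q k : ℕ} (C : Fin k → Set (Set X)) (hC : Colored W q k C) :
    ∃ ψ : Fin k → X → ℝ, (∀ c, Continuous (ψ c)) ∧ (∀ c x, 0 ≤ ψ c x ∧ ψ c x ≤ 1) ∧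
      (∀ c x, 0 < ψ c x → ∃ s ∈ C c, x ∈ s) ∧
      ∀ x, (open Classical in (Finset.univ.filter fun c => ψ c x < 1).card) ≤ q := by
  classical
  have hU : ∀ c, IsOpen (⋃₀ C c) := fun c => isOpen_sUnion fun s hs => hC.op c s hs
  let u : {T : Finset (Fin k) // (Tᶜ).card ≤ q} → Set X := fun T => ⋂ c ∈ T.1, ⋃₀ C c
  have uo : ∀ T, IsOpen (u T) := fun T => isOpen_biInter_finset fun c _ => hU c
  have uU : (⋃ T, u T) = univ := by
    refine eq_univ_of_forall fun x => mem_iUnion.2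
      ⟨⟨Finset.univ.filter fun c => x ∈ ⋃₀ C c, ?_⟩, ?_⟩
    · have h := hC.miss x
      unfold misses at h
      have e : (Finset.univ.filter fun c => x ∈ ⋃₀ C c)ᶜ =
          Finset.univ.filter fun c => ¬ (x ∈ ⋃₀ C c) := by
        ext c; simp
      rw [e, Finset.card_filter]
      refine le_trans (le_of_eq (Finset.sum_congr rfl fun c _ => ?_)) h
      by_cases hx : x ∈ ⋃₀ C c <;> simp only [hx, not_true_eq_false, not_false_eq_true, if_true,
        if_false]
    · exact mem_iInter₂.2 fun c hc => (Finset.mem_filter.1 hc).2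
  obtain ⟨B, hB, hBc, hBu⟩ := exists_iUnion_eq_closed_subset uo (fun x => Set.toFinite _) uU
  let F : Fin k → Set X := fun c => ⋃ T, ⋃ _ : c ∈ T.1, B T
  have hF : ∀ c, IsClosed (F c) := fun c =>
    isClosed_iUnion_of_finite fun T => isClosed_iUnion_of_finite fun _ => hBc T
  have hFU : ∀ c, F c ⊆ ⋃₀ C c := by
    intro c x hx
    obtain ⟨T, hT⟩ := mem_iUnion.1 hx
    obtain ⟨hc, hT⟩ := mem_iUnion.1 hT
    exact mem_iInter₂.1 (hBu T hT) c hc
  have key : ∀ c, ∃ f : C(X, ℝ), EqOn f 0 (⋃₀ C c)ᶜ ∧ EqOn f 1 (F c) ∧ ∀ x, f x ∈ Icc (0:ℝ) 1 :=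
    fun c => exists_continuous_zero_one_of_isClosed (hU c).isClosed_compl (hF c)
      (disjoint_left.2 fun x hx hx' => hx (hFU c hx'))
  choose f hf0 hf1 hf using key
  refine ⟨fun c => f c, fun c => (f c).continuous, fun c x => hf c x, fun c x hx => ?_,
    fun x => ?_⟩
  · by_contra hcon
    have : x ∈ (⋃₀ C c)ᶜ := fun h => hcon h
    have h0 := hf0 c this
    simp only [Pi.zero_apply] at h0
    exact (ne_of_gt hx) h0
  · obtain ⟨T, hT⟩ := mem_iUnion.1 (hB.symm ▸ mem_univ x : x ∈ ⋃ T, B T)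
    refine le_trans (Finset.card_le_card ?_) T.2
    intro c hc
    have h1 := (Finset.mem_filter.1 hc).2
    rw [Finset.mem_compl]
    intro hcT
    have h2 := hf1 c (mem_iUnion.2 ⟨T, mem_iUnion.2 ⟨hcT, hT⟩⟩ : x ∈ F c)
    simp only [Pi.one_apply] at h2
    exact (ne_of_lt h1) h2

end Vale.Agent.P093.T
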