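import Mathlib

/-!
Generalized loops as maps on `ℝ^n` which are constant off the open unit cube, and their classes
in the homotopy group `π_n(X, x₀)` of Mathlib, written additively (`n ≥ 2`).
-/

open Topology.Homotopy
open scoped unitInterval Topology

namespace Vale.Agent.P093.T

variable {n : ℕ} {X : Type*} [TopologicalSpace X] {x₀ : X}

/-- the open unit cube -/
def openCube (n : ℕ) : Set (Fin n → ℝ) := {y | ∀ i, 0 < y i ∧ y i < 1}

/-- an `n`-loop: a continuous map `ℝ^n → X` equal to `x₀` off the open unit cube -/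
structure ELoop (n : ℕ) (X : Type*) [TopologicalSpace X] (x₀ : X) where
  /-- the map -/
  toFun : (Fin n → ℝ) → X
  cont : Continuous toFun
  off : ∀ y, y ∉ openCube n → toFun y = x₀

instance : CoeFun (ELoop n X x₀) (fun _ => (Fin n → ℝ) → X) := ⟨ELoop.toFun⟩

/-- constant loop -/
def ELoop.const (n : ℕ) (x₀ : X) : ELoop n X x₀ := ⟨fun _ => x₀, continuous_const, fun _ _ => rfl⟩

/-- two loops are homotopic -/
def ELoop.Homotopic (p q : ELoop n X x₀) : Prop :=
  ∃ H : ℝ → (Fin n → ℝ) → X, Continuous (fun z : ℝ × (Fin n → ℝ) => H z.1 z.2) ∧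
    (∀ y, H 0 y = p y) ∧ (∀ y, H 1 y = q y) ∧ ∀ t y, y ∉ openCube n → H t y = x₀

/-- restriction of a loop to the cube, as a `GenLoop` -/
def ELoop.toGen (p : ELoop n X x₀) : Ω^ (Fin n) X x₀ :=
  ⟨⟨fun y => p (fun i => (y i : ℝ)), p.cont.comp (by fun_prop)⟩, by
    rintro y ⟨i, hi⟩
    apply p.off
    intro h
    have := h i
    rcases hi with hi | hi <;> simp [hi] at this⟩

/-- `π_{m+2}(X, x₀)`, additively -/
abbrev PiGrp (m : ℕ) (X : Type*) [TopologicalSpace X] (x₀ : X) : Type _ :=
  Additive (HomotopyGroup (Fin (m + 2)) X x₀)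

/-- the class of a loop -/
def ELoop.cls {m : ℕ} (p : ELoop (m + 2) X x₀) : PiGrp m X x₀ :=
  Additive.ofMul (⟦p.toGen⟧ : HomotopyGroup (Fin (m + 2)) X x₀)

variable {m : ℕ}

/-! ### The clamping map from `ℝ^n` to the cube -/

/-- clamping of every coordinate to the unit interval -/
noncomputable def clampI (y : Fin n → ℝ) : Fin n → I := fun i => Set.projIcc 0 1 zero_le_one (y i)

theorem continuous_clampI : Continuous (clampI : (Fin n → ℝ) → (Fin n → I)) :=
  continuous_pi fun i => continuous_projIcc.comp (continuous_apply i)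

theorem clampI_coe (y : Fin n → I) : clampI (fun i => (y i : ℝ)) = y := by
  funext i
  simp [clampI]

theorem coe_clampI_of_mem {y : Fin n → ℝ} (hy : y ∈ openCube n) :
    (fun i => ((clampI y i : I) : ℝ)) = y := by
  funext i
  have h := hy i
  have : y i ∈ Set.Icc (0 : ℝ) 1 := ⟨h.1.le, h.2.le⟩
  simp [clampI, Set.projIcc_of_mem zero_le_one this]

theorem clampI_mem_boundary {y : Fin n → ℝ} (hy : y ∉ openCube n) :
    clampI y ∈ Cube.boundary (Fin n) := by
  have : ∃ i, ¬ (0 < y i ∧ y i < 1) := by
    by_contra h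
    push Not at h
    exact hy fun i => h i
  obtain ⟨i, hi⟩ := this
  refine ⟨i, ?_⟩
  by_cases h0 : y i ≤ 0
  · left
    exact Set.projIcc_of_le_left zero_le_one h0
  · right
    refine Set.projIcc_of_right_le zero_le_one ?_
    by_contra h1
    exact hi ⟨not_le.mp h0, not_le.mp h1⟩

theorem not_mem_openCube_of_mem_boundary {y : Fin n → I} (hy : y ∈ Cube.boundary (Fin n)) :
    (fun i => (y i : ℝ)) ∉ openCube n := by
  obtain ⟨i, hi⟩ := hy
  intro h
  have := h i
  rcases hi with hi | hi <;> simp [hi] at this

theorem ELoop.toGen_apply (p : ELoop n X x₀) (y : Fin n → I) :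
    p.toGen y = p (fun i => (y i : ℝ)) := rfl

theorem ELoop.toGen_clampI (p : ELoop n X x₀) (y : Fin n → ℝ) : p.toGen (clampI y) = p y := by
  by_cases hy : y ∈ openCube n
  · rw [ELoop.toGen_apply, coe_clampI_of_mem hy]
  · rw [p.off y hy]
    exact GenLoop.boundary _ _ (clampI_mem_boundary hy)

/-- the extension of a `GenLoop` by clamping -/
noncomputable def extGen (g : Ω^ (Fin n) X x₀) : ELoop n X x₀ where
  toFun := fun y => g (clampI y)
  cont := (map_continuous g.1).comp continuous_clampI
  off := fun _ hy => GenLoop.boundary _ _ (clampI_mem_boundary hy)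

theorem toGen_extGen (g : Ω^ (Fin n) X x₀) : (extGen g).toGen = g := by
  apply GenLoop.ext
  intro y
  change g (clampI fun i => (y i : ℝ)) = g y
  rw [clampI_coe]

theorem ELoop.homotopic_iff (p q : ELoop n X x₀) :
    GenLoop.Homotopic p.toGen q.toGen ↔ p.Homotopic q := by
  constructor
  · rintro ⟨H⟩
    refine ⟨fun t y => H (Set.projIcc 0 1 zero_le_one t, clampI y), ?_, ?_, ?_, ?_⟩
    · exact (map_continuous H).comp
        ((continuous_projIcc.comp continuous_fst).prodMk (continuous_clampI.comp continuous_snd))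
    · intro y
      have h0 : Set.projIcc (0 : ℝ) 1 zero_le_one 0 = 0 := Set.projIcc_left zero_le_one
      change H (Set.projIcc (0 : ℝ) 1 zero_le_one 0, clampI y) = p y
      rw [h0, H.apply_zero]
      exact p.toGen_clampI y
    · intro y
      have h0 : Set.projIcc (0 : ℝ) 1 zero_le_one 1 = 1 := Set.projIcc_right zero_le_one
      change H (Set.projIcc (0 : ℝ) 1 zero_le_one 1, clampI y) = q y
      rw [h0, H.apply_one]
      exact q.toGen_clampI y
    · intro t y hy
      have hb := clampI_mem_boundary hy
      change H (Set.projIcc (0 : ℝ) 1 zero_le_one t, clampI y) = x₀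
      rw [H.eq_fst _ hb]
      exact GenLoop.boundary p.toGen _ hb
  · rintro ⟨H, hc, h0, h1, hoff⟩
    refine ⟨⟨⟨⟨fun z => H (z.1 : ℝ) (fun i => (z.2 i : ℝ)), ?_⟩, ?_, ?_⟩, ?_⟩⟩
    · have : Continuous (fun z : I × (Fin n → I) => ((z.1 : ℝ), fun i => (z.2 i : ℝ))) := by
        fun_prop
      exact hc.comp this
    · intro y
      change H ((0 : I) : ℝ) (fun i => (y i : ℝ)) = p.toGen y
      rw [Set.Icc.coe_zero, h0, ELoop.toGen_apply]
    · intro y
      change H ((1 : I) : ℝ) (fun i => (y i : ℝ)) = q.toGen y
      rw [Set.Icc.coe_one, h1, ELoop.toGen_apply]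
    · intro t y hy
      change H (t : ℝ) (fun i => (y i : ℝ)) = p.toGen y
      rw [hoff _ _ (not_mem_openCube_of_mem_boundary hy)]
      exact (GenLoop.boundary p.toGen _ hy).symm

/-- Classes agree iff the loops are homotopic. -/
theorem cls_eq_iff (p q : ELoop (m + 2) X x₀) : p.cls = q.cls ↔ p.Homotopic q := by
  rw [← ELoop.homotopic_iff]
  constructor
  · intro h
    exact Quotient.exact h
  · intro h
    exact Quotient.sound h

/-- every element of the homotopy group is the class of a loop -/
theorem cls_surj (c : PiGrp m X x₀) : ∃ p : ELoop (m + 2) X x₀, p.cls = c := by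
  obtain ⟨g, hg⟩ := Quotient.exists_rep (Additive.toMul c)
  refine ⟨extGen g, ?_⟩
  unfold ELoop.cls
  rw [toGen_extGen]
  exact congrArg Additive.ofMul hg

theorem cls_const : (ELoop.const (m + 2) x₀).cls = 0 := by
  have : (ELoop.const (m + 2) x₀).toGen = GenLoop.const := rfl
  unfold ELoop.cls
  rw [this]
  rfl

/-- the function underlying the concatenation along the `i`-th coordinate -/
noncomputable def catFun (i : Fin n) (p q : (Fin n → ℝ) → X) (y : Fin n → ℝ) : X :=
  if y i ≤ 1 / 2 then p (Function.update y i (2 * y i)) else q (Function.update y i (2 * y i - 1))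

theorem update_not_mem_openCube {y : Fin n → ℝ} (i : Fin n) {a : ℝ} (ha : ¬ (0 < a ∧ a < 1)) :
    Function.update y i a ∉ openCube n := by
  intro h
  have := h i
  rw [Function.update_self] at this
  exact ha this

theorem catFun_continuous (i : Fin n) (p q : ELoop n X x₀) : Continuous (catFun i p q) := by
  have h1 : Continuous fun y : Fin n → ℝ => p (Function.update y i (2 * y i)) :=
    p.cont.comp (continuous_id.update i (continuous_const.mul (continuous_apply i)))
  have h2 : Continuous fun y : Fin n → ℝ => q (Function.update y i (2 * y i - 1)) :=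
    q.cont.comp (continuous_id.update i
      ((continuous_const.mul (continuous_apply i)).sub continuous_const))
  refine Continuous.if_le h1 h2 (continuous_apply i) continuous_const ?_
  intro y hy
  rw [p.off _ (update_not_mem_openCube i _), q.off _ (update_not_mem_openCube i _)]
  · rw [hy]
    norm_num
  · rw [hy]
    norm_num

theorem catFun_off (i : Fin n) (p q : ELoop n X x₀) (y : Fin n → ℝ) (hy : y ∉ openCube n) :
    catFun i p q y = x₀ := by
  have : ∃ j, ¬ (0 < y j ∧ y j < 1) := by
    by_contra h
    push Not at h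
    exact hy fun j => h j
  obtain ⟨j, hj⟩ := this
  have key : ∀ a : ℝ, (j = i → ¬ (0 < a ∧ a < 1)) → Function.update y i a ∉ openCube n := by
    intro a ha h
    have h' := h j
    by_cases hji : j = i
    · subst hji
      rw [Function.update_self] at h'
      exact ha rfl h'
    · rw [Function.update_of_ne hji] at h'
      exact hj h'
  unfold catFun
  split_ifs with hc
  · apply p.off
    apply key
    rintro rfl ⟨h1, h2⟩
    exact hj ⟨by linarith, by linarith⟩
  · apply q.off
    apply key
    rintro rfl ⟨h1, h2⟩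
    exact hj ⟨by linarith, by linarith⟩

/-- concatenation along the `i`-th coordinate -/
noncomputable def ELoop.cat (i : Fin n) (p q : ELoop n X x₀) : ELoop n X x₀ where
  toFun := catFun i p q
  cont := catFun_continuous i p q
  off := catFun_off i p q

theorem toGen_cat (i : Fin n) (p q : ELoop n X x₀) :
    (ELoop.cat i p q).toGen = GenLoop.transAt i p.toGen q.toGen := by
  apply GenLoop.ext
  intro y
  change catFun i p q (fun j => (y j : ℝ)) =
    if (y i : ℝ) ≤ 1 / 2 then p.toGen (Function.update y i (Set.projIcc 0 1 zero_le_one (2 * y i)))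
      else q.toGen (Function.update y i (Set.projIcc 0 1 zero_le_one (2 * y i - 1)))
  have key : ∀ a : ℝ, a ∈ Set.Icc (0 : ℝ) 1 →
      (fun j => ((Function.update y i (Set.projIcc 0 1 zero_le_one a) j : I) : ℝ)) =
        Function.update (fun j => (y j : ℝ)) i a := by
    intro a ha
    funext j
    by_cases hji : j = i
    · subst hji
      rw [Function.update_self, Function.update_self, Set.projIcc_of_mem zero_le_one ha]
    · rw [Function.update_of_ne hji, Function.update_of_ne hji]
  have hy := (y i).2
  unfold catFun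
  by_cases hc : (y i : ℝ) ≤ 1 / 2
  · rw [if_pos hc, if_pos hc, ELoop.toGen_apply, key _ ⟨by linarith [hy.1], by linarith⟩]
  · rw [if_neg hc, if_neg hc, ELoop.toGen_apply]
    have hc' := not_le.mp hc
    rw [key _ ⟨by linarith, by linarith [hy.2]⟩]

/-- the class of a concatenation is the sum of the classes -/
theorem cls_cat (i : Fin (m + 2)) (p q : ELoop (m + 2) X x₀) :
    (ELoop.cat i p q).cls = p.cls + q.cls := by
  rw [add_comm p.cls q.cls]
  unfold ELoop.cls
  rw [toGen_cat]
  exact congrArg Additive.ofMul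
    (HomotopyGroup.mul_spec (i := i) (p := q.toGen) (q := p.toGen)).symm

/-- precomposition with a continuous map preserving the complement of the open cube -/
def ELoop.pre (p : ELoop n X x₀) (A : (Fin n → ℝ) → (Fin n → ℝ)) (hA : Continuous A)
    (h : ∀ y, y ∉ openCube n → A y ∉ openCube n) : ELoop n X x₀ :=
  ⟨fun y => p (A y), p.cont.comp hA, fun y hy => p.off _ (h y hy)⟩

/-- homotopic reparametrisations give the same class -/
theorem cls_pre_congr (p : ELoop (m + 2) X x₀) (A : ℝ → (Fin (m + 2) → ℝ) → (Fin (m + 2) → ℝ))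
    (hA : Continuous (fun z : ℝ × (Fin (m + 2) → ℝ) => A z.1 z.2))
    (h : ∀ t y, y ∉ openCube (m + 2) → A t y ∉ openCube (m + 2)) :
    (p.pre (A 0) (hA.comp (by fun_prop : Continuous fun y => ((0 : ℝ), y))) (h 0)).cls =
      (p.pre (A 1) (hA.comp (by fun_prop : Continuous fun y => ((1 : ℝ), y))) (h 1)).cls := by
  rw [cls_eq_iff]
  exact ⟨fun t y => p (A t y), p.cont.comp hA, fun _ => rfl, fun _ => rfl,
    fun t y hy => p.off _ (h t y hy)⟩

end Vale.Agent.P093.T
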