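import Mathlib
import Vale.Agent.P093.T.Loops

/-!
Skeleta of a simplex, the collapse of the lower skeleton, and the map from the cube to the simplex.
-/

open Topology.Homotopy Set
open scoped unitInterval Topology

namespace Vale.Agent.P093.T

/-- support of a point of `W → ℝ` -/
noncomputable def spt {W : Type*} [Fintype W] (y : W → ℝ) : Finset W :=
  open Classical in Finset.univ.filter fun w => y w ≠ 0

/-- the `d`-skeleton of the simplex with vertex set `W` -/
def Sk (W : Type*) [Fintype W] (d : ℕ) : Set (W → ℝ) :=
  {y | y ∈ stdSimplex ℝ W ∧ (spt y).card ≤ d + 1}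

/-- vertex of the simplex -/
noncomputable def vtx {W : Type*} (w : W) : W → ℝ := open Classical in Pi.single w 1

theorem vtx_self {W : Type*} (w : W) : vtx w w = 1 := by
  simp [vtx]

theorem vtx_of_ne {W : Type*} {w v : W} (h : v ≠ w) : vtx w v = 0 := by
  simp [vtx, h]

theorem vtx_mem_Sk {W : Type*} [Fintype W] (w : W) (d : ℕ) : vtx w ∈ Sk W d := by
  classical
  refine ⟨⟨?_, ?_⟩, ?_⟩
  · intro v
    by_cases h : v = w
    · rw [h, vtx_self]; exact zero_le_one
    · rw [vtx_of_ne h]
  · rw [Finset.sum_eq_single w]
    · exact vtx_self w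
    · intro v _ h
      exact vtx_of_ne h
    · intro h
      exact absurd (Finset.mem_univ w) h
  · have h1 : spt (vtx w) ⊆ {w} := by
      intro v hv
      rw [Finset.mem_singleton]
      by_contra h
      have h2 : vtx w v ≠ 0 := (Finset.mem_filter.1 hv).2
      exact h2 (vtx_of_ne h)
    have h2 := Finset.card_le_card h1
    rw [Finset.card_singleton] at h2
    omega

variable {W : Type*} [Fintype W]

end Vale.Agent.P093.T
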