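import Vale.Agent.P093.Colors
import Vale.Agent.P093.MdimBridge
import Vale.Agent.P093.Hom.OrderDef
import Vale.Agent.P093.T.SkelDef
import Vale.Agent.P093.T.FullFun

/-!
Coloured covers give maps to the nerves of the covers `h^{-jM} V` with few vertices in total.
-/

open Set

namespace Vale.Agent.P093.T

/-- The part of a continuous function carried by one of two disjoint open sets is continuous. -/
theorem bm969_cont {X : Type*} [TopologicalSpace X] {f : X → ℝ} (hf : Continuous f)
    {U U' : Set X} (hU : IsOpen U) (hU' : IsOpen U') (hd : ∀ x, x ∈ U → x ∉ U')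
    (h : ∀ x, f x ≠ 0 → x ∈ U ∨ x ∈ U') : Continuous (U.indicator f) := by
  refine continuous_indicator (fun a ha => ?_) hf.continuousOn
  by_contra h0
  rw [hU.frontier_eq] at ha
  rcases h a h0 with h1 | h1
  · exact ha.2 h1
  · obtain ⟨y, hy', hy⟩ := mem_closure_iff.1 ha.1 U' hU' h1
    exact hd y hy hy'

/-- Finite open refinement of the join of small order. -/
theorem bm969_refine {X : Type*} [TopologicalSpace X] [Nonempty X] (h : X ≃ₜ X) {r : ℕ}
    (V : Fin r → Set X) (hV : ∀ i, IsOpen (V i)) (hcov : (⋃ i, V i) = univ) {N D : ℕ}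
    (hdim : coverDim (iterCover h (Set.range V) N) ≤ D) :
    ∃ 𝒱 : Set (Set X), IsFinCover 𝒱 ∧ Refines 𝒱 (iterCover h (Set.range V) N) ∧
      ∀ x : X, ∀ S : Finset (Set X), ↑S ⊆ 𝒱 → (∀ s ∈ S, x ∈ s) → S.card ≤ D + 1 := by
  have hR : IsFinCover (Set.range V) := by
    refine ⟨Set.finite_range V, ?_, ?_⟩
    · rintro _ ⟨i, rfl⟩
      exact hV i
    · rw [Set.sUnion_range]
      exact hcov
  have hne : (Set.range V).Nonempty := by
    obtain ⟨x⟩ := (inferInstance : Nonempty X)
    have hx : x ∈ ⋃ i, V i := by rw [hcov]; trivial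
    obtain ⟨i, -⟩ := Set.mem_iUnion.1 hx
    exact ⟨V i, i, rfl⟩
  have hF : IsFinCover (iterCover h (Set.range V) N) := by
    rw [iterCover_eq_coverJoin h hne]
    exact isFinCover_coverJoin h hR N
  have hset : {d : ℕ | ∃ 𝒱 : Set (Set X), IsFinOpenCover 𝒱 ∧
      (∀ W ∈ 𝒱, ∃ U ∈ iterCover h (Set.range V) N, W ⊆ U) ∧
      ∀ S ⊆ 𝒱, (⋂₀ S).Nonempty → S.encard ≤ d + 1}.Nonempty := by
    refine ⟨hF.1.toFinset.card, _, hF, fun u hu => ⟨u, hu, le_rfl⟩, fun S hS _ => ?_⟩
    have h1 : S.encard ≤ (iterCover h (Set.range V) N).encard := Set.encard_le_encard hS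
    rw [hF.1.encard_eq_coe_toFinset_card] at h1
    exact h1.trans (by exact_mod_cast Nat.le_succ _)
  obtain ⟨𝒱, h1, h2, h3⟩ := Nat.sInf_mem hset
  refine ⟨𝒱, h1, h2, fun x S hS hx => ?_⟩
  have h4 := h3 S hS ⟨x, fun s hs => hx s hs⟩
  rw [Set.encard_coe_eq_coe_finsetCard] at h4
  have h5 : S.card ≤ coverDim (iterCover h (Set.range V) N) + 1 := by exact_mod_cast h4
  omega

/-- `K₀` colours for each of the `J` blocks of length `M`. For the block `j` use the weights
`ω_c = ψ_c ∏_{c' < c} (1 - ψ_{c'})` of its colours `c < K₀`, put the weight `ω_c x` on the member of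
`V` (moved by `h^{jM}`) containing the piece of colour `c` at `x`, and the remaining weight
`∏_c (1 - ψ_c)` on the partition of unity subordinate to `V` at `h^{jM} x`. `mm j` is the number of
colours of the block `j` with `ψ_c x < 1`. -/
theorem exists_block_maps {X : Type*} [TopologicalSpace X] [CompactSpace X] [T2Space X]
    (h : X ≃ₜ X) {r : ℕ} (V : Fin r → Set X) (hV : ∀ i, IsOpen (V i)) (hcov : (⋃ i, V i) = univ)
    (M J K₀ D : ℕ) (hM : 0 < M) (hJ : 0 < J) (hD : D < J * K₀)
    (hdim : coverDim (iterCover h (Set.range V) (J * M)) ≤ D) :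
    ∃ g : Fin J → X → (Fin r → ℝ), (∀ j, Continuous (g j)) ∧
      ∀ x, ∃ mm : Fin J → ℕ, (∀ j, mm j ≤ K₀) ∧ ∑ j, mm j ≤ D ∧
        ∀ j : Fin J, g j x ∈ stdSimplex ℝ (Fin r) ∧
          (∀ i ∈ spt (g j x), (h ^ ((j : ℕ) * M)) x ∈ V i) ∧
          (mm j < K₀ → (spt (g j x)).card ≤ mm j + 1) := by
  classical
  rcases isEmpty_or_nonempty X with hX | hX
  · exact ⟨fun _ _ => 0, fun _ => continuous_const, fun x => isEmptyElim x⟩
  obtain ⟨𝒱, hV1, hV2, hV3⟩ := bm969_refine h V hV hcov hdim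
  obtain ⟨C, hC⟩ := exists_colored hV1 hV2 hV3 (J * K₀)
  obtain ⟨ψ, hψc, hψ01, hψs, hψq⟩ := exists_full_functions C hC
  -- labels
  have lab : ∀ (j : Fin J) (c : Fin (J * K₀)) (s : Set X), s ∈ C c →
      ∃ i, ∀ x ∈ s, (h ^ ((j : ℕ) * M)) x ∈ V i := by
    intro j c s hs
    obtain ⟨u, ⟨f, hf, rfl⟩, hsu⟩ := hC.ref c s hs
    obtain ⟨i, hi⟩ := hf ((j : ℕ) * M)
    refine ⟨i, fun x hx => ?_⟩
    have h1 := hsu hx
    rw [Set.mem_iInter₂] at h1
    have h2 := h1 ((j : ℕ) * M) (Finset.mem_range.2 (Nat.mul_lt_mul_of_pos_right j.2 hM))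
    rw [hi]
    exact h2
  choose L hL using lab
  let U : Fin J → Fin (J * K₀) → Fin r → Set X := fun j c i =>
    {x | ∃ s, ∃ hs : s ∈ C c, L j c s hs = i ∧ x ∈ s}
  have hUo : ∀ j c i, IsOpen (U j c i) := by
    intro j c i
    refine isOpen_iff_forall_mem_open.2 ?_
    rintro x ⟨s, hs, hi, hx⟩
    exact ⟨s, fun y hy => ⟨s, hs, hi, hy⟩, hC.op c s hs, hx⟩
  have hUu : ∀ j c i i' x, x ∈ U j c i → x ∈ U j c i' → i = i' := by
    rintro j c i i' x ⟨s, hs, hi, hx⟩ ⟨s', hs', hi', hx'⟩
    have h1 := hC.disj c s hs s' hs' ⟨x, hx, hx'⟩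
    subst h1
    rw [← hi, ← hi']
  have hUe : ∀ j c x, 0 < ψ c x → ∃ i, x ∈ U j c i := by
    intro j c x hx
    obtain ⟨s, hs, hxs⟩ := hψs c x hx
    exact ⟨L j c s hs, s, hs, rfl, hxs⟩
  have hUV : ∀ j c i x, x ∈ U j c i → (h ^ ((j : ℕ) * M)) x ∈ V i := by
    rintro j c i x ⟨s, hs, hi, hx⟩
    rw [← hi]
    exact hL j c s hs x hx
  -- partition of unity
  obtain ⟨φ, hφ⟩ := PartitionOfUnity.exists_isSubordinate_of_locallyFinite (s := (Set.univ : Set X))
    isClosed_univ V hV (locallyFinite_of_finite _) (by rw [hcov])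
  have hφ1 : ∀ x, ∑ i, φ i x = 1 := by
    intro x
    have := φ.sum_eq_one (x := x) (Set.mem_univ x)
    rwa [finsum_eq_sum_of_fintype] at this
  have hφV : ∀ i x, φ i x ≠ 0 → x ∈ V i := fun i x hx => hφ i (subset_tsupport _ hx)
  -- weights
  let e : Fin J × Fin K₀ ≃ Fin (J * K₀) := finProdFinEquiv
  let ω : Fin J → Fin K₀ → X → ℝ := fun j c x =>
    ψ (e (j, c)) x * ∏ c' ∈ Finset.univ.filter (· < c), (1 - ψ (e (j, c')) x)
  have hωc : ∀ j c, Continuous (ω j c) := fun j c => (hψc _).mul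
    (continuous_finsetProd _ fun c' _ => continuous_const.sub (hψc _))
  have hω0 : ∀ j c x, 0 ≤ ω j c x := fun j c x => mul_nonneg (hψ01 _ x).1
    (Finset.prod_nonneg fun c' _ => sub_nonneg.2 (hψ01 _ x).2)
  have hωψ : ∀ j c x, ω j c x ≠ 0 → 0 < ψ (e (j, c)) x := by
    intro j c x hx
    refine lt_of_le_of_ne (hψ01 _ x).1 fun h0 => hx ?_
    show ψ (e (j, c)) x * _ = 0
    rw [← h0, zero_mul]
  have hind : ∀ j c i, Continuous ((U j (e (j, c)) i).indicator (ω j c)) := by
    intro j c i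
    refine bm969_cont (hωc j c) (hUo _ _ _) (U' := {x | ∃ i', i' ≠ i ∧ x ∈ U j (e (j, c)) i'}) ?_ ?_ ?_
    · refine isOpen_iff_forall_mem_open.2 ?_
      rintro x ⟨i', hi', hx⟩
      exact ⟨U j (e (j, c)) i', fun y hy => ⟨i', hi', hy⟩, hUo _ _ _, hx⟩
    · rintro x hx ⟨i', hi', hx'⟩
      exact hi' (hUu _ _ _ _ x hx' hx)
    · intro x hx
      obtain ⟨i', hi'⟩ := hUe j (e (j, c)) x (hωψ j c x hx)
      by_cases hii : i' = i
      · left; rw [← hii]; exact hi'
      · right; exact ⟨i', hii, hi'⟩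
  have hsum1 : ∀ j c x, ∑ i, (U j (e (j, c)) i).indicator (ω j c) x = ω j c x := by
    intro j c x
    by_cases hx : ω j c x = 0
    · rw [hx]
      refine Finset.sum_eq_zero fun i _ => ?_
      rw [Set.indicator_apply, hx, ite_self]
    · obtain ⟨i, hi⟩ := hUe j (e (j, c)) x (hωψ j c x hx)
      rw [Finset.sum_eq_single i, Set.indicator_of_mem hi]
      · intro i' _ hi'
        exact Set.indicator_of_notMem (fun h1 => hi' (hUu _ _ _ _ x h1 hi)) _
      · intro h1
        exact absurd (Finset.mem_univ i) h1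
  have htel : ∀ j x, ∑ c, ω j c x + ∏ c, (1 - ψ (e (j, c)) x) = 1 := by
    intro j x
    have h1 := Finset.prod_one_sub_ordered (Finset.univ : Finset (Fin K₀)) fun c => ψ (e (j, c)) x
    rw [h1]
    show ∑ c, ψ (e (j, c)) x * ∏ c' ∈ Finset.univ.filter (· < c), (1 - ψ (e (j, c')) x) + _ = 1
    ring
  refine ⟨fun j x i => ∑ c, (U j (e (j, c)) i).indicator (ω j c) x +
    (∏ c, (1 - ψ (e (j, c)) x)) * φ i ((h ^ ((j : ℕ) * M)) x), ?_, ?_⟩
  · intro j
    refine continuous_pi fun i => (continuous_finsetSum _ fun c _ => hind j c i).add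
      ((continuous_finsetProd _ fun c _ => continuous_const.sub (hψc _)).mul
        ((φ i).continuous.comp (h ^ ((j : ℕ) * M)).continuous))
  · intro x
    refine ⟨fun j => (Finset.univ.filter fun c : Fin K₀ => ψ (e (j, c)) x < 1).card, ?_, ?_, ?_⟩
    · intro j
      exact (Finset.card_le_univ _).trans (by simp)
    · have h1 : ∑ j, (Finset.univ.filter fun c : Fin K₀ => ψ (e (j, c)) x < 1).card =
          (Finset.univ.filter fun c => ψ c x < 1).card := by
        simp only [Finset.card_filter]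
        rw [← Fintype.sum_prod_type' (f := fun j c => if ψ (e (j, c)) x < 1 then 1 else 0)]
        exact Fintype.sum_equiv e _ _ fun p => rfl
      show ∑ j, (Finset.univ.filter fun c : Fin K₀ => ψ (e (j, c)) x < 1).card ≤ D
      rw [h1]
      exact hψq x
    · intro j
      have hnz : ∀ i, i ∈ spt (fun i => ∑ c, (U j (e (j, c)) i).indicator (ω j c) x +
          (∏ c, (1 - ψ (e (j, c)) x)) * φ i ((h ^ ((j : ℕ) * M)) x)) →
          (∃ c, x ∈ U j (e (j, c)) i ∧ ω j c x ≠ 0) ∨
          (∏ c, (1 - ψ (e (j, c)) x) ≠ 0 ∧ φ i ((h ^ ((j : ℕ) * M)) x) ≠ 0) := by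
        intro i hi
        have h1 := (Finset.mem_filter.1 hi).2
        by_contra hcon
        push Not at hcon
        obtain ⟨ha, hb⟩ := hcon
        apply h1
        show ∑ c, (U j (e (j, c)) i).indicator (ω j c) x +
          (∏ c, (1 - ψ (e (j, c)) x)) * φ i ((h ^ ((j : ℕ) * M)) x) = 0
        have h2 : ∑ c, (U j (e (j, c)) i).indicator (ω j c) x = 0 := by
          refine Finset.sum_eq_zero fun c _ => ?_
          by_cases hc : x ∈ U j (e (j, c)) i
          · rw [Set.indicator_of_mem hc]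
            exact ha c hc
          · exact Set.indicator_of_notMem hc _
        rw [h2, zero_add]
        by_cases hp : ∏ c, (1 - ψ (e (j, c)) x) = 0
        · rw [hp, zero_mul]
        · rw [hb hp, mul_zero]
      refine ⟨⟨?_, ?_⟩, ?_, ?_⟩
      · intro i
        exact add_nonneg (Finset.sum_nonneg fun c _ => Set.indicator_nonneg (fun y _ => hω0 j c y) x)
          (mul_nonneg (Finset.prod_nonneg fun c _ => sub_nonneg.2 (hψ01 _ x).2) (φ.nonneg i _))
      · show ∑ i, (∑ c, (U j (e (j, c)) i).indicator (ω j c) x +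
          (∏ c, (1 - ψ (e (j, c)) x)) * φ i ((h ^ ((j : ℕ) * M)) x)) = 1
        rw [Finset.sum_add_distrib, Finset.sum_comm, ← Finset.mul_sum, hφ1, mul_one,
          Finset.sum_congr rfl fun c _ => hsum1 j c x]
        exact htel j x
      · intro i hi
        rcases hnz i hi with ⟨c, hc, -⟩ | ⟨-, h2⟩
        · exact hUV j _ i x hc
        · exact hφV i _ h2
      · intro hmm
        replace hmm : (Finset.univ.filter fun c : Fin K₀ => ψ (e (j, c)) x < 1).card < K₀ := hmm
        -- some colour is full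
        have hfull : ∃ c : Fin K₀, ψ (e (j, c)) x = 1 := by
          by_contra hcon
          push Not at hcon
          have h1 : (Finset.univ.filter fun c : Fin K₀ => ψ (e (j, c)) x < 1) = Finset.univ :=
            Finset.filter_true_of_mem fun c _ => lt_of_le_of_ne (hψ01 _ x).2 (hcon c)
          have h2 : (Finset.univ.filter fun c : Fin K₀ => ψ (e (j, c)) x < 1).card = K₀ := by
            rw [h1, Finset.card_univ, Fintype.card_fin]
          omega
        obtain ⟨cs, hcs⟩ := hfull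
        have hp0 : ∏ c, (1 - ψ (e (j, c)) x) = 0 :=
          Finset.prod_eq_zero (Finset.mem_univ cs) (by rw [hcs, sub_self])
        have hex : ∀ i, i ∈ spt (fun i => ∑ c, (U j (e (j, c)) i).indicator (ω j c) x +
            (∏ c, (1 - ψ (e (j, c)) x)) * φ i ((h ^ ((j : ℕ) * M)) x)) →
            ∃ c, x ∈ U j (e (j, c)) i ∧ ω j c x ≠ 0 := by
          intro i hi
          rcases hnz i hi with h1 | ⟨h1, -⟩
          · exact h1
          · exact absurd hp0 h1
        -- injection
        have hcard : (spt (fun i => ∑ c, (U j (e (j, c)) i).indicator (ω j c) x +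
            (∏ c, (1 - ψ (e (j, c)) x)) * φ i ((h ^ ((j : ℕ) * M)) x))).card ≤
            (Finset.univ.filter fun c : Fin K₀ => ω j c x ≠ 0).card := by
          refine Finset.card_le_card_of_forall_subsingleton
            (fun i c => x ∈ U j (e (j, c)) i) ?_ ?_
          · intro i hi
            obtain ⟨c, hc1, hc2⟩ := hex i hi
            exact ⟨c, Finset.mem_filter.2 ⟨Finset.mem_univ _, hc2⟩, hc1⟩
          · intro c _ i hi i' hi'
            exact hUu _ _ _ _ x hi.2 hi'.2
        have hone : (Finset.univ.filter fun c : Fin K₀ => ω j c x ≠ 0 ∧ ψ (e (j, c)) x = 1).card ≤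
            1 := by
          refine Finset.card_le_one.2 fun c hc c' hc' => ?_
          have key : ∀ a b : Fin K₀, ω j b x ≠ 0 → ψ (e (j, a)) x = 1 → ¬ a < b := by
            intro a b hb ha hab
            apply hb
            show ψ (e (j, b)) x * ∏ c' ∈ Finset.univ.filter (· < b), (1 - ψ (e (j, c')) x) = 0
            rw [Finset.prod_eq_zero (Finset.mem_filter.2 ⟨Finset.mem_univ a, hab⟩)
              (by rw [ha, sub_self]), mul_zero]
          obtain ⟨-, h1, h2⟩ := Finset.mem_filter.1 hc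
          obtain ⟨-, h3, h4⟩ := Finset.mem_filter.1 hc'
          exact le_antisymm (not_lt.1 (key c' c h1 h4)) (not_lt.1 (key c c' h3 h2))
        have hsub : (Finset.univ.filter fun c : Fin K₀ => ω j c x ≠ 0) ⊆
            (Finset.univ.filter fun c : Fin K₀ => ψ (e (j, c)) x < 1) ∪
            (Finset.univ.filter fun c : Fin K₀ => ω j c x ≠ 0 ∧ ψ (e (j, c)) x = 1) := by
          intro c hc
          have h1 := (Finset.mem_filter.1 hc).2
          rw [Finset.mem_union, Finset.mem_filter, Finset.mem_filter]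
          rcases lt_or_eq_of_le (hψ01 (e (j, c)) x).2 with h2 | h2
          · exact Or.inl ⟨Finset.mem_univ _, h2⟩
          · exact Or.inr ⟨Finset.mem_univ _, h1, h2⟩
        have h1 := Finset.card_le_card hsub
        have h2 := Finset.card_union_le
          (Finset.univ.filter fun c : Fin K₀ => ψ (e (j, c)) x < 1)
          (Finset.univ.filter fun c : Fin K₀ => ω j c x ≠ 0 ∧ ψ (e (j, c)) x = 1)
        refine hcard.trans ?_
        show (Finset.univ.filter fun c : Fin K₀ => ω j c x ≠ 0).card ≤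
          (Finset.univ.filter fun c : Fin K₀ => ψ (e (j, c)) x < 1).card + 1
        omega

end Vale.Agent.P093.T
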