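import Vale.Agent.P093.T.ChainDef

/-!
From a homological order bound of a cover `𝒲` to chain data on the nerve of a fine cover.
-/

open Set

namespace Vale.Agent.P093.T

/-- the nerve of a finite family of sets -/
def nerve {X ι : Type*} (V : ι → Set X) : Set (Finset ι) :=
  {s | s.Nonempty ∧ (⋂ i ∈ s, V i).Nonempty}

namespace Sample

/-- push-forward of ordered chains under a map of vertices -/
private noncomputable def push {A B : Type*} (f : A → B) : OChain A →+ OChain B :=
  Finsupp.mapDomain.addMonoidHom (List.map f)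

private lemma push_apply {A B : Type*} (f : A → B) (c : OChain A) :
    push f c = c.mapDomain (List.map f) := rfl

private lemma push_single {A B : Type*} (f : A → B) (s : List A) (n : ℤ) :
    push f (Finsupp.single s n) = Finsupp.single (s.map f) n := by
  rw [push_apply, Finsupp.mapDomain_single]

/-- `extend F` as an additive map -/
private noncomputable def exHom {V M : Type*} [AddCommGroup M] (F : List V → M) : OChain V →+ M where
  toFun := extend F
  map_zero' := by simp [extend]
  map_add' a b := by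
    unfold extend
    exact Finsupp.sum_add_index' (fun _ => zero_smul _ _) (fun _ _ _ => add_smul _ _ _)

private lemma exHom_apply {V M : Type*} [AddCommGroup M] (F : List V → M) (c : OChain V) :
    exHom F c = extend F c := rfl

private lemma extend_single {V M : Type*} [AddCommGroup M] (F : List V → M) (s : List V) (n : ℤ) :
    extend F (Finsupp.single s n) = n • F s := by
  unfold extend
  exact Finsupp.sum_single_index (h := fun s (n : ℤ) => n • F s) (zero_smul ℤ (F s))

private lemma extend_push {A B M : Type*} [AddCommGroup M] (f : A → B) (F : List B → M) (c : OChain A) :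
    extend F (push f c) = extend (fun s => F (s.map f)) c := by
  unfold extend
  rw [push_apply]
  exact Finsupp.sum_mapDomain_index (h := fun s (n : ℤ) => n • F s) (fun _ => zero_smul _ _)
    (fun _ _ _ => add_smul _ _ _)

private lemma push_extend {V A B : Type*} (f : A → B) (F : List V → OChain A) (c : OChain V) :
    push f (extend F c) = extend (fun s => push f (F s)) c := by
  unfold extend
  rw [map_finsuppSum]
  refine Finsupp.sum_congr fun s _ => ?_
  rw [map_zsmul]

private lemma boundary_map {A B : Type*} (f : A → B) (s : List A) :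
    simplexBoundary (s.map f) = push f (simplexBoundary s) := by
  unfold simplexBoundary
  rw [List.length_map]
  split_ifs with h
  · rw [map_zero]
  · rw [map_sum]
    refine Finset.sum_congr rfl fun i _ => ?_
    rw [map_zsmul, push_single, List.eraseIdx_map]

private lemma boundary_push {A B : Type*} (f : A → B) (c : OChain A) :
    extend simplexBoundary (push f c) = push f (extend simplexBoundary c) := by
  rw [extend_push, push_extend]
  simp only [boundary_map]

private lemma extend_boundary {V M : Type*} [AddCommGroup M] (F : List V → M) (x : List V)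
    (hx : 2 ≤ x.length) :
    extend F (simplexBoundary x) = ∑ i ∈ Finset.range x.length, (-1 : ℤ) ^ i • F (x.eraseIdx i) := by
  rw [simplexBoundary, if_neg (by omega), ← exHom_apply, map_sum]
  refine Finset.sum_congr rfl fun i _ => ?_
  rw [map_zsmul, exHom_apply, extend_single, one_smul]

private lemma sort_face {U : Type*} [LinearOrder U] (s : Finset U) (j : ℕ) :
    (faceF s j).sort (· ≤ ·) = (s.sort (· ≤ ·)).eraseIdx j := by
  unfold faceF
  have hsub : ((s.sort (· ≤ ·)).eraseIdx j).Sublist (s.sort (· ≤ ·)) := List.eraseIdx_sublist _ _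
  have hn : ((s.sort (· ≤ ·)).eraseIdx j).Nodup := hsub.nodup (s.sort_nodup _)
  have hs := (s.pairwise_sort (· ≤ ·)).sublist hsub
  exact (List.toFinset_sort (· ≤ ·) hn).2 hs

end Sample

open Sample in
/-- `𝒲` has homological order `≤ m + 2`; `e A` is an open set containing the closure of `A` for
`A ∈ 𝒲`. Then there are a finite open cover `V` of `X`, indexed by `Fin r`, a finite index set of
members of `𝒲` (`name`) and chain data on the nerve of `V` with carriers `S i`, such that
`V i ⊆ e (name w)` for `w ∈ S i`. (Lebesgue number: choose the `V i` so small that `V i ∩ A ≠ ∅`,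
`A ∈ 𝒲`, implies `V i ⊆ e A`, and that the union of any members with a common point lies in a member
of the cover `𝒢` of the chain map; choose `x i ∈ V i`, `V i ≠ ∅`, `S i = {A ∈ 𝒲 | x i ∈ A}`,
`F s = Φ (the list of the x i, i ∈ s)`.) The space is compact Hausdorff (uniform structure, or
finite combinations of covers); metrizable may be assumed. -/
theorem exists_sample {X : Type*} [TopologicalSpace X] [CompactSpace X]
    [TopologicalSpace.MetrizableSpace X] (𝒲 : Set (Set X)) (h𝒲 : IsFinOpenCover 𝒲)
    (e : Set X → Set X) (he : ∀ A ∈ 𝒲, IsOpen (e A) ∧ closure A ⊆ e A) (m : ℕ)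
    (hd : HomOrderLE 𝒲 (m + 2)) :
    ∃ (r : ℕ) (V : Fin r → Set X) (q : ℕ) (name : Fin q → Set X) (S : Fin r → Finset (Fin q))
      (F : Finset (Fin r) → OChain (Fin q)),
      (∀ i, IsOpen (V i)) ∧ (⋃ i, V i) = univ ∧ (∀ w, name w ∈ 𝒲) ∧ (∀ i, (S i).Nonempty) ∧
      (∀ i, ∀ w ∈ S i, V i ⊆ e (name w)) ∧ ChainData (nerve V) S (m + 3) F := by
  classical
  let _ : MetricSpace X := TopologicalSpace.metrizableSpaceMetric X
  obtain ⟨hfin, hop, hcov⟩ := h𝒲
  obtain ⟨𝒢, Φ, ⟨-, h𝒢o, h𝒢c⟩, hΦ⟩ := hd
  -- enumeration of the members of `𝒲`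
  obtain ⟨q, name, hname, hidx⟩ : ∃ (q : ℕ) (name : Fin q → Set X), (∀ w, name w ∈ 𝒲) ∧
      ∀ A ∈ 𝒲, ∃ w, name w = A := by
    have _ : Fintype 𝒲 := hfin.fintype
    refine ⟨Fintype.card 𝒲, fun w => ((Fintype.equivFin 𝒲).symm w : Set X), fun w => Subtype.coe_prop _,
      fun A hA => ⟨Fintype.equivFin 𝒲 ⟨A, hA⟩, ?_⟩⟩
    simp
  -- first radius
  obtain ⟨δ₁, hδ₁, hδ₁'⟩ : ∃ δ : ℝ, 0 < δ ∧ ∀ A ∈ 𝒲, ∀ x ∈ A, Metric.ball x δ ⊆ e A := by
    have h1 : ∀ A : Set X, ∃ δ : ℝ, 0 < δ ∧ (A ∈ 𝒲 → ∀ x ∈ A, Metric.ball x δ ⊆ e A) := by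
      intro A
      by_cases hA : A ∈ 𝒲
      · obtain ⟨δ, hδ, h⟩ := isClosed_closure.isCompact.exists_thickening_subset_open (he A hA).1 (he A hA).2
        refine ⟨δ, hδ, fun _ x hx => (Metric.ball_subset_thickening (subset_closure hx) δ).trans h⟩
      · exact ⟨1, one_pos, fun h => absurd h hA⟩
    choose δ hδ h using h1
    by_cases hne : 𝒲.Nonempty
    · obtain ⟨A₀, hA₀, hmin⟩ := hfin.exists_minimalFor δ 𝒲 hne
      refine ⟨δ A₀, hδ _, fun A hA x hx => ?_⟩
      refine (Metric.ball_subset_ball ?_).trans (h A hA x hx)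
      by_contra hlt
      exact hlt ((hmin hA (le_of_not_ge hlt)))
    · rw [Set.not_nonempty_iff_eq_empty] at hne
      exact ⟨1, one_pos, fun A hA => by simp [hne] at hA⟩
  -- second radius
  obtain ⟨δ₂, hδ₂, hδ₂'⟩ := lebesgue_number_lemma_of_metric_sUnion (s := (univ : Set X)) isCompact_univ
    h𝒢o h𝒢c.ge
  set δ := min δ₁ δ₂ with hδdef
  have hδ : 0 < δ := lt_min hδ₁ hδ₂
  -- the cover by balls
  obtain ⟨t, -, htf, htc⟩ := (isCompact_univ (X := X)).finite_cover_balls hδ
  obtain ⟨r, x, hx⟩ : ∃ (r : ℕ) (x : Fin r → X), (⋃ i, Metric.ball (x i) δ) = univ := by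
    have _ : Fintype t := htf.fintype
    refine ⟨Fintype.card t, fun i => ((Fintype.equivFin t).symm i : X), ?_⟩
    rw [eq_univ_iff_forall]
    intro y
    have := htc (mem_univ y)
    simp only [mem_iUnion] at this
    obtain ⟨z, hz, hyz⟩ := this
    refine mem_iUnion.2 ⟨Fintype.equivFin t ⟨z, hz⟩, ?_⟩
    simpa using hyz
  -- index function
  by_cases hX : IsEmpty X
  · refine ⟨0, fun i => i.elim0, q, name, fun i => i.elim0, fun _ => 0, fun i => i.elim0, ?_, hname,
      fun i => i.elim0, fun i => i.elim0, ?_⟩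
    · exact Subsingleton.elim _ _
    · refine ⟨?_, ?_, ?_, ?_⟩ <;>
      · rintro s ⟨⟨i, -⟩, -⟩
        exact i.elim0
  rw [not_isEmpty_iff] at hX
  obtain ⟨x₀⟩ := hX
  have hmem : ∀ z : X, ∃ A ∈ 𝒲, z ∈ A := fun z => by
    have : z ∈ ⋃₀ 𝒲 := by rw [hcov]; exact mem_univ z
    exact this
  obtain ⟨A₁, hA₁, -⟩ := hmem x₀
  obtain ⟨w₁, -⟩ := hidx A₁ hA₁
  obtain ⟨idx, hidx'⟩ : ∃ idx : Set X → Fin q, ∀ A ∈ 𝒲, name (idx A) = A := by
    refine ⟨fun A => if h : A ∈ 𝒲 then (hidx A h).choose else w₁, fun A hA => ?_⟩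
    simp only [dif_pos hA]
    exact (hidx A hA).choose_spec
  -- smallness of the sample lists
  have hsmall : ∀ s ∈ nerve (fun i => Metric.ball (x i) δ), imgList x s ≠ [] ∧
      ∃ G ∈ 𝒢, ∀ y ∈ imgList x s, y ∈ G := by
    rintro s ⟨⟨i, hi⟩, ⟨z, hz⟩⟩
    constructor
    · intro h0
      have : (imgList x s).length = s.card := by simp [imgList]
      rw [h0, List.length_nil] at this
      exact (Finset.card_pos.2 ⟨i, hi⟩).ne this
    · obtain ⟨G, hG, hzG⟩ := hδ₂' z (mem_univ z)
      refine ⟨G, hG, fun y hy => hzG ?_⟩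
      simp only [imgList, List.mem_map, Finset.mem_sort] at hy
      obtain ⟨j, hj, rfl⟩ := hy
      simp only [mem_iInter] at hz
      have := hz j hj
      rw [Metric.mem_ball] at this ⊢
      rw [dist_comm]
      exact this.trans_le (min_le_right _ _)
  have hlen : ∀ s : Finset (Fin r), (imgList x s).length = s.card := fun s => by simp [imgList]
  refine ⟨r, fun i => Metric.ball (x i) δ, q, name, fun i => Finset.univ.filter fun w => x i ∈ name w,
    fun s => push idx (Φ (imgList x s)), fun i => Metric.isOpen_ball, hx, hname, ?_, ?_, ?_⟩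
  · intro i
    obtain ⟨A, hA, hxA⟩ := hmem (x i)
    refine ⟨idx A, ?_⟩
    simp only [Finset.mem_filter, Finset.mem_univ, true_and]
    rw [hidx' A hA]
    exact hxA
  · intro i w hw
    simp only [Finset.mem_filter, Finset.mem_univ, true_and] at hw
    exact (Metric.ball_subset_ball (min_le_left _ _)).trans (hδ₁' _ (hname w) _ hw)
  · refine ⟨?_, ?_, ?_, ?_⟩
    · intro s hs l hl
      obtain ⟨hne, hG⟩ := hsmall s hs
      have hsup := (hΦ _ hne hG).1
      have hl' := Finsupp.mapDomain_support hl
      rw [Finset.mem_image] at hl'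
      obtain ⟨l', hl', rfl⟩ := hl'
      obtain ⟨h1, h2⟩ := hsup l' hl'
      refine ⟨by rw [List.length_map, h1, hlen], fun w hw => ?_⟩
      rw [List.mem_map] at hw
      obtain ⟨W, hW, rfl⟩ := hw
      obtain ⟨hW1, hW2⟩ := h2 W hW
      obtain ⟨⟨i, hi⟩, -⟩ := hs
      simp only [Finset.mem_biUnion, Finset.mem_filter, Finset.mem_univ, true_and]
      refine ⟨i, hi, ?_⟩
      rw [hidx' W hW1]
      refine hW2 (x i) ?_
      simp only [imgList, List.mem_map, Finset.mem_sort]
      exact ⟨i, hi, rfl⟩
    · intro s hs hc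
      obtain ⟨hne, hG⟩ := hsmall s hs
      have hb := (hΦ _ hne hG).2.1
      rw [boundary_push, hb, extend_boundary Φ _ (by rw [hlen]; exact hc), map_sum, hlen]
      refine Finset.sum_congr rfl fun j _ => ?_
      rw [map_zsmul]
      congr 3
      unfold imgList
      rw [sort_face, List.eraseIdx_map]
    · intro s hs hc
      obtain ⟨hne, hG⟩ := hsmall s hs
      have ha := (hΦ _ hne hG).2.2.1 (by rw [hlen]; exact hc)
      rw [push_apply, Finsupp.sum_mapDomain_index (fun _ => rfl) (fun _ _ _ => rfl)]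
      exact ha
    · intro s hs hc
      obtain ⟨hne, hG⟩ := hsmall s hs
      have hv := (hΦ _ hne hG).2.2.2 (by rw [hlen]; omega)
      rw [hv, map_zero]

end Vale.Agent.P093.T
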