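import Vale.Agent.P093.Hom.OrderDef
import Vale.Agent.P093.T.SkelDef

/-!
The threshold trick: a product of maps to simplices with small total support size gives an open
cover of small order refining the product of the stars.

PROOF. Fix a linear order on `W`. For a tuple `w : Fin J → W` let `U_w` be the set of `x` with
`S_j^-(w_j)(x) < S_k(w_k)(x)` for all `j, k`, where `S_j(v)(x) = ∑_{v' ≤ v} y_j(x)(v')` and
`S_j^-(v)(x) = ∑_{v' < v} y_j(x)(v')`. It is open; the tuple of the least elements of the supports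
shows that these sets cover `X`; `x ∈ U_w` implies `y_j(x)(w_j) > 0` for all `j`. The numbers
`max_j S_j^-(w_j)(x)` of the tuples with `x ∈ U_w` are distinct, and they are `0` or one of the at
most `∑_j (card (spt (y_j x)) - 1)` partial sums in `(0,1)`.
-/

open Set

namespace Vale.Agent.P093.T

variable {X : Type*} [TopologicalSpace X] {W : Type*} [Fintype W]

theorem threshold {J : ℕ} (hJ : 0 < J) (y : Fin J → X → (W → ℝ)) (hy : ∀ j, Continuous (y j))
    (hm : ∀ j x, y j x ∈ stdSimplex ℝ W) (E : ℕ)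
    (hE : ∀ x, ∑ j, ((spt (y j x)).card - 1) ≤ E)
    (O : Fin J → W → Set X) (hO : ∀ j x, ∀ w ∈ spt (y j x), x ∈ O j w) :
    ∃ 𝒱 : Set (Set X), IsFinOpenCover 𝒱 ∧ (∀ A ∈ 𝒱, ∃ w : Fin J → W, A ⊆ ⋂ j, O j (w j)) ∧
      ∀ S ⊆ 𝒱, (⋂₀ S).Nonempty → S.encard ≤ E + 1 := by
  classical
  letI : LinearOrder W := LinearOrder.lift' (Fintype.equivFin W) (Fintype.equivFin W).injective
  have hJne : (Finset.univ : Finset (Fin J)).Nonempty := ⟨⟨0, hJ⟩, Finset.mem_univ _⟩
  let Sm : Fin J → W → X → ℝ := fun j v x => ∑ u ∈ Finset.univ.filter (fun u => u < v), y j x u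
  let Sp : Fin J → W → X → ℝ := fun j v x => ∑ u ∈ Finset.univ.filter (fun u => u ≤ v), y j x u
  have hyc : ∀ j u, Continuous fun x => y j x u := fun j u => (continuous_apply u).comp (hy j)
  have hSmc : ∀ j v, Continuous (Sm j v) := fun j v =>
    continuous_finsetSum _ fun u _ => hyc j u
  have hSpc : ∀ j v, Continuous (Sp j v) := fun j v =>
    continuous_finsetSum _ fun u _ => hyc j u
  have hy0 : ∀ j x u, 0 ≤ y j x u := fun j x u => (hm j x).1 u
  have hSp : ∀ j v x, Sp j v x = Sm j v x + y j x v := by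
    intro j v x
    have h1 : Finset.univ.filter (fun u => u ≤ v) = insert v (Finset.univ.filter (fun u => u < v)) := by
      ext u
      simp only [Finset.mem_filter, Finset.mem_univ, true_and, Finset.mem_insert]
      exact le_iff_eq_or_lt
    show ∑ u ∈ Finset.univ.filter (fun u => u ≤ v), y j x u = _
    rw [h1, Finset.sum_insert (by simp), add_comm]
  have hmono : ∀ j v v' x, v < v' → Sp j v x ≤ Sm j v' x := by
    intro j v v' x h
    refine Finset.sum_le_sum_of_subset_of_nonneg ?_ fun u _ _ => hy0 j x u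
    intro u hu
    simp only [Finset.mem_filter, Finset.mem_univ, true_and] at hu ⊢
    exact lt_of_le_of_lt hu h
  have hnn : ∀ j v x, 0 ≤ Sm j v x := fun j v x => Finset.sum_nonneg fun u _ => hy0 j x u
  have hspt : ∀ j x, (spt (y j x)).Nonempty := by
    intro j x
    by_contra h
    rw [Finset.not_nonempty_iff_eq_empty] at h
    have h1 : ∑ u, y j x u = 0 := by
      apply Finset.sum_eq_zero
      intro u _
      by_contra h2
      have : u ∈ spt (y j x) := Finset.mem_filter.2 ⟨Finset.mem_univ _, h2⟩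
      rw [h] at this
      exact absurd this (Finset.notMem_empty u)
    rw [(hm j x).2] at h1
    exact one_ne_zero h1
  have hmin : ∀ j x, Sm j ((spt (y j x)).min' (hspt j x)) x = 0 := by
    intro j x
    apply Finset.sum_eq_zero
    intro u hu
    by_contra h2
    have h3 : u ∈ spt (y j x) := Finset.mem_filter.2 ⟨Finset.mem_univ _, h2⟩
    have h4 := Finset.min'_le _ u h3
    simp only [Finset.mem_filter, Finset.mem_univ, true_and] at hu
    exact absurd hu (not_lt.2 h4)
  let U : (Fin J → W) → Set X := fun w => {x | ∀ j k, Sm j (w j) x < Sp k (w k) x}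
  have hUspt : ∀ w x, x ∈ U w → ∀ j, w j ∈ spt (y j x) := by
    intro w x hx j
    have h1 := hx j j
    rw [hSp] at h1
    refine Finset.mem_filter.2 ⟨Finset.mem_univ _, ?_⟩
    intro h0
    rw [h0, add_zero] at h1
    exact lt_irrefl _ h1
  refine ⟨Set.range U, ?_, ?_, ?_⟩
  · refine ⟨Set.finite_range U, ?_, ?_⟩
    · rintro A ⟨w, rfl⟩
      have : U w = ⋂ j, ⋂ k, {x | Sm j (w j) x < Sp k (w k) x} := by
        ext x
        simp [U]
      rw [this]
      exact isOpen_iInter_of_finite fun j => isOpen_iInter_of_finite fun k =>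
        isOpen_lt (hSmc _ _) (hSpc _ _)
    · rw [Set.eq_univ_iff_forall]
      intro x
      refine ⟨U fun j => (spt (y j x)).min' (hspt j x), ⟨_, rfl⟩, ?_⟩
      intro j k
      rw [hSp, hmin j x, hmin k x, zero_add]
      have h1 := (Finset.mem_filter.1 (Finset.min'_mem _ (hspt k x))).2
      exact lt_of_le_of_ne (hy0 k x _) (Ne.symm h1)
  · rintro A ⟨w, rfl⟩
    refine ⟨w, fun x hx => ?_⟩
    rw [Set.mem_iInter]
    exact fun j => hO j x _ (hUspt w x hx j)
  · intro S hS hne
    obtain ⟨x, hx⟩ := hne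
    -- the tuples containing `x`
    let T : Finset (Fin J → W) := Finset.univ.filter fun w => x ∈ U w
    let a : (Fin J → W) → ℝ := fun w => Finset.univ.sup' hJne fun j => Sm j (w j) x
    let P : Fin J → Finset ℝ := fun j => (spt (y j x)).image fun v => Sm j v x
    let Q : Finset ℝ := insert 0 (Finset.univ.biUnion fun j => (P j).erase 0)
    have hQ : Q.card ≤ E + 1 := by
      refine (Finset.card_insert_le _ _).trans ?_
      gcongr
      refine Finset.card_biUnion_le.trans ((Finset.sum_le_sum fun j _ => ?_).trans (hE x))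
      have h0 : (0 : ℝ) ∈ P j :=
        Finset.mem_image.2 ⟨_, Finset.min'_mem _ (hspt j x), hmin j x⟩
      rw [Finset.card_erase_of_mem h0]
      exact Nat.sub_le_sub_right Finset.card_image_le 1
    have haQ : ∀ w ∈ T, a w ∈ Q := by
      intro w hw
      have hw' : x ∈ U w := (Finset.mem_filter.1 hw).2
      obtain ⟨j, -, hj⟩ := Finset.exists_mem_eq_sup' hJne fun j => Sm j (w j) x
      show Finset.univ.sup' hJne (fun j => Sm j (w j) x) ∈ Q
      rw [hj]
      rcases eq_or_ne (Sm j (w j) x) 0 with h0 | h0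
      · rw [h0]
        exact Finset.mem_insert_self _ _
      · refine Finset.mem_insert_of_mem (Finset.mem_biUnion.2 ⟨j, Finset.mem_univ _, ?_⟩)
        exact Finset.mem_erase.2 ⟨h0, Finset.mem_image.2 ⟨w j, hUspt w x hw' j, rfl⟩⟩
    have hlt : ∀ w ∈ T, ∀ j, Sm j (w j) x ≤ a w ∧ a w < Sp j (w j) x := by
      intro w hw j
      have hw' : x ∈ U w := (Finset.mem_filter.1 hw).2
      refine ⟨Finset.le_sup' (fun j => Sm j (w j) x) (Finset.mem_univ j), ?_⟩
      exact (Finset.sup'_lt_iff hJne).2 fun i _ => hw' i j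
    have hinj : Set.InjOn a (T : Set (Fin J → W)) := by
      intro w hw w' hw' h
      funext j
      obtain ⟨h1, h2⟩ := hlt w hw j
      obtain ⟨h3, h4⟩ := hlt w' hw' j
      rcases lt_trichotomy (w j) (w' j) with h5 | h5 | h5
      · have := hmono j _ _ x h5
        linarith
      · exact h5
      · have := hmono j _ _ x h5
        linarith
    have hT : T.card ≤ Q.card := Finset.card_le_card_of_injOn a haQ hinj
    have hST : S ⊆ U '' (T : Set (Fin J → W)) := by
      intro A hA
      obtain ⟨w, rfl⟩ := hS hA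
      refine ⟨w, ?_, rfl⟩
      exact Finset.mem_coe.2 (Finset.mem_filter.2 ⟨Finset.mem_univ _, hx _ hA⟩)
    calc S.encard ≤ (U '' (T : Set (Fin J → W))).encard := Set.encard_le_encard hST
      _ ≤ (T : Set (Fin J → W)).encard := Set.encard_image_le _ _
      _ = (T.card : ℕ∞) := Set.encard_coe_eq_coe_finsetCard T
      _ ≤ ((E + 1 : ℕ) : ℕ∞) := by exact_mod_cast hT.trans hQ
      _ = E + 1 := by push_cast; rfl

end Vale.Agent.P093.T
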