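import Vale.Agent.P093.T.Block
import Vale.Agent.P093.T.Threshold
import Vale.Agent.P093.T.Sample
import Vale.Agent.P093.T.ColourMap
import Vale.Agent.P093.T.AttainedA

/-!
The bound for the order of long iterated covers from the homological order of one block.
-/

open Set

namespace Vale.Agent.P093.T

/-- If `s` of the numbers `mm j` are `> d` ... : the elementary count. -/
theorem count_le {J K₀ D d : ℕ} (mm : Fin J → ℕ) (hK : ∀ j, mm j ≤ K₀) (hD : ∑ j, mm j ≤ D)
    (s : ℕ) : ∑ j, (if mm j ≤ d then mm j else mm j - 1) ≤ max (D - s) (d * J + s * K₀) := by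
  classical
  set A : Finset (Fin J) := Finset.univ.filter fun j => ¬ mm j ≤ d with hA
  have h1 : ∑ j, (if mm j ≤ d then mm j else mm j - 1) + A.card = ∑ j, mm j := by
    have h2 : A.card = ∑ j, (if mm j ≤ d then 0 else 1) := by
      rw [hA, Finset.card_filter]
      refine Finset.sum_congr rfl fun j _ => ?_
      split_ifs <;> simp_all
    rw [h2, ← Finset.sum_add_distrib]
    refine Finset.sum_congr rfl fun j _ => ?_
    split_ifs <;> omega
  rcases Nat.lt_or_ge A.card s with h | h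
  · refine le_max_of_le_right ?_
    have h3 : ∀ j, (if mm j ≤ d then mm j else mm j - 1) ≤ d + (if ¬ mm j ≤ d then K₀ else 0) := by
      intro j
      have := hK j
      split_ifs <;> omega
    calc ∑ j, (if mm j ≤ d then mm j else mm j - 1)
        ≤ ∑ j, (d + (if ¬ mm j ≤ d then K₀ else 0)) := Finset.sum_le_sum fun j _ => h3 j
      _ = d * J + A.card * K₀ := by
          rw [Finset.sum_add_distrib, Finset.sum_const, Finset.card_univ, Fintype.card_fin,
            smul_eq_mul, mul_comm, ← Finset.sum_filter, Finset.sum_const, smul_eq_mul]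
      _ ≤ d * J + s * K₀ := by gcongr
  · refine le_max_of_le_left ?_
    omega

/-- closures of the members of the iterated cover -/
theorem asm_closure {X : Type*} [TopologicalSpace X] (h : X ≃ₜ X) {𝒰 𝒰' : Set (Set X)}
    (hcl : ∀ A ∈ 𝒰', ∃ U ∈ 𝒰, closure A ⊆ U) (M : ℕ) :
    ∀ A ∈ iterCover h 𝒰' M, ∃ U ∈ iterCover h 𝒰 M, closure A ⊆ U := by
  rintro _ ⟨f, hf, rfl⟩
  choose! g hg hfg using hcl
  refine ⟨_, ⟨fun j => g (f j), fun j => hg _ (hf j), rfl⟩, ?_⟩
  intro x hx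
  simp only [mem_iInter, mem_preimage, Finset.mem_range]
  intro j hj
  refine hfg _ (hf j) ?_
  have h1 : closure (⋂ j ∈ Finset.range M, (⇑(h ^ j)) ⁻¹' (f j)) ⊆ (⇑(h ^ j)) ⁻¹' closure (f j) := by
    refine closure_minimal ?_ (isClosed_closure.preimage (h ^ j).continuous)
    intro y hy
    simp only [mem_iInter, mem_preimage, Finset.mem_range] at hy
    exact subset_closure (hy j hj)
  exact h1 hx

/-- blocks of length `M` -/
theorem asm_blocks {X : Type*} [TopologicalSpace X] (h : X ≃ₜ X) {𝒰 : Set (Set X)} {M J : ℕ}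
    (hM : 0 < M) (hJ : 0 < J) (W : Fin J → Set X) (hW : ∀ j, W j ∈ iterCover h 𝒰 M) :
    ∃ U ∈ iterCover h 𝒰 (J * M), ⋂ j : Fin J, (⇑(h ^ ((j : ℕ) * M))) ⁻¹' (W j) ⊆ U := by
  choose f hf hWf using hW
  let g : ℕ → Set X := fun k => if hk : k / M < J then f ⟨k / M, hk⟩ (k % M) else f ⟨0, hJ⟩ 0
  refine ⟨_, ⟨g, fun k => ?_, rfl⟩, ?_⟩
  · show (if hk : k / M < J then f ⟨k / M, hk⟩ (k % M) else f ⟨0, hJ⟩ 0) ∈ 𝒰
    split_ifs
    · exact hf _ _
    · exact hf _ _
  · intro x hx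
    simp only [mem_iInter, mem_preimage, Finset.mem_range] at hx ⊢
    intro k hk
    have hkJ : k / M < J := Nat.div_lt_of_lt_mul (by rw [mul_comm]; exact hk)
    have h1 := hx ⟨k / M, hkJ⟩
    rw [hWf] at h1
    simp only [mem_iInter, mem_preimage, Finset.mem_range] at h1
    have h2 := h1 (k % M) (Nat.mod_lt _ hM)
    have h3 : (h ^ (k % M)) ((h ^ (k / M * M)) x) = (h ^ k) x := by
      have : h ^ k = h ^ (k % M) * h ^ (k / M * M) := by
        rw [← pow_add, add_comm, Nat.div_add_mod']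
      rw [this]
      rfl
    rw [h3] at h2
    show (h ^ k) x ∈ (if hk : k / M < J then f ⟨k / M, hk⟩ (k % M) else f ⟨0, hJ⟩ 0)
    rw [dif_pos hkJ]
    exact h2

/-- support of a point of the simplex -/
theorem asm_spt_nonempty {W : Type*} [Fintype W] {y : W → ℝ} (hy : y ∈ stdSimplex ℝ W) :
    (spt y).Nonempty := by
  classical
  by_contra h
  rw [Finset.not_nonempty_iff_eq_empty] at h
  have h1 : ∑ u, y u = 0 := by
    apply Finset.sum_eq_zero
    intro u _
    by_contra h2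
    have : u ∈ spt y := Finset.mem_filter.2 ⟨Finset.mem_univ _, h2⟩
    rw [h] at this
    exact absurd this (Finset.notMem_empty u)
  rw [hy.2] at h1
  exact one_ne_zero h1

/-- membership in a union, any decidability instance -/
theorem asm_mem_biUnion {α β : Type*} (inst : DecidableEq β) (s : Finset α) (S : α → Finset β)
    (w : β) (h : w ∈ @Finset.biUnion α β inst s S) : ∃ i ∈ s, w ∈ S i :=
  Finset.mem_biUnion.1 h

/-- One block: a finite open cover `𝒱₀` and a constant `B`, such that orders of the iterated covers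
of `𝒱₀` bound the orders of the iterated covers of `𝒰` with a gain. (Apply `exists_sample` to
`iterCover h 𝒰' M`, `block_map`, `exists_block_maps`, and `threshold` with
`O j w = (h ^ (j M)) ⁻¹' (e (name w))`; `e A` a member of `iterCover h 𝒰 M` containing
the closure of `A`. `B ≥ q`, the number of names, so that `(spt (ψ z)).card - 1 ≤ B - 1` always.
If `mm j < K₀` the support of `ψ (g j x)` has at most `allow m (mm j + 1)` elements, i.e. its
size minus one is at most `mm j` if `mm j ≤ m + 2` and at most `mm j - 1` otherwise; if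
`mm j = K₀ ≥ B`, `K₀ ≥ m + 4`, it is at most `K₀ - 1`.) -/
theorem block_bound {X : Type*} [TopologicalSpace X] [CompactSpace X]
    [TopologicalSpace.MetrizableSpace X] (h : X ≃ₜ X) {𝒰 𝒰' : Set (Set X)}
    (h𝒰 : IsFinOpenCover 𝒰) (h𝒰' : IsFinOpenCover 𝒰') (hcl : ∀ A ∈ 𝒰', ∃ U ∈ 𝒰, closure A ⊆ U)
    {M m : ℕ} (hM : 0 < M) (hd : HomOrderLE (iterCover h 𝒰' M) (m + 2)) :
    ∃ (𝒱₀ : Set (Set X)) (B : ℕ), IsFinOpenCover 𝒱₀ ∧
      ∀ K₀ ≥ B, ∀ J > 0, ∀ D < J * K₀, coverDim (iterCover h 𝒱₀ (J * M)) ≤ D →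
        ∀ s : ℕ, coverDim (iterCover h 𝒰 (J * M)) ≤ max (D - s) ((m + 2) * J + s * K₀) := by
  classical
  have hcl' := asm_closure h hcl M
  choose! e he1 he2 using hcl'
  have hopen : ∀ A ∈ iterCover h 𝒰' M, IsOpen (e A) ∧ closure A ⊆ e A := fun A hA =>
    ⟨(att_iterCover_fin h h𝒰 M).2.1 _ (he1 A hA), he2 A hA⟩
  obtain ⟨r, V, q, name, S, F, hV, hcov, hname, hS, hSe, hF⟩ :=
    exists_sample (iterCover h 𝒰' M) (att_iterCover_fin h h𝒰' M) e hopen m hd
  obtain ⟨ψ, hψc, hψ⟩ := block_map (m := m) (nerve V)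
    (fun s hs t hts ht => ⟨ht, hs.2.mono (Set.biInter_mono hts fun _ _ => le_rfl)⟩)
    (fun s hs => hs.1) S hS F hF
  refine ⟨Set.range V, q + m + 5, ⟨Set.finite_range V, ?_, ?_⟩, ?_⟩
  · rintro _ ⟨i, rfl⟩
    exact hV i
  · rw [Set.sUnion_range]
    exact hcov
  intro K₀ hK₀ J hJ D hD hdim s
  obtain ⟨g, hgc, hg⟩ := exists_block_maps h V hV hcov M J K₀ D hM hJ hD hdim
  have hmem : ∀ j x, g j x ∈ {z | z ∈ stdSimplex ℝ (Fin r) ∧ spt z ∈ nerve V} := by
    intro j x
    obtain ⟨mm, -, -, h3⟩ := hg x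
    refine ⟨(h3 j).1, asm_spt_nonempty (h3 j).1, ⟨(h ^ ((j : ℕ) * M)) x, ?_⟩⟩
    rw [Set.mem_iInter₂]
    exact (h3 j).2.1
  set E := max (D - s) ((m + 2) * J + s * K₀) with hE
  have hcard : ∀ x, ∑ j, ((spt (ψ (g j x))).card - 1) ≤ E := by
    intro x
    obtain ⟨mm, hmm1, hmm2, hmm3⟩ := hg x
    refine le_trans (Finset.sum_le_sum fun j _ => ?_) (count_le (d := m + 2) mm hmm1 hmm2 s)
    have h4 := (hψ (g j x) (hmem j x).1 (hmem j x).2).2.2
    have h5 : (spt (ψ (g j x))).card ≤ q := by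
      have := Finset.card_le_univ (spt (ψ (g j x)))
      rwa [Fintype.card_fin] at this
    have h6 := (hmm3 j).2.2
    have h7 := hmm1 j
    unfold allow at h4
    rcases Nat.lt_or_ge (mm j) K₀ with h8 | h8
    · have h9 := h6 h8
      split_ifs at h4 ⊢ <;> omega
    · split_ifs <;> omega
  have hstar : ∀ (j : Fin J) (x : X), ∀ w ∈ spt (ψ (g j x)),
      x ∈ (⇑(h ^ ((j : ℕ) * M))) ⁻¹' (e (name w)) := by
    intro j x w hw
    have h4 := (hψ (g j x) (hmem j x).1 (hmem j x).2).2.1 hw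
    obtain ⟨i, hi, hwi⟩ := asm_mem_biUnion _ _ _ _ h4
    obtain ⟨mm, -, -, hmm3⟩ := hg x
    exact hSe i w hwi ((hmm3 j).2.1 i hi)
  obtain ⟨𝒱, h1, h2, h3⟩ := threshold hJ (fun j x => ψ (g j x))
    (fun j => hψc.comp_continuous (hgc j) (hmem j))
    (fun j x => (hψ (g j x) (hmem j x).1 (hmem j x).2).1) E hcard
    (fun j w => (⇑(h ^ ((j : ℕ) * M))) ⁻¹' (e (name w))) hstar
  refine Nat.sInf_le ⟨𝒱, h1, fun A hA => ?_, h3⟩
  obtain ⟨w, hw⟩ := h2 A hA
  obtain ⟨U, hU, hUW⟩ := asm_blocks h hM hJ (fun j => e (name (w j)))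
    (fun j => he1 _ (hname (w j)))
  exact ⟨U, hU, hw.trans hUW⟩

end Vale.Agent.P093.T
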