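import Vale.Agent.P093.T.Assemble
import Vale.Agent.P093.T.AttainedA
import Vale.Agent.P093.Hom.ResultDefs
import Vale.Agent.P093.Hom.StaticZero

/-!
If the mean dimension is finite and attained by a finite open cover, it is detected by homology.
-/

open Set Filter
open scoped ENNReal

namespace Vale.Agent.P093.T

/-- from a strict bound for the rate to an eventual bound -/
theorem att_ev_of_lt {u : ℕ → ℕ} {a : ℝ} (h : limsup (fun N : ℕ => (u N : ℝ≥0∞) / N) atTop <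
    ENNReal.ofReal a) : ∀ᶠ N : ℕ in atTop, (u N : ℝ) ≤ a * N := by
  have ha : 0 < a := ENNReal.ofReal_pos.1 (bot_le.trans_lt h)
  have h1 := eventually_lt_of_limsup_lt h
  filter_upwards [h1, eventually_gt_atTop 0] with N hN hN0
  have hN0' : (N : ℝ≥0∞) ≠ 0 := by exact_mod_cast hN0.ne'
  rw [ENNReal.div_lt_iff (Or.inl hN0') (Or.inl (ENNReal.natCast_ne_top N))] at hN
  have h2 : ENNReal.ofReal a * (N : ℝ≥0∞) = ENNReal.ofReal (a * N) := by
    rw [ENNReal.ofReal_mul ha.le, ENNReal.ofReal_natCast]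
  rw [h2, ← ENNReal.ofReal_natCast (u N)] at hN
  exact (ENNReal.ofReal_lt_ofReal_iff_of_nonneg (Nat.cast_nonneg _)).1 hN |>.le

/-- from an eventual bound to a bound for the rate -/
theorem att_limsup_le {u : ℕ → ℕ} {a C : ℝ} (ha : 0 ≤ a)
    (h : ∀ᶠ N : ℕ in atTop, (u N : ℝ) ≤ a * N + C) :
    limsup (fun N : ℕ => (u N : ℝ≥0∞) / N) atTop ≤ ENNReal.ofReal a := by
  refine ENNReal.le_of_forall_pos_le_add fun ε hε _ => ?_
  have h0 : ENNReal.ofReal a + (ε : ℝ≥0∞) = ENNReal.ofReal (a + (ε : ℝ)) := by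
    rw [ENNReal.ofReal_add ha (NNReal.coe_nonneg ε), ENNReal.ofReal_coe_nnreal]
  rw [h0]
  refine limsup_le_of_le (by isBoundedDefault) ?_
  have hε' : (0 : ℝ) < (ε : ℝ) := NNReal.coe_pos.2 hε
  have h1 : ∀ᶠ N : ℕ in atTop, C ≤ (ε : ℝ) * N := by
    have := (tendsto_natCast_atTop_atTop (R := ℝ)).const_mul_atTop hε'
    exact this.eventually_ge_atTop C
  filter_upwards [h, h1, eventually_gt_atTop 0] with N hN hN1 hN0
  have hN0' : (N : ℝ≥0∞) ≠ 0 := by exact_mod_cast hN0.ne'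
  rw [ENNReal.div_le_iff hN0' (ENNReal.natCast_ne_top N), ← ENNReal.ofReal_natCast (u N),
    ← ENNReal.ofReal_natCast N, ← ENNReal.ofReal_mul (by positivity)]
  apply ENNReal.ofReal_le_ofReal
  nlinarith

/-- iterated covers are finite open covers -/
theorem att_iterCover {X : Type*} [TopologicalSpace X] (h : X ≃ₜ X)
    {𝒰 : Set (Set X)} (h𝒰 : IsFinOpenCover 𝒰) (N : ℕ) : IsFinOpenCover (iterCover h 𝒰 N) := by
  refine ⟨?_, ?_, ?_⟩
  · have := h𝒰.1.to_subtype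
    refine (Set.finite_range fun g : Fin N → 𝒰 =>
      ⋂ j : Fin N, (⇑(h ^ (j : ℕ))) ⁻¹' (g j : Set X)).subset ?_
    rintro W ⟨f, hf, rfl⟩
    refine ⟨fun j => ⟨f j, hf j⟩, ?_⟩
    ext x
    simp only [mem_iInter, mem_preimage, Finset.mem_range]
    exact ⟨fun H j hj => H ⟨j, hj⟩, fun H j => H j j.2⟩
  · rintro W ⟨f, hf, rfl⟩
    exact isOpen_biInter_finset fun j _ => (h𝒰.2.1 _ (hf j)).preimage (h ^ j).continuous
  · rw [eq_univ_iff_forall]
    intro x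
    have h1 : ∀ j : ℕ, ∃ U ∈ 𝒰, (h ^ j) x ∈ U := fun j => by
      have h2 : (h ^ j) x ∈ ⋃₀ 𝒰 := by rw [h𝒰.2.2]; trivial
      exact h2
    choose f hf hfx using h1
    refine ⟨_, ⟨f, hf, rfl⟩, ?_⟩
    simp only [mem_iInter, mem_preimage]
    exact fun j _ => hfx j

/-- the homological order is attained -/
theorem att_homOrderLE {X : Type*} [TopologicalSpace X] [CompactSpace X]
    [TopologicalSpace.MetrizableSpace X] {𝒲 : Set (Set X)} (h𝒲 : IsFinOpenCover 𝒲) :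
    HomOrderLE 𝒲 (homOrder 𝒲) := by
  let _ := TopologicalSpace.metrizableSpaceMetric X
  exact Nat.sInf_mem (s := {d | HomOrderLE 𝒲 d}) ⟨_, Hom.homOrderLE_coverDim 𝒲 h𝒲⟩

/-- `HomOrderLE` is monotone in `d` -/
theorem att_mono {X : Type*} [TopologicalSpace X] {𝒲 : Set (Set X)} {d d' : ℕ} (hd : d ≤ d')
    (h : HomOrderLE 𝒲 d) : HomOrderLE 𝒲 d' := by
  obtain ⟨𝒢, Φ, h𝒢, hΦ⟩ := h
  refine ⟨𝒢, Φ, h𝒢, fun x hx hxG => ?_⟩
  obtain ⟨h1, h2, h3, h4⟩ := hΦ x hx hxG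
  exact ⟨h1, h2, h3, fun hl => h4 (by omega)⟩

/-- the arithmetic of one block -/
theorem att_block {M m K₀ J D a s : ℕ} {μ c ε : ℝ} (hc : (m : ℝ) + 2 ≤ (μ - 2 * c) * M)
    (hεc : ε ≤ c) (hεK : 2 * ε * K₀ ≤ c)
    (hD : (D : ℝ) ≤ (μ + ε) * (J * M) + 1) (hs1 : 2 * ε * (M * J) ≤ s)
    (hs2 : (s : ℝ) ≤ 2 * ε * (M * J) + 1) (hμ : ε ≤ μ)
    (ha : a ≤ max (D - s) ((m + 2) * J + s * K₀)) :
    (a : ℝ) ≤ (μ - ε) * (J * M) + (K₀ + 1) := by
  have hJM : (0 : ℝ) ≤ J * M := by positivity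
  have hK : (0 : ℝ) ≤ K₀ := Nat.cast_nonneg _
  rcases le_max_iff.1 ha with h1 | h1
  · rcases le_or_gt s D with h2 | h2
    · have h3 : (a : ℝ) ≤ (D : ℝ) - s := by
        have : (a : ℝ) ≤ ((D - s : ℕ) : ℝ) := by exact_mod_cast h1
        rwa [Nat.cast_sub h2] at this
      nlinarith
    · have h3 : a = 0 := by omega
      rw [h3, Nat.cast_zero]
      have : 0 ≤ (μ - ε) * (J * M) := mul_nonneg (by linarith) hJM
      linarith
  · have h3 : (a : ℝ) ≤ ((m : ℝ) + 2) * J + s * K₀ := by exact_mod_cast h1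
    have hJ : (0 : ℝ) ≤ J := Nat.cast_nonneg _
    have h4 : ((m : ℝ) + 2) * J ≤ (μ - 2 * c) * M * J := mul_le_mul_of_nonneg_right hc hJ
    have h5 : (s : ℝ) * K₀ ≤ (2 * ε * (M * J) + 1) * K₀ := mul_le_mul_of_nonneg_right hs2 hK
    have h6 : (2 * ε * K₀) * (M * J) ≤ c * (M * J) :=
      mul_le_mul_of_nonneg_right hεK (by positivity)
    have h7 : ε * (J * M) ≤ c * (J * M) := mul_le_mul_of_nonneg_right hεc hJM
    nlinarith

/-- Numerical limit: if the homological rate of the shrinking were smaller than the mean dimension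
`μ`, choose `c > 0` and a large `M` with `HomOrderLE (iterCover h 𝒰' M) (m + 2)`,
`m + 2 ≤ (μ - 2c) M` (`HomOrderLE` is monotone in `d`), take `𝒱₀`, `B` from `block_bound`,
`K₀ = max B ⌈(μ + 1) M⌉ + 1`, `ε` small, `D = ⌈(μ + ε) J M⌉`, `s = ⌈2 ε M J⌉ + 1`: for all large `J`
`coverDim (iterCover h 𝒰 (J M)) ≤ (μ - ε) J M + const`, so `coverRate h 𝒰 < μ`. -/
theorem homRate_ge {X : Type*} [TopologicalSpace X] [CompactSpace X]
    [TopologicalSpace.MetrizableSpace X] (h : X ≃ₜ X) {𝒰 𝒰' : Set (Set X)}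
    (h𝒰 : IsFinOpenCover 𝒰) (h𝒰' : IsFinOpenCover 𝒰') (hcl : ∀ A ∈ 𝒰', ∃ U ∈ 𝒰, closure A ⊆ U)
    (hfin : meanDim h ≠ ∞) (hatt : coverRate h 𝒰 = meanDim h) :
    meanDim h ≤ homRate h 𝒰' := by
  by_contra hlt
  rw [not_le] at hlt
  obtain ⟨b, hb1, hb2⟩ := exists_between hlt
  obtain ⟨μ, hμe⟩ : ∃ μ, μ = (meanDim h).toReal := ⟨_, rfl⟩
  have hμ : ENNReal.ofReal μ = meanDim h := by rw [hμe]; exact ENNReal.ofReal_toReal hfin
  have hbtop : b ≠ ∞ := ne_top_of_lt hb2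
  obtain ⟨a, hae⟩ : ∃ a, a = b.toReal := ⟨_, rfl⟩
  have ha : ENNReal.ofReal a = b := by rw [hae]; exact ENNReal.ofReal_toReal hbtop
  have haμ : a < μ := by
    rw [hae, hμe]
    exact (ENNReal.toReal_lt_toReal hbtop hfin).2 hb2
  have ha0 : 0 ≤ a := by rw [hae]; exact ENNReal.toReal_nonneg
  obtain ⟨c, hce⟩ : ∃ c, c = (μ - a) / 3 := ⟨_, rfl⟩
  have hc : 0 < c := by rw [hce]; linarith
  -- the length of one block
  have ev1 : ∀ᶠ M : ℕ in atTop, (homOrder (iterCover h 𝒰' M) : ℝ) ≤ a * M := by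
    refine att_ev_of_lt (u := fun M => homOrder (iterCover h 𝒰' M)) ?_
    rw [ha]
    exact hb1
  have ev2 : ∀ᶠ M : ℕ in atTop, 2 ≤ c * (M : ℝ) :=
    ((tendsto_natCast_atTop_atTop (R := ℝ)).const_mul_atTop hc).eventually_ge_atTop 2
  obtain ⟨M, hM1, hM2, hM⟩ := (ev1.and (ev2.and (eventually_gt_atTop 0))).exists
  obtain ⟨m, hme⟩ : ∃ m, m = homOrder (iterCover h 𝒰' M) := ⟨_, rfl⟩
  have hd : HomOrderLE (iterCover h 𝒰' M) (m + 2) := by
    refine att_mono (Nat.le_add_right m 2) ?_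
    rw [hme]
    exact att_homOrderLE (att_iterCover h h𝒰' M)
  have hmM : (m : ℝ) + 2 ≤ (μ - 2 * c) * M := by
    rw [← hme] at hM1
    have : (μ - 2 * c) * M = a * M + c * M := by rw [hce]; ring
    linarith
  obtain ⟨𝒱₀, B, h𝒱, hblock⟩ := block_bound h h𝒰 h𝒰' hcl hM hd
  obtain ⟨K₀, hK₀e⟩ : ∃ K₀, K₀ = max B (⌈(μ + 1) * M⌉₊ + 1) := ⟨_, rfl⟩
  have hK₀B : B ≤ K₀ := hK₀e ▸ le_max_left _ _
  have hK₀M : (μ + 1) * M + 1 ≤ K₀ := by
    have h1 : ⌈(μ + 1) * M⌉₊ + 1 ≤ K₀ := hK₀e ▸ le_max_right _ _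
    have h2 : ((⌈(μ + 1) * M⌉₊ : ℝ)) + 1 ≤ K₀ := by exact_mod_cast h1
    have h3 := Nat.le_ceil ((μ + 1) * M)
    linarith
  have hM' : (0 : ℝ) < M := by exact_mod_cast hM
  have hμ0 : 0 < μ := ha0.trans_lt haμ
  have hK₀pos : (0 : ℝ) < K₀ := by
    have : 0 < (μ + 1) * M := by positivity
    linarith
  obtain ⟨ε, hε, hε1, hεc, hεK⟩ : ∃ ε : ℝ, 0 < ε ∧ ε ≤ 1 ∧ ε ≤ c ∧ 2 * ε * K₀ ≤ c := by
    refine ⟨min 1 (min c (c / (2 * K₀))), by positivity, min_le_left _ _,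
      (min_le_right _ _).trans (min_le_left _ _), ?_⟩
    have h1 : min 1 (min c (c / (2 * K₀))) ≤ c / (2 * K₀) :=
      (min_le_right _ _).trans (min_le_right _ _)
    rw [le_div_iff₀ (by positivity)] at h1
    linarith
  have hεμ : ε ≤ μ := by
    have : c ≤ μ := by rw [hce]; linarith
    linarith
  have evV : ∀ᶠ N : ℕ in atTop, (coverDim (iterCover h 𝒱₀ N) : ℝ) ≤ (μ + ε) * N := by
    refine att_ev_of_lt (u := fun N => coverDim (iterCover h 𝒱₀ N)) ?_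
    have h1 : coverRate h 𝒱₀ ≤ meanDim h :=
      le_iSup (fun 𝒱 : {𝒱 : Set (Set X) // IsFinOpenCover 𝒱} => coverRate h 𝒱.1) ⟨𝒱₀, h𝒱⟩
    refine lt_of_le_of_lt h1 ?_
    rw [← hμ]
    exact (ENNReal.ofReal_lt_ofReal_iff (by positivity)).2 (by linarith)
  have evJ : ∀ᶠ J : ℕ in atTop, (coverDim (iterCover h 𝒰 (J * M)) : ℝ) ≤
      (μ - ε) * (J * M) + (K₀ + 1) := by
    have h1 : Tendsto (fun J : ℕ => J * M) atTop atTop :=
      tendsto_id.atTop_mul_const' hM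
    filter_upwards [h1.eventually evV, eventually_gt_atTop 0] with J hJ hJ0
    have hJ' : (coverDim (iterCover h 𝒱₀ (J * M)) : ℝ) ≤ (μ + ε) * (J * M) := by
      rw [← Nat.cast_mul]; exact hJ
    obtain ⟨D, hDe⟩ : ∃ D, D = ⌈(μ + ε) * (J * M)⌉₊ := ⟨_, rfl⟩
    have hJR : (0 : ℝ) < J := by exact_mod_cast hJ0
    have hD1 : (D : ℝ) ≤ (μ + ε) * (J * M) + 1 := by
      rw [hDe]; exact (Nat.ceil_lt_add_one (by positivity)).le
    have hD2 : coverDim (iterCover h 𝒱₀ (J * M)) ≤ D := by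
      have : (coverDim (iterCover h 𝒱₀ (J * M)) : ℝ) ≤ D := by
        rw [hDe]; exact hJ'.trans (Nat.le_ceil _)
      exact_mod_cast this
    have hD3 : D < J * K₀ := by
      have h2 : (D : ℝ) < J * K₀ := by
        rw [hDe]
        refine (Nat.ceil_lt_add_one (by positivity)).trans_le ?_
        have hJ1 : (1 : ℝ) ≤ J := by exact_mod_cast hJ0
        have h3 : (J : ℝ) * ((μ + 1) * M + 1) ≤ J * K₀ := mul_le_mul_of_nonneg_left hK₀M hJR.le
        have h4 : ε * (J * M) ≤ 1 * (J * M) := mul_le_mul_of_nonneg_right hε1 (by positivity)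
        nlinarith
      exact_mod_cast h2
    refine att_block (s := ⌈2 * ε * (M * J)⌉₊) hmM hεc hεK hD1 (Nat.le_ceil _)
      (Nat.ceil_lt_add_one (by positivity)).le hεμ ?_
    exact hblock K₀ hK₀B J hJ0 D hD3 hD2 _
  -- all lengths
  have evN : ∀ᶠ N : ℕ in atTop, (coverDim (iterCover h 𝒰 N) : ℝ) ≤
      (μ - ε) * N + ((μ - ε) * M + (K₀ + 1)) := by
    have h1 : Tendsto (fun N : ℕ => N / M + 1) atTop atTop :=
      tendsto_atTop_mono (fun N => Nat.le_succ _) (Nat.tendsto_div_const_atTop hM.ne')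
    filter_upwards [h1.eventually evJ] with N hN
    have h2 : N ≤ (N / M + 1) * M := by
      have := Nat.lt_mul_div_succ N hM
      rw [mul_comm]
      exact this.le
    have h3 : (N / M + 1) * M ≤ N + M := by
      have := Nat.div_mul_le_self N M
      rw [add_mul, one_mul]
      omega
    have h4 : (coverDim (iterCover h 𝒰 N) : ℝ) ≤ coverDim (iterCover h 𝒰 ((N / M + 1) * M)) := by
      exact_mod_cast coverDim_iterCover_mono h h𝒰 h2
    have h5 : (((N / M + 1 : ℕ) : ℝ)) * M ≤ (N : ℝ) + M := by exact_mod_cast h3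
    have h6 : (μ - ε) * (((N / M + 1 : ℕ) : ℝ) * M) ≤ (μ - ε) * ((N : ℝ) + M) :=
      mul_le_mul_of_nonneg_left h5 (by linarith)
    linarith
  have hfinal : coverRate h 𝒰 ≤ ENNReal.ofReal (μ - ε) :=
    att_limsup_le (u := fun N => coverDim (iterCover h 𝒰 N)) (by linarith) evN
  rw [hatt, ← hμ] at hfinal
  have h9 : ENNReal.ofReal (μ - ε) < ENNReal.ofReal μ :=
    (ENNReal.ofReal_lt_ofReal_iff hμ0).2 (by linarith)
  exact absurd hfinal (not_le.2 h9)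

/-- If the mean dimension is finite and attained by a finite open cover, then the homological mean
dimension is equal to it. -/
theorem homMeanDim_eq_of_attained {X : Type*} [TopologicalSpace X] [CompactSpace X]
    [TopologicalSpace.MetrizableSpace X] (h : X ≃ₜ X) (hfin : meanDim h ≠ ∞)
    (hatt : ∃ 𝒰 : Set (Set X), IsFinOpenCover 𝒰 ∧ coverRate h 𝒰 = meanDim h) :
    meanDim h ≤ homMeanDim h := by
  obtain ⟨𝒰, h𝒰, he⟩ := hatt
  obtain ⟨𝒰', h𝒰', hcl⟩ := exists_shrink h𝒰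
  refine (homRate_ge h h𝒰 h𝒰' hcl hfin he).trans ?_
  exact le_iSup (fun 𝒱 : {𝒱 : Set (Set X) // IsFinOpenCover 𝒱} => homRate h 𝒱.1) ⟨𝒰', h𝒰'⟩

end Vale.Agent.P093.T
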