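import Vale.Agent.P093.T.HopfStep

/-!
The block lemma: a chain map which vanishes above degree `m + 2` gives a continuous map lowering
the dimension by one above degree `m + 2`.
-/

open Set

namespace Vale.Agent.P093.T

variable {U W : Type*} [Fintype U] [LinearOrder U] [Fintype W]

/-- number of vertices allowed over a simplex with `k` vertices -/
def allow (m k : ℕ) : ℕ := if k ≤ m + 3 then k else k - 1

open Classical in
theorem block_map {m : ℕ} (K : Set (Finset U))
    (hK : ∀ s ∈ K, ∀ t ⊆ s, t.Nonempty → t ∈ K) (hne : ∀ s ∈ K, s.Nonempty)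
    (S : U → Finset W) (hS : ∀ u, (S u).Nonempty)
    (F : Finset U → OChain W) (hF : ChainData K S (m + 3) F) :
    ∃ ψ : (U → ℝ) → (W → ℝ), ContinuousOn ψ {z | z ∈ stdSimplex ℝ U ∧ spt z ∈ K} ∧
      ∀ z, z ∈ stdSimplex ℝ U → spt z ∈ K → ψ z ∈ stdSimplex ℝ W ∧
        spt (ψ z) ⊆ (spt z).biUnion S ∧ (spt (ψ z)).card ≤ allow m (spt z).card := by
  rcases isEmpty_or_nonempty U with hU | ⟨⟨u₀⟩⟩
  · have hemp : ∀ z : U → ℝ, z ∉ stdSimplex ℝ U := by
      intro z hz
      have h1 := hz.2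
      rw [Finset.univ_eq_empty, Finset.sum_empty] at h1
      exact zero_ne_one h1
    refine ⟨fun _ _ => 0, ?_, fun z hz => absurd hz (hemp z)⟩
    exact continuousOn_const
  · choose φ hφ using hS
    obtain ⟨H, hH1, hH2⟩ := exists_homotopy K hK hne S φ hφ (m + 3) (by omega) F hF
    obtain ⟨ψ, hψ, hψm⟩ := hopf_step (m := m) (φ u₀) K hK φ S hφ H
      (fun s hs hc l hl => ⟨by rw [(hH1 s hs l hl).1, hc], (hH1 s hs l hl).2⟩)
      (fun s hs hc => hH2 s hs hc)
    obtain ⟨ψ', hψ', heq, hm'⟩ := cone_all K hK S (fun u => ⟨φ u, hφ u⟩) (m + 4) (by omega) ψ hψ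
      (fun z hz => ⟨(hψm z hz).1, (hψm z hz).2.1,
        ((hψm z hz).2.2.trans (min_le_right _ _)).trans (by omega)⟩)
    refine ⟨ψ', hψ', fun z hz hzK => ?_⟩
    rcases Nat.lt_or_ge (m + 4) (spt z).card with hlt | hle
    · obtain ⟨h1, h2, h3⟩ := hm' z hz hzK hlt
      refine ⟨h1, h2, h3.trans ?_⟩
      unfold allow
      rw [if_neg (by omega)]
    · have hz' : z ∈ Rlz K (m + 4) := ⟨hz, hzK, hle⟩
      rw [heq z hz']
      obtain ⟨h1, h2, h3⟩ := hψm z hz'
      refine ⟨h1, h2, ?_⟩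
      unfold allow
      split_ifs with hc
      · exact h3.trans (min_le_left _ _)
      · exact (h3.trans (min_le_right _ _)).trans (by omega)

end Vale.Agent.P093.T
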