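import Mathlib
import Vale.Agent.P093.Hom.OrderDef

/-!
Chains on finite simplices: data of a carried chain map and of a carried chain homotopy.
-/

namespace Vale.Agent.P093.T

variable {U W : Type*} [LinearOrder U]

/-- the `j`-th face of a finite set: remove its `j`-th element in increasing order -/
noncomputable def faceF (s : Finset U) (j : ℕ) : Finset U :=
  ((s.sort (· ≤ ·)).eraseIdx j).toFinset

/-- the ordered simplex `φ(s)` -/
noncomputable def imgList (φ : U → W) (s : Finset U) : List W := (s.sort (· ≤ ·)).map φ

open Classical in
/-- A chain map from the complex `K` (sorted simplices) to ordered chains on `W`, carried by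
`S`, vanishing on simplices with more than `D` vertices. -/
structure ChainData (K : Set (Finset U)) (S : U → Finset W) (D : ℕ) (F : Finset U → OChain W) :
    Prop where
  supp : ∀ s ∈ K, ∀ l ∈ (F s).support, l.length = s.card ∧ ∀ w ∈ l, w ∈ s.biUnion S
  bd : ∀ s ∈ K, 2 ≤ s.card → extend simplexBoundary (F s) =
    ∑ j ∈ Finset.range s.card, (-1 : ℤ) ^ j • F (faceF s j)
  aug : ∀ s ∈ K, s.card = 1 → (F s).sum (fun _ n => n) = 1
  van : ∀ s ∈ K, D < s.card → F s = 0

end Vale.Agent.P093.T
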