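import Vale.Agent.P093.T.ChainDef
import Vale.Agent.P093.Hom.Cochain

/-!
The chain homotopy between a simplicial map and a carried chain map.
-/

namespace Vale.Agent.P093.T

section lists

open Vale.Agent.P093.Hom

/-- boundary of ordered chains -/
noncomputable def bd {V : Type*} : OChain V →+ OChain V :=
  Finsupp.liftAddHom fun s => zmultiplesHom _ (simplexBoundary s)

/-- augmentation: sum of the coefficients -/
noncomputable def aug {V : Type*} : OChain V →+ ℤ := Finsupp.liftAddHom fun _ => AddMonoidHom.id ℤ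

theorem bd_single {V : Type*} (s : List V) : bd (Finsupp.single s 1) = simplexBoundary s := by
  simp [bd]

theorem bd_eq_extend {V : Type*} (c : OChain V) : bd c = extend simplexBoundary c := by
  rw [bd, Finsupp.liftAddHom_apply, extend]
  rfl

theorem aug_eq_sum {V : Type*} (c : OChain V) : aug c = c.sum fun _ n => n := by
  rw [aug, Finsupp.liftAddHom_apply]
  rfl

theorem chh_dl_eq_sum {X : Type*} {M : Type*} [AddCommGroup M] (F : List X → M)
    (l : List X) : dl F l = ∑ i ∈ Finset.range l.length, (-1 : ℤ) ^ i • F (l.eraseIdx i) := by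
  induction l generalizing F with
  | nil => simp
  | cons y l ih =>
    rw [dl_cons, ih, List.length_cons, Finset.sum_range_succ', List.eraseIdx_cons_zero, pow_zero,
      one_smul, add_comm, sub_eq_add_neg, ← Finset.sum_neg_distrib]
    congr 1
    refine Finset.sum_congr rfl fun i _ => ?_
    rw [List.eraseIdx_cons_succ, pow_succ, mul_neg_one, neg_smul]

/-- the cone with apex `w` -/
noncomputable def chhCone {V : Type*} (w : V) : OChain V →+ OChain V :=
  Finsupp.liftAddHom fun s => zmultiplesHom _ (Finsupp.single (w :: s) 1)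

section cone

variable {V : Type*}

theorem chh_cone_single (w : V) (s : List V) :
    chhCone w (Finsupp.single s 1) = Finsupp.single (w :: s) 1 := by
  simp [chhCone]

theorem chh_ext {A : Type*} [AddCommGroup A] (f g : OChain V →+ A) (c : OChain V)
    (h : ∀ s ∈ c.support, f (Finsupp.single s 1) = g (Finsupp.single s 1)) : f c = g c := by
  have hc : c = ∑ s ∈ c.support, c s • Finsupp.single s (1 : ℤ) := by
    conv_lhs => rw [← Finsupp.sum_single c]
    rw [Finsupp.sum]
    refine Finset.sum_congr rfl fun s _ => ?_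
    rw [Finsupp.smul_single, smul_eq_mul, mul_one]
  rw [hc, map_sum, map_sum]
  refine Finset.sum_congr rfl fun s hs => ?_
  rw [map_zsmul, map_zsmul, h s hs]

theorem chh_bd_cons (w : V) (s : List V) (hs : s ≠ []) :
    bd (Finsupp.single (w :: s) 1) = Finsupp.single s 1 -
      chhCone w (∑ i ∈ Finset.range s.length, (-1 : ℤ) ^ i • Finsupp.single (s.eraseIdx i) 1) := by
  have h1 : ¬ (w :: s).length ≤ 1 := by
    rw [List.length_cons]
    have := List.length_pos_iff.2 hs
    omega
  rw [bd_single, simplexBoundary, if_neg h1, List.length_cons, Finset.sum_range_succ',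
    List.eraseIdx_cons_zero, pow_zero, one_smul, add_comm, sub_eq_add_neg, map_sum,
    ← Finset.sum_neg_distrib]
  congr 1
  refine Finset.sum_congr rfl fun i _ => ?_
  rw [List.eraseIdx_cons_succ, pow_succ, mul_neg_one, neg_smul, map_zsmul, chh_cone_single]

theorem chh_bd_cone (w : V) (c : OChain V) (hc : ∀ s ∈ c.support, 2 ≤ s.length) :
    bd (chhCone w c) = c - chhCone w (bd c) := by
  have := chh_ext (bd.comp (chhCone w)) (AddMonoidHom.id _ - (chhCone w).comp bd) c ?_
  · simpa using this
  · intro s hs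
    have h2 := hc s hs
    have hne : s ≠ [] := by
      rintro rfl
      simp at h2
    simp only [AddMonoidHom.coe_comp, Function.comp_apply, AddMonoidHom.sub_apply,
      AddMonoidHom.id_apply]
    rw [chh_cone_single, chh_bd_cons w s hne, bd_single, simplexBoundary, if_neg (by omega)]

theorem chh_bd_cone_one (w : V) (c : OChain V) (hc : ∀ s ∈ c.support, s.length = 1) :
    bd (chhCone w c) = c - aug c • Finsupp.single [w] 1 := by
  have := chh_ext (bd.comp (chhCone w)) (AddMonoidHom.id _ -
    (zmultiplesHom (OChain V) (Finsupp.single [w] 1)).comp aug) c ?_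
  · simpa using this
  · intro s hs
    have h2 := hc s hs
    have hne : s ≠ [] := by
      rintro rfl
      simp at h2
    have haug : aug (Finsupp.single s 1) = 1 := by simp [aug]
    have he : s.eraseIdx 0 = [] := by
      match s, h2 with
      | [x], _ => rfl
    simp only [AddMonoidHom.coe_comp, Function.comp_apply, AddMonoidHom.sub_apply,
      AddMonoidHom.id_apply]
    rw [chh_cone_single, chh_bd_cons w s hne, h2, haug]
    simp [he, chh_cone_single]

theorem chh_cone_support (w : V) (c : OChain V) :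
    ∀ s ∈ (chhCone w c).support, ∃ s' ∈ c.support, s = w :: s' := by
  classical
  intro s hs
  by_contra hcon
  push Not at hcon
  have h1 : (Finsupp.applyAddHom s : OChain V →+ ℤ).comp (chhCone w) c = (0 : OChain V →+ ℤ) c := by
    refine chh_ext _ _ c fun s' hs' => ?_
    simp only [AddMonoidHom.coe_comp, Function.comp_apply, AddMonoidHom.zero_apply,
      chh_cone_single, Finsupp.applyAddHom_apply]
    rw [Finsupp.single_apply, if_neg (fun h => hcon s' hs' h.symm)]
  rw [Finsupp.mem_support_iff] at hs
  exact hs h1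

end cone

/-- the homotopy, by recursion on the length -/
noncomputable def chhH {Y V : Type*} (v : List Y → V) (Φ Φ' : List Y → OChain V) :
    ℕ → List Y → OChain V
  | 0, _ => 0
  | n + 1, l => chhCone (v l) (Φ l - Φ' l - dl (chhH v Φ Φ' n) l)

theorem chh_exists {Y V : Type*} {S : Set (List Y)}
    (hS : ∀ l ∈ S, ∀ l' : List Y, l'.Sublist l → l' ∈ S) {C : List Y → Set V}
    (hC : ∀ l ∈ S, ∀ l' : List Y, l'.Sublist l → l' ≠ [] → C l' ⊆ C l) (v : List Y → V)
    (hv : ∀ l ∈ S, l ≠ [] → v l ∈ C l) (Φ Φ' : List Y → OChain V)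
    (hΦc : ∀ l ∈ S, bd (Φ l) = dl Φ l) (hΦc' : ∀ l ∈ S, bd (Φ' l) = dl Φ' l)
    (hΦ1 : ∀ y, [y] ∈ S → aug (Φ [y]) = 1) (hΦ1' : ∀ y, [y] ∈ S → aug (Φ' [y]) = 1)
    (hΦs : ∀ l ∈ S, l ≠ [] → ∀ s ∈ (Φ l).support, s.length = l.length ∧ ∀ w ∈ s, w ∈ C l)
    (hΦs' : ∀ l ∈ S, l ≠ [] → ∀ s ∈ (Φ' l).support, s.length = l.length ∧ ∀ w ∈ s, w ∈ C l) :
    ∃ H : List Y → OChain V, H [] = 0 ∧ ∀ l ∈ S, l ≠ [] →
      bd (H l) = Φ l - Φ' l - dl H l ∧
      ∀ s ∈ (H l).support, s.length = l.length + 1 ∧ ∀ w ∈ s, w ∈ C l := by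
  classical
  let H : List Y → OChain V := fun l => chhH v Φ Φ' l.length l
  have hH0 : H [] = 0 := rfl
  have hHrec : ∀ l, l ≠ [] → H l = chhCone (v l) (Φ l - Φ' l - dl H l) := by
    intro l hl
    obtain ⟨n, hn⟩ : ∃ n, l.length = n + 1 :=
      ⟨l.length - 1, by have := List.length_pos_iff.2 hl; omega⟩
    have h1 : dl (chhH v Φ Φ' n) l = dl H l := by
      rw [chh_dl_eq_sum, chh_dl_eq_sum]
      refine Finset.sum_congr rfl fun i hi => ?_
      have h2 : (l.eraseIdx i).length = n := by
        rw [List.length_eraseIdx_of_lt (Finset.mem_range.1 hi), hn]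
        rfl
      change _ = (-1 : ℤ) ^ i • chhH v Φ Φ' (l.eraseIdx i).length (l.eraseIdx i)
      rw [h2]
    change chhH v Φ Φ' l.length l = _
    rw [hn, chhH, h1]
  refine ⟨H, hH0, ?_⟩
  have key : ∀ n : ℕ, ∀ l ∈ S, l.length = n → l ≠ [] →
      bd (H l) = Φ l - Φ' l - dl H l ∧
      ∀ s ∈ (H l).support, s.length = l.length + 1 ∧ ∀ w ∈ s, w ∈ C l := by
    intro n
    induction n using Nat.strong_induction_on with
    | _ n ih =>
    intro l hl hn hne
    have hpos : 0 < l.length := List.length_pos_iff.2 hne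
    -- sublists
    have hsub : ∀ i < l.length, l.eraseIdx i ∈ S ∧ (l.eraseIdx i).length + 1 = l.length ∧
        (l.eraseIdx i ≠ [] → C (l.eraseIdx i) ⊆ C l) := by
      intro i hi
      refine ⟨hS l hl _ (List.eraseIdx_sublist l i), ?_, fun h => hC l hl _
        (List.eraseIdx_sublist l i) h⟩
      rw [List.length_eraseIdx_of_lt hi]
      omega
    have hIH : ∀ i < l.length, l.eraseIdx i ≠ [] →
        bd (H (l.eraseIdx i)) = Φ (l.eraseIdx i) - Φ' (l.eraseIdx i) - dl H (l.eraseIdx i) ∧
        ∀ s ∈ (H (l.eraseIdx i)).support, s.length = (l.eraseIdx i).length + 1 ∧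
          ∀ w ∈ s, w ∈ C (l.eraseIdx i) := by
      intro i hi hne'
      obtain ⟨h1, h2, -⟩ := hsub i hi
      exact ih _ (by omega) _ h1 rfl hne'
    -- support of `dl H l`
    have hdl : ∀ s ∈ (dl H l).support, s.length = l.length ∧ ∀ w ∈ s, w ∈ C l := by
      intro s hs
      rw [chh_dl_eq_sum] at hs
      have h1 := Finsupp.support_finsetSum hs
      rw [Finset.mem_biUnion] at h1
      obtain ⟨i, hi, h2⟩ := h1
      rw [Finset.mem_range] at hi
      have h3 := Finsupp.support_smul h2
      by_cases he : l.eraseIdx i = []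
      · rw [he, hH0] at h3
        simp at h3
      · obtain ⟨-, h5⟩ := hIH i hi he
        obtain ⟨h6, h7, h8⟩ := hsub i hi
        obtain ⟨h9, h10⟩ := h5 s h3
        exact ⟨by omega, fun w hw => h8 he (h10 w hw)⟩
    have hK : ∀ s ∈ (Φ l - Φ' l - dl H l).support, s.length = l.length ∧ ∀ w ∈ s, w ∈ C l := by
      intro s hs
      rcases Finset.mem_union.1 (Finsupp.support_sub hs) with h1 | h1
      · rcases Finset.mem_union.1 (Finsupp.support_sub h1) with h2 | h2
        · exact hΦs l hl hne s h2
        · exact hΦs' l hl hne s h2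
      · exact hdl s h1
    refine ⟨?_, ?_⟩
    · rw [hHrec l hne]
      by_cases h2 : 2 ≤ l.length
      · rw [← hHrec l hne, hHrec l hne, chh_bd_cone _ _ fun s hs => by rw [(hK s hs).1]; exact h2]
        have hb : bd (Φ l - Φ' l - dl H l) = 0 := by
          rw [map_sub, map_sub, hΦc l hl, hΦc' l hl]
          have h3 : bd (dl H l) = dl (fun l' => bd (H l')) l := (dl_map bd H l).symm
          have h4 : dl (fun l' => bd (H l')) l = dl (fun l' => Φ l' - Φ' l' - dl H l') l := by
            rw [chh_dl_eq_sum, chh_dl_eq_sum]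
            refine Finset.sum_congr rfl fun i hi => ?_
            rw [Finset.mem_range] at hi
            obtain ⟨-, h6, -⟩ := hsub i hi
            rw [(hIH i hi (by rw [← List.length_pos_iff]; omega)).1]
          rw [h3, h4, dl_sub (fun l' => Φ l' - Φ' l') (dl H), dl_sub Φ Φ', dl_dl]
          abel
        rw [hb, map_zero, sub_zero]
      · have h1 : l.length = 1 := by omega
        obtain ⟨y, rfl⟩ := List.length_eq_one_iff.1 h1
        rw [chh_bd_cone_one _ _ fun s hs => by rw [(hK s hs).1]; exact h1]
        rw [dl_singleton, hH0, sub_zero, map_sub, hΦ1 y hl, hΦ1' y hl, sub_self, zero_smul,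
          sub_zero]
    · intro s hs
      rw [hHrec l hne] at hs
      obtain ⟨s', hs', rfl⟩ := chh_cone_support _ _ s hs
      obtain ⟨h1, h2⟩ := hK s' hs'
      refine ⟨by rw [List.length_cons, h1], fun w hw => ?_⟩
      rcases List.mem_cons.1 hw with h | h
      · rw [h]
        exact hv l hl hne
      · exact h2 w h
  exact fun l hl hne => key l.length l hl rfl hne


end lists

variable {U W : Type*} [LinearOrder U]

theorem chh_bd_short {V : Type*} (c : OChain V) (hc : ∀ l ∈ c.support, l.length ≤ 1) :
    bd c = 0 := by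
  have h := chh_ext bd (0 : OChain V →+ OChain V) c fun s hs => by
    rw [bd_single, simplexBoundary, if_pos (hc s hs), AddMonoidHom.zero_apply]
  simpa using h

theorem chh_bd_list {V : Type*} (s : List V) (h : 2 ≤ s.length) :
    bd (Finsupp.single s 1) = Hom.dl (fun l => Finsupp.single l (1 : ℤ)) s := by
  rw [bd_single, simplexBoundary, if_neg (by omega), chh_dl_eq_sum]

theorem chh_bd_bd {V : Type*} (c : OChain V) : bd (bd c) = 0 := by
  classical
  have h := chh_ext ((bd (V := V)).comp bd) (0 : OChain V →+ OChain V) c fun s _ => by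
    rw [AddMonoidHom.comp_apply, AddMonoidHom.zero_apply]
    by_cases h1 : s.length ≤ 1
    · rw [bd_single, simplexBoundary, if_pos h1, map_zero]
    · by_cases h2 : s.length = 2
      · refine chh_bd_short _ fun l hl => ?_
        rw [bd_single, simplexBoundary, if_neg h1] at hl
        obtain ⟨i, hi, h3⟩ := Finset.mem_biUnion.1 (Finsupp.support_finsetSum hl)
        have h4 := Finsupp.support_smul h3
        have h5 := Finset.mem_singleton.1 (Finsupp.support_single_subset h4)
        rw [h5, List.length_eraseIdx_of_lt (Finset.mem_range.1 hi)]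
        omega
      · rw [chh_bd_list s (by omega), ← Hom.dl_map bd]
        have h3 : Hom.dl (fun l => bd (Finsupp.single l (1 : ℤ))) s =
            Hom.dl (Hom.dl (fun l => Finsupp.single l (1 : ℤ))) s := by
          rw [chh_dl_eq_sum, chh_dl_eq_sum]
          refine Finset.sum_congr rfl fun i hi => ?_
          rw [chh_bd_list]
          rw [List.length_eraseIdx_of_lt (Finset.mem_range.1 hi)]
          omega
        rw [h3, Hom.dl_dl]
  simpa using h

/-- `∂∂ = 0` for ordered chains -/
theorem bd_bd (c : OChain W) : extend simplexBoundary (extend simplexBoundary c) = 0 := by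
  rw [← bd_eq_extend, ← bd_eq_extend, chh_bd_bd]

open Classical in
/-- There is a carried chain homotopy `H` between the simplicial map `φ` and the chain map `F`
(construct `H s` by induction on the cardinality as the cone with apex `φ u`, `u ∈ s`, over
`φ(s) - F s - Σ (-1)^j H (face j)`), hence: for `s` with `D + 1` vertices the chain
`φ(s) - Σ_j (-1)^j H (face j s)` is a cycle. -/
theorem exists_homotopy (K : Set (Finset U)) (hK : ∀ s ∈ K, ∀ t ⊆ s, t.Nonempty → t ∈ K)
    (hne : ∀ s ∈ K, s.Nonempty) (S : U → Finset W) (φ : U → W) (hφ : ∀ u, φ u ∈ S u) (D : ℕ)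
    (hD : 1 ≤ D) (F : Finset U → OChain W) (hF : ChainData K S D F) :
    ∃ H : Finset U → OChain W,
      (∀ s ∈ K, ∀ l ∈ (H s).support, l.length = s.card + 1 ∧ ∀ w ∈ l, w ∈ s.biUnion S) ∧
      ∀ s ∈ K, s.card = D + 1 → extend simplexBoundary
        (Finsupp.single (imgList φ s) 1 -
          ∑ j ∈ Finset.range s.card, (-1 : ℤ) ^ j • H (faceF s j)) = 0 := by
  by_cases hU : Nonempty U
  swap
  · refine ⟨fun _ => 0, fun s hs => ?_, fun s hs _ => ?_⟩
    · obtain ⟨u, -⟩ := hne s hs
      exact (hU ⟨u⟩).elim
    · obtain ⟨u, -⟩ := hne s hs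
      exact (hU ⟨u⟩).elim
  obtain ⟨u0⟩ := hU
  let SL : Set (List U) := {l | l.Pairwise (· < ·) ∧ (l ≠ [] → l.toFinset ∈ K)}
  let C : List U → Set W := fun l => ↑(l.toFinset.biUnion S)
  let v : List U → W := fun l => φ (l.headD u0)
  let Φ : List U → OChain W := fun l => if l = [] then 0 else Finsupp.single (l.map φ) 1
  let Φ' : List U → OChain W := fun l => if l = [] then 0 else F l.toFinset
  -- sorted lists
  have hsort : ∀ l : List U, l.Pairwise (· < ·) → l.toFinset.sort (· ≤ ·) = l := by
    intro l hl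
    exact (List.toFinset_sort (· ≤ ·) (hl.imp fun h => ne_of_lt h)).2
      (hl.imp fun h => le_of_lt h)
  have hcard : ∀ l : List U, l.Pairwise (· < ·) → l.toFinset.card = l.length := by
    intro l hl
    exact List.toFinset_card_of_nodup (hl.imp fun h => ne_of_lt h)
  have hSL : ∀ l ∈ SL, ∀ l' : List U, l'.Sublist l → l' ∈ SL := by
    intro l hl l' h
    refine ⟨hl.1.sublist h, fun h' => ?_⟩
    have h1 : l ≠ [] := by
      rintro rfl
      exact h' (List.sublist_nil.1 h)
    refine hK _ (hl.2 h1) _ ?_ ?_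
    · intro x hx
      rw [List.mem_toFinset] at hx ⊢
      exact h.subset hx
    · obtain ⟨x, hx⟩ := List.exists_mem_of_ne_nil _ h'
      exact ⟨x, List.mem_toFinset.2 hx⟩
  obtain ⟨H, hH0, hH⟩ := chh_exists (S := SL) hSL (C := C)
    (by
      intro l hl l' h _ w hw
      have hw' := Finset.mem_biUnion.1 (Finset.mem_coe.1 hw)
      obtain ⟨x, hx, hx2⟩ := hw'
      refine Finset.mem_coe.2 (Finset.mem_biUnion.2 ⟨x, ?_, hx2⟩)
      rw [List.mem_toFinset] at hx ⊢
      exact h.subset hx)
    v
    (by
      intro l hl hl'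
      cases l with
      | nil => exact absurd rfl hl'
      | cons a l =>
        refine Finset.mem_coe.2 (Finset.mem_biUnion.2 ⟨a, ?_, hφ a⟩)
        rw [List.mem_toFinset]
        exact List.mem_cons_self)
    Φ Φ'
    (by
      intro l hl
      by_cases h2 : 2 ≤ l.length
      · have hl0 : l ≠ [] := by
          rintro rfl
          simp at h2
        have e1 : Φ l = Finsupp.single (l.map φ) 1 := if_neg hl0
        rw [e1, chh_bd_list _ (by rw [List.length_map]; exact h2), chh_dl_eq_sum, chh_dl_eq_sum,
          List.length_map]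
        refine Finset.sum_congr rfl fun i hi => ?_
        have hi' := Finset.mem_range.1 hi
        have h3 : l.eraseIdx i ≠ [] := by
          rw [← List.length_pos_iff, List.length_eraseIdx_of_lt hi']
          omega
        have e2 : Φ (l.eraseIdx i) = Finsupp.single ((l.eraseIdx i).map φ) 1 := if_neg h3
        rw [e2, List.eraseIdx_map]
      · match l, h2 with
        | [], _ =>
          have e1 : Φ [] = 0 := if_pos rfl
          rw [e1, map_zero]
          rfl
        | [y], _ =>
          have e1 : Φ [] = 0 := if_pos rfl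
          have e2 : Φ [y] = Finsupp.single [φ y] 1 := if_neg (by simp)
          rw [Hom.dl_singleton, e1, e2, bd_single, simplexBoundary, if_pos (by simp)]
        | _ :: _ :: _, h2 => exact absurd (by simp) h2)
    (by
      intro l hl
      by_cases h2 : 2 ≤ l.length
      · have hl0 : l ≠ [] := by
          rintro rfl
          simp at h2
        have e1 : Φ' l = F l.toFinset := if_neg hl0
        rw [e1, bd_eq_extend, hF.bd _ (hl.2 hl0) (by rw [hcard l hl.1]; exact h2), chh_dl_eq_sum,
          hcard l hl.1]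
        refine Finset.sum_congr rfl fun i hi => ?_
        have hi' := Finset.mem_range.1 hi
        have h3 : l.eraseIdx i ≠ [] := by
          rw [← List.length_pos_iff, List.length_eraseIdx_of_lt hi']
          omega
        have e2 : Φ' (l.eraseIdx i) = F (l.eraseIdx i).toFinset := if_neg h3
        rw [e2, faceF, hsort l hl.1]
      · match l, h2 with
        | [], _ =>
          have e1 : Φ' [] = 0 := if_pos rfl
          rw [e1, map_zero]
          rfl
        | [y], _ =>
          have e1 : Φ' [] = 0 := if_pos rfl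
          have e2 : Φ' [y] = F [y].toFinset := if_neg (by simp)
          rw [Hom.dl_singleton, e1, e2]
          refine chh_bd_short _ fun l' hl' => ?_
          have h3 := (hF.supp _ (hl.2 (by simp)) l' hl').1
          rw [h3, hcard [y] hl.1]
          simp
        | _ :: _ :: _, h2 => exact absurd (by simp) h2)
    (by
      intro y hy
      have e2 : Φ [y] = Finsupp.single [φ y] 1 := if_neg (by simp)
      rw [e2]
      simp [aug])
    (by
      intro y hy
      have e2 : Φ' [y] = F [y].toFinset := if_neg (by simp)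
      rw [e2, aug_eq_sum]
      exact hF.aug _ (hy.2 (by simp)) (by rw [hcard [y] hy.1]; rfl))
    (by
      intro l hl hl' s hs
      have e1 : Φ l = Finsupp.single (l.map φ) 1 := if_neg hl'
      rw [e1] at hs
      have h5 := Finset.mem_singleton.1 (Finsupp.support_single_subset hs)
      rw [h5]
      refine ⟨List.length_map _, fun w hw => ?_⟩
      obtain ⟨u, hu, rfl⟩ := List.mem_map.1 hw
      exact Finset.mem_coe.2 (Finset.mem_biUnion.2 ⟨u, List.mem_toFinset.2 hu, hφ u⟩))
    (by
      intro l hl hl' s hs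
      have e1 : Φ' l = F l.toFinset := if_neg hl'
      rw [e1] at hs
      obtain ⟨h3, h4⟩ := hF.supp _ (hl.2 hl') s hs
      exact ⟨h3.trans (hcard l hl.1), fun w hw => Finset.mem_coe.2 (h4 w hw)⟩)
  have hmem : ∀ s ∈ K, s.sort (· ≤ ·) ∈ SL ∧ s.sort (· ≤ ·) ≠ [] := by
    intro s hs
    refine ⟨⟨Finset.sortedLT_sort s |>.pairwise, fun _ => ?_⟩, ?_⟩
    · rw [Finset.sort_toFinset]
      exact hs
    · rw [← List.length_pos_iff, Finset.length_sort]
      exact Finset.card_pos.2 (hne s hs)
  refine ⟨fun s => H (s.sort (· ≤ ·)), fun s hs l hl => ?_, fun s hs hc => ?_⟩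
  · obtain ⟨h1, h2⟩ := hmem s hs
    obtain ⟨h3, h4⟩ := (hH _ h1 h2).2 l hl
    rw [Finset.length_sort] at h3
    refine ⟨h3, fun w hw => ?_⟩
    have h5 := Finset.mem_coe.1 (h4 w hw)
    rwa [Finset.sort_toFinset] at h5
  · obtain ⟨h1, h2⟩ := hmem s hs
    have h3 := (hH _ h1 h2).1
    have e1 : Φ (s.sort (· ≤ ·)) = Finsupp.single (imgList φ s) 1 := if_neg h2
    have e2 : Φ' (s.sort (· ≤ ·)) = 0 := by
      have : Φ' (s.sort (· ≤ ·)) = F (s.sort (· ≤ ·)).toFinset := if_neg h2
      rw [this, Finset.sort_toFinset]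
      exact hF.van s hs (by omega)
    have e3 : Hom.dl H (s.sort (· ≤ ·)) =
        ∑ j ∈ Finset.range s.card, (-1 : ℤ) ^ j • H ((faceF s j).sort (· ≤ ·)) := by
      rw [chh_dl_eq_sum, Finset.length_sort]
      refine Finset.sum_congr rfl fun j _ => ?_
      rw [faceF, hsort]
      exact h1.1.sublist (List.eraseIdx_sublist _ _)
    rw [e1, e2, e3, sub_zero] at h3
    rw [← h3, ← bd_eq_extend, chh_bd_bd]

end Vale.Agent.P093.T
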