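import Vale.Agent.P093.T.SkelDef

/-!
The collapse of the lower skeleton.
-/

open Topology.Homotopy Set
open scoped unitInterval Topology

namespace Vale.Agent.P093.T

variable {W : Type*} [Fintype W]

/-! ### auxiliary functions for the collapse -/

/-- minimum of `1` and the coordinates in `T` -/
noncomputable def colMin (T : Finset W) (y : W → ℝ) : ℝ := T.fold min 1 y

/-- for `y` in the `(d+1)`-skeleton: the smallest of the `d+2` nonzero coordinates, `0` if there
are fewer of them -/
noncomputable def colNu (d : ℕ) (y : W → ℝ) : ℝ :=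
  ∑ T ∈ (Finset.univ : Finset W).powersetCard (d + 2), colMin T y

theorem continuous_colMin (T : Finset W) : Continuous (fun y : W → ℝ => colMin T y) := by
  classical
  induction T using Finset.induction_on with
  | empty =>
    simp only [colMin, Finset.fold_empty]
    exact continuous_const
  | insert a T ha ih =>
    simp only [colMin, Finset.fold_insert ha]
    exact (continuous_apply a).min ih

theorem continuous_colNu (d : ℕ) : Continuous (fun y : W → ℝ => colNu d y) :=
  continuous_finsetSum _ fun T _ => continuous_colMin T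

theorem colMin_nonneg {T : Finset W} {y : W → ℝ} (h : ∀ w, 0 ≤ y w) : 0 ≤ colMin T y :=
  Finset.le_fold_min (c := 0) |>.2 ⟨zero_le_one, fun w _ => h w⟩

theorem colMin_eq_zero {T : Finset W} {y : W → ℝ} (h : ∀ w, 0 ≤ y w) {w : W} (hw : w ∈ T)
    (h0 : y w = 0) : colMin T y = 0 :=
  le_antisymm (Finset.fold_min_le (c := 0) |>.2 (Or.inr ⟨w, hw, h0.le⟩)) (colMin_nonneg h)

theorem colMin_le {T : Finset W} {y : W → ℝ} {w : W} (hw : w ∈ T) : colMin T y ≤ y w :=
  Finset.fold_min_le _ |>.2 (Or.inr ⟨w, hw, le_rfl⟩)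

theorem exists_colMin {T : Finset W} {y : W → ℝ} (h1 : ∀ w, y w ≤ 1) (hT : T.Nonempty) :
    ∃ w ∈ T, y w = colMin T y := by
  rcases Finset.fold_min_le (colMin T y) |>.1 (le_refl (colMin T y)) with h | ⟨w, hw, h⟩
  · obtain ⟨w, hw⟩ := hT
    exact ⟨w, hw, le_antisymm ((h1 w).trans h) (colMin_le hw)⟩
  · exact ⟨w, hw, le_antisymm h (colMin_le hw)⟩

theorem mem_spt {y : W → ℝ} {w : W} : w ∈ spt y ↔ y w ≠ 0 := by
  simp [spt]

theorem colNu_nonneg (d : ℕ) {y : W → ℝ} (h : ∀ w, 0 ≤ y w) : 0 ≤ colNu d y :=
  Finset.sum_nonneg fun _ _ => colMin_nonneg h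

theorem le_one_of_mem {y : W → ℝ} (h : y ∈ stdSimplex ℝ W) (w : W) : y w ≤ 1 := by
  rw [← h.2]
  exact Finset.single_le_sum (fun v _ => h.1 v) (Finset.mem_univ w)

theorem colNu_eq_zero {d : ℕ} {y : W → ℝ} (h : ∀ w, 0 ≤ y w) (hc : (spt y).card ≤ d + 1) :
    colNu d y = 0 := by
  classical
  refine Finset.sum_eq_zero fun T hT => ?_
  have hT2 := (Finset.mem_powersetCard.1 hT).2
  obtain ⟨w, hw, hw2⟩ : ∃ w ∈ T, w ∉ spt y := by
    by_contra hno
    push Not at hno
    have := Finset.card_le_card (show T ⊆ spt y from hno)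
    omega
  refine colMin_eq_zero h hw ?_
  by_contra h0
  exact hw2 (mem_spt.2 h0)

theorem colNu_eq {d : ℕ} {y : W → ℝ} (h : ∀ w, 0 ≤ y w) (hc : (spt y).card = d + 2) :
    colNu d y = colMin (spt y) y := by
  classical
  refine Finset.sum_eq_single (spt y) ?_ ?_
  · intro T hT hne
    have hT2 := (Finset.mem_powersetCard.1 hT).2
    obtain ⟨w, hw, hw2⟩ : ∃ w ∈ T, w ∉ spt y := by
      by_contra hno
      push Not at hno
      exact hne (Finset.eq_of_subset_of_card_le hno (by omega))
    refine colMin_eq_zero h hw ?_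
    by_contra h0
    exact hw2 (mem_spt.2 h0)
  · intro hno
    exact absurd (Finset.mem_powersetCard.2 ⟨Finset.subset_univ _, hc⟩) hno

/-- truncation -/
theorem sum_trunc {d : ℕ} {y : W → ℝ} (hy : y ∈ Sk W (d + 1)) {l : ℝ} (h0 : 0 ≤ l)
    (hl : l ≤ colNu d y) : ∑ w, max 0 (y w - l) = 1 - (d + 2) * l := by
  classical
  obtain ⟨hy1, hc⟩ := hy
  rcases Nat.lt_or_ge (spt y).card (d + 2) with hlt | hge
  · rw [colNu_eq_zero hy1.1 (by omega)] at hl
    have hl0 : l = 0 := le_antisymm hl h0
    subst hl0
    rw [mul_zero, sub_zero, ← hy1.2]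
    refine Finset.sum_congr rfl fun w _ => ?_
    rw [sub_zero, max_eq_right (hy1.1 w)]
  · have hceq : (spt y).card = d + 2 := by omega
    rw [colNu_eq hy1.1 hceq] at hl
    have h1 : ∀ w, max 0 (y w - l) = if w ∈ spt y then y w - l else 0 := by
      intro w
      split_ifs with hw
      · exact max_eq_right (sub_nonneg.2 (hl.trans (colMin_le hw)))
      · have hw0 : y w = 0 := by
          by_contra h0
          exact hw (mem_spt.2 h0)
        rw [hw0]
        exact max_eq_left (by linarith)
    have h2 : ∑ w ∈ spt y, y w = 1 := by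
      rw [← hy1.2]
      refine Finset.sum_subset (Finset.subset_univ _) fun w _ hw => ?_
      by_contra h0
      exact hw (mem_spt.2 h0)
    rw [Finset.sum_congr rfl fun w _ => h1 w, Finset.sum_ite_mem, Finset.univ_inter,
      Finset.sum_sub_distrib, h2, Finset.sum_const, hceq, nsmul_eq_mul]
    push_cast
    ring

theorem spt_trunc_subset {y : W → ℝ} {l : ℝ} (h0 : 0 ≤ l) (c : ℝ) :
    spt (fun w => max 0 (y w - l) / c) ⊆ spt (fun w => max 0 (y w)) := by
  intro w hw
  rw [mem_spt] at hw ⊢
  intro h
  apply hw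
  have h1 : y w ≤ 0 := by
    have := le_max_right 0 (y w)
    rw [h] at this
    exact this
  have h2 : max 0 (y w - l) = 0 := max_eq_left (by linarith)
  simp only [h2, zero_div]

theorem card_spt_trunc {d : ℕ} {y : W → ℝ} (hy : y ∈ Sk W (d + 1)) {l : ℝ} (h0 : 0 ≤ l) (c : ℝ) :
    spt (fun w => max 0 (y w - l) / c) ⊆ spt y := by
  intro w hw
  have h1 := spt_trunc_subset h0 c hw
  rw [mem_spt] at h1 ⊢
  intro h
  apply h1
  simp only [h, max_self]

theorem card_spt_trunc_lt {d : ℕ} {y : W → ℝ} (hy : y ∈ Sk W (d + 1)) (c : ℝ) :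
    (spt (fun w => max 0 (y w - colNu d y) / c)).card ≤ d + 1 := by
  classical
  have hsub := card_spt_trunc hy (colNu_nonneg d hy.1.1) c
  rcases Nat.lt_or_ge (spt y).card (d + 2) with hlt | hge
  · have := Finset.card_le_card hsub
    omega
  · have hceq : (spt y).card = d + 2 := by
      have := hy.2
      omega
    obtain ⟨w, hw, hw2⟩ := exists_colMin (T := spt y) (y := y) (le_one_of_mem hy.1)
      (Finset.card_pos.1 (by omega))
    rw [← colNu_eq hy.1.1 hceq] at hw2
    have h1 : w ∉ spt (fun w => max 0 (y w - colNu d y) / c) := by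
      rw [mem_spt, not_not]
      simp only [hw2, sub_self, max_self, zero_div]
    have h2 : spt (fun w => max 0 (y w - colNu d y) / c) ⊆ (spt y).erase w := by
      intro v hv
      rw [Finset.mem_erase]
      refine ⟨?_, hsub hv⟩
      rintro rfl
      exact h1 hv
    have h3 := Finset.card_le_card h2
    rw [Finset.card_erase_of_mem hw] at h3
    omega

/-- clamped time -/
noncomputable def colT (t : ℝ) : ℝ := max 0 (min 1 t)

/-- the truncation level -/
noncomputable def colL (d : ℕ) (t : ℝ) (y : W → ℝ) : ℝ :=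
  min (colNu d y) (colT t * (1 / (2 * ((d : ℝ) + 2))))

/-- the weight -/
noncomputable def colTh (d : ℕ) (t : ℝ) (y : W → ℝ) : ℝ :=
  1 - colT t + colL d t y * (2 * ((d : ℝ) + 2))

/-- the deformation, as a function to `W → ℝ` -/
noncomputable def colR (d : ℕ) (w₀ : W) (t : ℝ) (y : W → ℝ) : W → ℝ := fun w =>
  colTh d t y * (max 0 (y w - colL d t y) / (1 - ((d : ℝ) + 2) * colL d t y)) +
    (1 - colTh d t y) * vtx w₀ w

theorem colT_nonneg (t : ℝ) : 0 ≤ colT t := le_max_left _ _

theorem colT_le_one (t : ℝ) : colT t ≤ 1 := max_le zero_le_one (min_le_left _ _)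

theorem continuous_colT : Continuous colT := continuous_const.max (continuous_const.min continuous_id)

theorem colL_le (d : ℕ) (t : ℝ) (y : W → ℝ) : colL d t y * (2 * ((d : ℝ) + 2)) ≤ colT t := by
  have hd : (0 : ℝ) < 2 * ((d : ℝ) + 2) := by positivity
  have h1 : colL d t y ≤ colT t * (1 / (2 * ((d : ℝ) + 2))) := min_le_right _ _
  have h2 := mul_le_mul_of_nonneg_right h1 hd.le
  have h3 : colT t * (1 / (2 * ((d : ℝ) + 2))) * (2 * ((d : ℝ) + 2)) = colT t := by
    field_simp
  linarith

theorem colL_nonneg (d : ℕ) (t : ℝ) {y : W → ℝ} (h : ∀ w, 0 ≤ y w) : 0 ≤ colL d t y :=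
  le_min (colNu_nonneg d h) (mul_nonneg (colT_nonneg t) (by positivity))

theorem colDen_pos (d : ℕ) (t : ℝ) (y : W → ℝ) : 0 < 1 - ((d : ℝ) + 2) * colL d t y := by
  have h1 := colL_le d t y
  have h2 := colT_le_one t
  nlinarith

theorem colTh_nonneg (d : ℕ) (t : ℝ) {y : W → ℝ} (h : ∀ w, 0 ≤ y w) : 0 ≤ colTh d t y := by
  have h1 := colT_le_one t
  have h2 : 0 ≤ colL d t y * (2 * ((d : ℝ) + 2)) := mul_nonneg (colL_nonneg d t h) (by positivity)
  unfold colTh
  linarith

theorem colTh_le_one (d : ℕ) (t : ℝ) (y : W → ℝ) : colTh d t y ≤ 1 := by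
  have h1 := colL_le d t y
  unfold colTh
  linarith

theorem colR_mem (d : ℕ) (w₀ : W) (t : ℝ) {y : W → ℝ} (hy : y ∈ Sk W (d + 1)) :
    colR d w₀ t y ∈ Sk W (d + 1) := by
  classical
  have hl0 := colL_nonneg d t hy.1.1
  have hlν : colL d t y ≤ colNu d y := min_le_left _ _
  have hden := colDen_pos d t y
  have hth0 := colTh_nonneg d t hy.1.1
  have hth1 := colTh_le_one d t y
  have hsum := sum_trunc hy hl0 hlν
  have hv := vtx_mem_Sk w₀ d
  have hg : (fun w => max 0 (y w - colL d t y) / (1 - ((d : ℝ) + 2) * colL d t y)) ∈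
      stdSimplex ℝ W := by
    refine ⟨fun w => div_nonneg (le_max_left _ _) hden.le, ?_⟩
    rw [← Finset.sum_div, hsum, div_self hden.ne']
  refine ⟨⟨?_, ?_⟩, ?_⟩
  · intro w
    exact add_nonneg (mul_nonneg hth0 (hg.1 w)) (mul_nonneg (by linarith) (hv.1.1 w))
  · simp only [colR]
    rw [Finset.sum_add_distrib, ← Finset.mul_sum, ← Finset.mul_sum, hg.2, hv.1.2]
    ring
  · by_cases hth : colTh d t y = 1
    · have h1 : spt (colR d w₀ t y) ⊆ spt y := by
        intro w hw
        have h2 : w ∈ spt (fun w => max 0 (y w - colL d t y) /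
            (1 - ((d : ℝ) + 2) * colL d t y)) := by
          rw [mem_spt] at hw ⊢
          intro h3
          apply hw
          simp only [colR, h3, hth, sub_self, zero_mul, mul_zero, add_zero]
        exact card_spt_trunc hy hl0 _ h2
      exact (Finset.card_le_card h1).trans hy.2
    · have hlt : colTh d t y < 1 := lt_of_le_of_ne hth1 hth
      have hlam : colL d t y = colNu d y := by
        rcases min_choice (colNu d y) (colT t * (1 / (2 * ((d : ℝ) + 2)))) with h | h
        · exact h
        · exfalso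
          have h1 : colL d t y = colT t * (1 / (2 * ((d : ℝ) + 2))) := h
          have hd : (0 : ℝ) < 2 * ((d : ℝ) + 2) := by positivity
          have h3 : colT t * (1 / (2 * ((d : ℝ) + 2))) * (2 * ((d : ℝ) + 2)) = colT t := by
            field_simp
          apply hth
          unfold colTh
          rw [h1, h3]
          ring
      have h1 : spt (colR d w₀ t y) ⊆ insert w₀ (spt (fun w => max 0 (y w - colNu d y) /
            (1 - ((d : ℝ) + 2) * colL d t y))) := by
        intro w hw
        rw [Finset.mem_insert]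
        by_cases hw0 : w = w₀
        · exact Or.inl hw0
        · right
          rw [mem_spt] at hw ⊢
          intro h3
          apply hw
          simp only [colR]
          rw [hlam] at h3 ⊢
          rw [h3, vtx_of_ne hw0]
          ring
      have h2 := Finset.card_le_card h1
      have h3 := Finset.card_insert_le w₀ (spt (fun w => max 0 (y w - colNu d y) /
            (1 - ((d : ℝ) + 2) * colL d t y)))
      have h4 := card_spt_trunc_lt hy (1 - ((d : ℝ) + 2) * colL d t y)
      omega

theorem continuous_colL (d : ℕ) : Continuous fun z : ℝ × (W → ℝ) => colL d z.1 z.2 :=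
  ((continuous_colNu d).comp continuous_snd).min
    ((continuous_colT.comp continuous_fst).mul continuous_const)

theorem continuous_colR (d : ℕ) (w₀ : W) :
    Continuous fun z : ℝ × (W → ℝ) => colR d w₀ z.1 z.2 := by
  have hL := continuous_colL (W := W) d
  have hTh : Continuous fun z : ℝ × (W → ℝ) => colTh d z.1 z.2 :=
    (continuous_const.sub (continuous_colT.comp continuous_fst)).add (hL.mul continuous_const)
  refine continuous_pi fun w => ?_
  refine (hTh.mul ?_).add ((continuous_const.sub hTh).mul continuous_const)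
  refine Continuous.div ?_ (continuous_const.sub (continuous_const.mul hL)) ?_
  · exact continuous_const.max (((continuous_apply w).comp continuous_snd).sub hL)
  · intro z
    exact (colDen_pos d z.1 z.2).ne'

/-- The `d`-skeleton inside the `(d+1)`-skeleton can be deformed to the vertex `w₀`, by a
deformation `R` of the `(d+1)`-skeleton. With `s = 1/(2(d+2))`, `ν y` = the `(d+2)`-nd largest
coordinate of `y` (maximum over the `(d+2)`-subsets of the minimum over the subset, `0` if there is
none), `t` clamped to `[0,1]`, `λ = min (ν y) (t s)`, `θ = 1 - t + λ / s`: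
`R t y = θ • (fun w => max 0 (y w - λ)) / (1 - (d+2) λ) + (1 - θ) • vtx w₀`. -/
theorem exists_collapse (d : ℕ) (w₀ : W) :
    ∃ R : ℝ → Sk W (d + 1) → Sk W (d + 1), Continuous (fun z : ℝ × Sk W (d + 1) => R z.1 z.2) ∧
      (∀ y, R 0 y = y) ∧
      ∀ y : Sk W (d + 1), (y : W → ℝ) ∈ Sk W d → ((R 1 y : Sk W (d + 1)) : W → ℝ) = vtx w₀ := by
  refine ⟨fun t y => ⟨colR d w₀ t y, colR_mem d w₀ t y.2⟩, ?_, ?_, ?_⟩
  · refine Continuous.subtype_mk ?_ _
    exact (continuous_colR d w₀).comp
      (continuous_fst.prodMk (continuous_subtype_val.comp continuous_snd))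
  · intro y
    apply Subtype.ext
    funext w
    have hT : colT 0 = 0 := by simp [colT]
    have hν := colNu_nonneg d y.2.1.1
    have hL : colL d 0 (y : W → ℝ) = 0 := by
      simp only [colL, hT, zero_mul]
      exact min_eq_right hν
    have hyw : 0 ≤ (y : W → ℝ) w := y.2.1.1 w
    simp only [colR, colTh, hL, hT, sub_zero, zero_mul, mul_zero, add_zero, sub_self, one_mul,
      div_one, max_eq_right hyw]
  · intro y hy
    funext w
    have hT : colT 1 = 1 := by simp [colT]
    have hL : colL d 1 (y : W → ℝ) = 0 := by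
      simp only [colL, colNu_eq_zero y.2.1.1 hy.2]
      exact min_eq_left (mul_nonneg (colT_nonneg 1) (by positivity))
    simp only [colR, colTh, hL, hT, sub_self, zero_mul, add_zero, sub_zero, one_mul, zero_add]

/-- the chosen deformation -/
noncomputable def collapse (d : ℕ) (w₀ : W) : ℝ → Sk W (d + 1) → Sk W (d + 1) :=
  (exists_collapse d w₀).choose

end Vale.Agent.P093.T
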