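import Vale.Agent.P093.T.Qmap

/-!
Maps on the cube descend to the simplex.
-/

open Topology.Homotopy Set
open scoped unitInterval Topology

namespace Vale.Agent.P093.T

theorem clamp_of_mem_descend {t : ℝ} (h0 : 0 ≤ t) (h1 : t ≤ 1) : clamp t = t := by
  unfold clamp
  rw [min_eq_right h1, max_eq_right h0]

/-- a point of the cube with positive coordinates is determined by its image under `qmap` -/
theorem qmap_inj_pos_descend (k : ℕ) (x x' : Fin k → ℝ) (hx : ∀ i, 0 ≤ x i ∧ x i ≤ 1)
    (hx' : ∀ i, 0 ≤ x' i ∧ x' i ≤ 1) (hpos : ∀ i, 0 < x i) (h : qmap k x = qmap k x') :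
    x = x' := by
  have key : ∀ n : ℕ, ∀ hn : n < k, x ⟨n, hn⟩ = x' ⟨n, hn⟩ := by
    intro n
    induction n using Nat.strong_induction_on with
    | _ n ih =>
      intro hn
      have h1 : qmap k x ⟨n, by omega⟩ = qmap k x' ⟨n, by omega⟩ := by rw [h]
      unfold qmap at h1
      simp only [hn, dite_true] at h1
      have hprod : (∏ i : Fin k, if i.val < n then clamp (x' i) else 1) =
          ∏ i : Fin k, if i.val < n then clamp (x i) else 1 := by
        apply Finset.prod_congr rfl
        intro i _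
        by_cases hi : i.val < n
        · rw [if_pos hi, if_pos hi]
          have := ih i.val hi i.isLt
          rw [show x' i = x i from this.symm]
        · rw [if_neg hi, if_neg hi]
      have hP : 0 < ∏ i : Fin k, if i.val < n then clamp (x i) else 1 := by
        apply Finset.prod_pos
        intro i _
        by_cases hi : i.val < n
        · rw [if_pos hi, clamp_of_mem_descend (hx i).1 (hx i).2]
          exact hpos i
        · rw [if_neg hi]
          exact one_pos
      rw [hprod] at h1
      have h2 := mul_left_cancel₀ hP.ne' h1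
      rw [clamp_of_mem_descend (hx _).1 (hx _).2, clamp_of_mem_descend (hx' _).1 (hx' _).2] at h2
      linarith
  funext i
  exact key i.val i.isLt

/-- A continuous map on the cube which is constant on the part of the fibres of `qmap` in the
boundary descends to the simplex (`qmap` is a quotient map, injective over the interior). -/
theorem descend {Y : Type*} [TopologicalSpace Y] (k : ℕ) (F : (Fin k → ℝ) → Y)
    (hF : Continuous F)
    (hfib : ∀ x x' : Fin k → ℝ, (∀ i, 0 ≤ x i ∧ x i ≤ 1) → (∀ i, 0 ≤ x' i ∧ x' i ≤ 1) →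
      x ∉ openCube k → x' ∉ openCube k → qmap k x = qmap k x' → F x = F x') :
    ∃ f : stdSimplex ℝ (Fin (k + 1)) → Y, Continuous f ∧
      ∀ x : Fin k → ℝ, (∀ i, 0 ≤ x i ∧ x i ≤ 1) → f ⟨qmap k x, qmap_mem k x⟩ = F x := by
  classical
  have hfib' : ∀ x x' : Fin k → ℝ, (∀ i, 0 ≤ x i ∧ x i ≤ 1) → (∀ i, 0 ≤ x' i ∧ x' i ≤ 1) →
      qmap k x = qmap k x' → F x = F x' := by
    intro x x' hx hx' h
    by_cases h1 : x ∈ openCube k
    · rw [qmap_inj_pos_descend k x x' hx hx' (fun i => (h1 i).1) h]
    · by_cases h2 : x' ∈ openCube k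
      · rw [qmap_inj_pos_descend k x' x hx' hx (fun i => (h2 i).1) h.symm]
      · exact hfib x x' hx hx' h1 h2 h
  let K : Set (Fin k → ℝ) := Set.Icc 0 1
  have hK : ∀ x : Fin k → ℝ, x ∈ K ↔ ∀ i, 0 ≤ x i ∧ x i ≤ 1 := by
    intro x
    constructor
    · intro h i
      exact ⟨h.1 i, h.2 i⟩
    · intro h
      exact ⟨fun i => (h i).1, fun i => (h i).2⟩
  have : CompactSpace K := isCompact_iff_compactSpace.mp isCompact_Icc
  let q : K → stdSimplex ℝ (Fin (k + 1)) := fun x => ⟨qmap k x.1, qmap_mem k x.1⟩
  have hq : Continuous q :=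
    Continuous.subtype_mk ((continuous_qmap k).comp continuous_subtype_val) _
  have hsurj : ∀ z : stdSimplex ℝ (Fin (k + 1)), ∃ x : K, q x = z := by
    intro z
    obtain ⟨x, hx, hxz⟩ := qmap_surj k z.1 z.2
    exact ⟨⟨x, (hK x).2 hx⟩, Subtype.ext hxz⟩
  have hquot := IsClosedMap.isQuotientMap hq.isClosedMap hq hsurj
  choose s hs using hsurj
  have hcomp : ∀ x : K, F (s (q x)).1 = F x.1 := by
    intro x
    apply hfib' _ _ ((hK _).1 (s (q x)).2) ((hK _).1 x.2)
    exact congrArg Subtype.val (hs (q x))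
  refine ⟨fun z => F (s z).1, ?_, ?_⟩
  · rw [hquot.continuous_iff]
    have : ((fun z => F (s z).1) ∘ q) = fun x : K => F x.1 := by
      funext x
      exact hcomp x
    rw [this]
    exact hF.comp continuous_subtype_val
  · intro x hx
    exact hcomp ⟨x, (hK x).2 hx⟩

end Vale.Agent.P093.T
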