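import Mathlib
import Vale.Agent.P093.T.Loops

/-!
The map from the cube to the simplex.
-/

open Topology.Homotopy Set
open scoped unitInterval Topology

namespace Vale.Agent.P093.T

/-- clamping to `[0,1]` -/
noncomputable def clamp (t : ℝ) : ℝ := max 0 (min 1 t)

/-- the map from the cube `[0,1]^k` onto the simplex with vertices `0,…,k` -/
noncomputable def qmap (k : ℕ) (x : Fin k → ℝ) (j : Fin (k + 1)) : ℝ :=
  (∏ i : Fin k, if i.val < j.val then clamp (x i) else 1) *
    (if h : j.val < k then 1 - clamp (x ⟨j.val, h⟩) else 1)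

theorem clamp_nonneg (t : ℝ) : 0 ≤ clamp t := le_max_left _ _

theorem clamp_le_one (t : ℝ) : clamp t ≤ 1 := max_le zero_le_one (min_le_left _ _)

theorem clamp_of_nonpos {t : ℝ} (h : t ≤ 0) : clamp t = 0 :=
  max_eq_left ((min_le_right _ _).trans h)

theorem clamp_of_one_le {t : ℝ} (h : 1 ≤ t) : clamp t = 1 := by
  unfold clamp
  rw [min_eq_left h]
  exact max_eq_right zero_le_one

theorem clamp_of_mem {t : ℝ} (h0 : 0 ≤ t) (h1 : t ≤ 1) : clamp t = t := by
  unfold clamp
  rw [min_eq_right h1]
  exact max_eq_right h0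

theorem continuous_clamp : Continuous clamp :=
  continuous_const.max (continuous_const.min continuous_id)

/-- the clamped coordinates as a sequence, continued by zero -/
noncomputable def qext (k : ℕ) (x : Fin k → ℝ) (i : ℕ) : ℝ :=
  if h : i < k then clamp (x ⟨i, h⟩) else 0

theorem qext_lt {k : ℕ} (x : Fin k → ℝ) {i : ℕ} (h : i < k) : qext k x i = clamp (x ⟨i, h⟩) := by
  unfold qext
  rw [dif_pos h]

theorem qext_ge {k : ℕ} (x : Fin k → ℝ) {i : ℕ} (h : k ≤ i) : qext k x i = 0 := by
  unfold qext
  rw [dif_neg (not_lt.2 h)]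

theorem qext_nonneg {k : ℕ} (x : Fin k → ℝ) (i : ℕ) : 0 ≤ qext k x i := by
  unfold qext
  split_ifs
  · exact clamp_nonneg _
  · exact le_rfl

theorem qext_le_one {k : ℕ} (x : Fin k → ℝ) (i : ℕ) : qext k x i ≤ 1 := by
  unfold qext
  split_ifs
  · exact clamp_le_one _
  · exact zero_le_one

theorem qmap_eq (k : ℕ) (x : Fin k → ℝ) (j : Fin (k + 1)) :
    qmap k x j = (∏ i ∈ Finset.range j.val, qext k x i) * (1 - qext k x j.val) := by
  unfold qmap
  congr 1
  · have h1 : (∏ i : Fin k, if i.val < j.val then clamp (x i) else 1) =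
        ∏ i : Fin k, (fun n : ℕ => if n < j.val then qext k x n else 1) i.val := by
      apply Finset.prod_congr rfl
      intro i _
      simp only []
      rw [qext_lt x i.isLt]
    rw [h1, Fin.prod_univ_eq_prod_range (fun n : ℕ => if n < j.val then qext k x n else 1) k]
    rw [← Finset.prod_filter]
    apply Finset.prod_congr _ (fun _ _ => rfl)
    ext n
    simp only [Finset.mem_filter, Finset.mem_range]
    have := j.isLt
    omega
  · split_ifs with h
    · rw [qext_lt x h]
    · rw [qext_ge x (not_lt.1 h), sub_zero]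

theorem qmap_mem (k : ℕ) (x : Fin k → ℝ) : qmap k x ∈ stdSimplex ℝ (Fin (k + 1)) := by
  constructor
  · intro j
    rw [qmap_eq]
    apply mul_nonneg
    · exact Finset.prod_nonneg (fun i _ => qext_nonneg x i)
    · have := qext_le_one x j.val
      linarith
  · have h1 : ∑ j : Fin (k + 1), qmap k x j = ∑ j : Fin (k + 1),
        (fun n : ℕ => (∏ i ∈ Finset.range n, qext k x i) -
          ∏ i ∈ Finset.range (n + 1), qext k x i) j.val := by
      apply Finset.sum_congr rfl
      intro j _
      rw [qmap_eq]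
      simp only []
      rw [Finset.prod_range_succ]
      ring
    rw [h1, Fin.sum_univ_eq_sum_range (fun n : ℕ => (∏ i ∈ Finset.range n, qext k x i) -
          ∏ i ∈ Finset.range (n + 1), qext k x i) (k + 1),
      Finset.sum_range_sub' (fun n : ℕ => ∏ i ∈ Finset.range n, qext k x i)]
    rw [Finset.prod_range_zero, Finset.prod_range_succ, qext_ge x le_rfl]
    ring

theorem continuous_qmap (k : ℕ) : Continuous (qmap k) := by
  apply continuous_pi
  intro j
  unfold qmap
  apply Continuous.mul
  · apply continuous_finsetProd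
    intro i _
    split_ifs
    · exact continuous_clamp.comp (continuous_apply i)
    · exact continuous_const
  · split_ifs with h
    · exact continuous_const.sub (continuous_clamp.comp (continuous_apply _))
    · exact continuous_const

/-- points off the open cube go to the boundary of the simplex -/
theorem qmap_bdry (k : ℕ) (x : Fin k → ℝ) (hx : x ∉ openCube k) (hk : 1 ≤ k) :
    ∃ j, qmap k x j = 0 := by
  have h1 : ∃ i, ¬ (0 < x i ∧ x i < 1) := by
    by_contra hcon
    push Not at hcon
    apply hx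
    intro i
    by_contra h
    exact absurd (hcon i) (fun h' => h h')
  obtain ⟨i, hi⟩ := h1
  rcases lt_or_ge 0 (x i) with h0 | h0
  · have h1 : 1 ≤ x i := by
      by_contra h
      exact hi ⟨h0, not_le.1 h⟩
    refine ⟨i.castSucc, ?_⟩
    rw [qmap_eq]
    have : qext k x (i.castSucc).val = 1 := by
      rw [Fin.val_castSucc, qext_lt x i.isLt]
      exact clamp_of_one_le h1
    rw [this]
    ring
  · refine ⟨Fin.last k, ?_⟩
    rw [qmap_eq]
    have : ∏ n ∈ Finset.range (Fin.last k).val, qext k x n = 0 := by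
      apply Finset.prod_eq_zero (i := i.val)
      · rw [Finset.mem_range, Fin.val_last]
        exact i.isLt
      · rw [qext_lt x i.isLt]
        exact clamp_of_nonpos h0
    rw [this, zero_mul]

/-- `qmap` is onto -/
theorem qmap_surj (k : ℕ) (z : Fin (k + 1) → ℝ) (hz : z ∈ stdSimplex ℝ (Fin (k + 1))) :
    ∃ x : Fin k → ℝ, (∀ i, 0 ≤ x i ∧ x i ≤ 1) ∧ qmap k x = z := by
  classical
  -- the sequence version of `z` and its tails
  set w : ℕ → ℝ := fun n => if h : n < k + 1 then z ⟨n, h⟩ else 0 with hw
  have hwnn : ∀ n, 0 ≤ w n := by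
    intro n
    simp only [hw]
    split_ifs
    · exact hz.1 _
    · exact le_rfl
  have hwsum : ∑ n ∈ Finset.range (k + 1), w n = 1 := by
    rw [← Fin.sum_univ_eq_sum_range, ← hz.2]
    apply Finset.sum_congr rfl
    intro j _
    simp only [hw, j.isLt, dif_pos]
  set R : ℕ → ℝ := fun n => 1 - ∑ i ∈ Finset.range n, w i with hR
  have hRs : ∀ n, R (n + 1) = R n - w n := by
    intro n
    simp only [hR, Finset.sum_range_succ]
    ring
  have hR0 : R 0 = 1 := by simp [hR]
  have hRk : R (k + 1) = 0 := by
    simp only [hR]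
    rw [hwsum]
    ring
  have hRnn : ∀ n, n ≤ k + 1 → 0 ≤ R n := by
    intro n hn
    simp only [hR]
    have : ∑ i ∈ Finset.range n, w i ≤ ∑ i ∈ Finset.range (k + 1), w i :=
      Finset.sum_le_sum_of_subset_of_nonneg (Finset.range_mono hn) (fun i _ _ => hwnn i)
    linarith
  set c : ℕ → ℝ := fun n => R (n + 1) / R n with hc
  have hcb : ∀ n, n ≤ k → 0 ≤ c n ∧ c n ≤ 1 := by
    intro n hn
    have h1 := hRnn n (by omega)
    have h2 := hRnn (n + 1) (by omega)
    have h3 := hRs n
    have h4 := hwnn n
    refine ⟨div_nonneg h2 h1, div_le_one_of_le₀ (by linarith) h1⟩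
  have hRc : ∀ n, n ≤ k → R n * c n = R (n + 1) := by
    intro n hn
    simp only [hc]
    by_cases h : R n = 0
    · have h2 := hRnn (n + 1) (by omega)
      have h3 := hRs n
      have h4 := hwnn n
      rw [h]
      have : R (n + 1) = 0 := by
        rw [h] at h3
        linarith
      rw [this]
      ring
    · field_simp
  have hx : ∀ n, n ≤ k → qext k (fun i : Fin k => c i.val) n = c n := by
    intro n hn
    rcases lt_or_eq_of_le hn with h | h
    · rw [qext_lt _ h]
      exact clamp_of_mem (hcb n hn).1 (hcb n hn).2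
    · subst h
      rw [qext_ge _ le_rfl]
      simp only [hc]
      rw [hRk, zero_div]
  have hP : ∀ n, n ≤ k + 1 →
      ∏ i ∈ Finset.range n, qext k (fun i : Fin k => c i.val) i = R n := by
    intro n
    induction n with
    | zero => intro _; rw [Finset.prod_range_zero, hR0]
    | succ n ih =>
      intro hn
      rw [Finset.prod_range_succ, ih (by omega), hx n (by omega), hRc n (by omega)]
  refine ⟨fun i => c i.val, fun i => hcb i.val (by omega), ?_⟩
  funext j
  have hj : j.val ≤ k := by
    have := j.isLt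
    omega
  rw [qmap_eq, hP j.val (by omega), hx j.val hj, mul_sub, mul_one, hRc j.val hj, hRs]
  simp only [hw, j.isLt, dif_pos]
  ring

theorem qext_insert_lt {k : ℕ} (i : Fin (k + 1)) (t : ℝ) (y : Fin k → ℝ) {n : ℕ}
    (hn : n < i.val) : qext (k + 1) (Fin.insertNth i t y) n = qext k y n := by
  have h1 : n < k + 1 := by
    have := i.isLt
    omega
  have h2 : n < k := by
    have := i.isLt
    omega
  rw [qext_lt _ h1, qext_lt _ h2]
  have h3 : (⟨n, h1⟩ : Fin (k + 1)) = i.succAbove ⟨n, h2⟩ := by
    rw [Fin.succAbove_of_castSucc_lt]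
    · rfl
    · rw [Fin.lt_def]
      exact hn
  rw [h3, Fin.insertNth_apply_succAbove]

theorem qext_insert_same {k : ℕ} (i : Fin (k + 1)) (t : ℝ) (y : Fin k → ℝ) :
    qext (k + 1) (Fin.insertNth i t y) i.val = clamp t := by
  rw [qext_lt _ i.isLt]
  have h3 : (⟨i.val, i.isLt⟩ : Fin (k + 1)) = i := rfl
  rw [h3, Fin.insertNth_apply_same]

theorem qext_insert_gt {k : ℕ} (i : Fin (k + 1)) (t : ℝ) (y : Fin k → ℝ) {n : ℕ}
    (hn : i.val ≤ n) : qext (k + 1) (Fin.insertNth i t y) (n + 1) = qext k y n := by
  rcases lt_or_ge n k with h | h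
  · have h1 : n + 1 < k + 1 := by omega
    rw [qext_lt _ h1, qext_lt _ h]
    have h3 : (⟨n + 1, h1⟩ : Fin (k + 1)) = i.succAbove ⟨n, h⟩ := by
      rw [Fin.succAbove_of_le_castSucc]
      · rfl
      · rw [Fin.le_def]
        exact hn
    rw [h3, Fin.insertNth_apply_succAbove]
  · rw [qext_ge _ h, qext_ge _ (by omega)]

theorem qprod_insert_le {k : ℕ} (i : Fin (k + 1)) (t : ℝ) (y : Fin k → ℝ) {n : ℕ}
    (hn : n ≤ i.val) : ∏ m ∈ Finset.range n, qext (k + 1) (Fin.insertNth i t y) m =
      ∏ m ∈ Finset.range n, qext k y m := by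
  apply Finset.prod_congr rfl
  intro m hm
  rw [Finset.mem_range] at hm
  exact qext_insert_lt i t y (by omega)

theorem qprod_insert_gt {k : ℕ} (i : Fin (k + 1)) (t : ℝ) (y : Fin k → ℝ) {n : ℕ}
    (hn : i.val ≤ n) : ∏ m ∈ Finset.range (n + 1), qext (k + 1) (Fin.insertNth i t y) m =
      clamp t * ∏ m ∈ Finset.range n, qext k y m := by
  induction n with
  | zero =>
    have h0 : i.val = 0 := by omega
    rw [Finset.prod_range_succ, Finset.prod_range_zero, Finset.prod_range_zero]
    have := qext_insert_same i t y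
    rw [h0] at this
    rw [this]
    ring
  | succ n ih =>
    rcases Nat.lt_or_ge n i.val with h | h
    · have h0 : i.val = n + 1 := by omega
      rw [Finset.prod_range_succ, qprod_insert_le i t y (by omega)]
      have := qext_insert_same i t y
      rw [h0] at this
      rw [this]
      ring
    · rw [Finset.prod_range_succ, ih h, qext_insert_gt i t y h, Finset.prod_range_succ]
      ring

/-- the face `x_i = 1` of the cube goes to the face `i` of the simplex -/
theorem qmap_one (k : ℕ) (i : Fin (k + 1)) (y : Fin k → ℝ) :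
    qmap (k + 1) (Fin.insertNth i 1 y) = Fin.insertNth (Fin.castSucc i) 0 (qmap k y) := by
  have h1 : clamp 1 = 1 := clamp_of_one_le le_rfl
  funext j
  rcases Fin.eq_self_or_eq_succAbove (Fin.castSucc i) j with rfl | ⟨j', rfl⟩
  · rw [Fin.insertNth_apply_same, qmap_eq, Fin.val_castSucc, qext_insert_same, h1]
    ring
  · rw [Fin.insertNth_apply_succAbove, qmap_eq, qmap_eq]
    rcases lt_or_ge j'.val i.val with h | h
    · rw [Fin.succAbove_of_castSucc_lt _ _ (by rw [Fin.lt_def]; exact h), Fin.val_castSucc,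
        qprod_insert_le i 1 y h.le, qext_insert_lt i 1 y h]
    · rw [Fin.succAbove_of_le_castSucc _ _ (by rw [Fin.le_def]; exact h), Fin.val_succ,
        qprod_insert_gt i 1 y h, qext_insert_gt i 1 y h, h1, one_mul]

/-- the last face `x_k = 0` of the cube goes to the last face of the simplex -/
theorem qmap_last (k : ℕ) (y : Fin k → ℝ) :
    qmap (k + 1) (Fin.insertNth (Fin.last k) 0 y) =
      Fin.insertNth (Fin.last (k + 1)) 0 (qmap k y) := by
  have h1 : clamp 0 = 0 := clamp_of_nonpos le_rfl
  funext j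
  rcases Fin.eq_self_or_eq_succAbove (Fin.last (k + 1)) j with rfl | ⟨j', rfl⟩
  · rw [Fin.insertNth_apply_same, qmap_eq, Fin.val_last,
      qprod_insert_gt (Fin.last k) 0 y (by rw [Fin.val_last]), h1]
    ring
  · rw [Fin.insertNth_apply_succAbove, qmap_eq, qmap_eq, Fin.succAbove_last, Fin.val_castSucc]
    have hj : j'.val ≤ k := by
      have := j'.isLt
      omega
    rw [qprod_insert_le (Fin.last k) 0 y (by rw [Fin.val_last]; exact hj)]
    rcases lt_or_eq_of_le hj with h | h
    · rw [qext_insert_lt (Fin.last k) 0 y (by rw [Fin.val_last]; exact h)]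
    · have h2 := qext_insert_same (Fin.last k) 0 y
      rw [Fin.val_last] at h2
      rw [h, h2, h1, qext_ge y le_rfl]

/-- the other faces `x_i = 0` go to faces of codimension two -/
theorem qmap_zero (k : ℕ) (i : Fin (k + 1)) (hi : i ≠ Fin.last k) (y : Fin k → ℝ) :
    qmap (k + 1) (Fin.insertNth i 0 y) (Fin.last (k + 1)) = 0 ∧
      qmap (k + 1) (Fin.insertNth i 0 y) (Fin.castSucc (Fin.last k)) = 0 := by
  have h1 : clamp 0 = 0 := clamp_of_nonpos le_rfl
  have hik : i.val < k := by
    rcases lt_or_eq_of_le (Nat.lt_succ_iff.1 i.isLt) with h | h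
    · exact h
    · exact absurd (Fin.ext (by rw [h, Fin.val_last])) hi
  constructor
  · rw [qmap_eq, Fin.val_last, Finset.prod_eq_zero (i := i.val), zero_mul]
    · rw [Finset.mem_range]
      exact i.isLt
    · rw [qext_insert_same, h1]
  · rw [qmap_eq, Fin.val_castSucc, Fin.val_last, Finset.prod_eq_zero (i := i.val), zero_mul]
    · rw [Finset.mem_range]
      exact hik
    · rw [qext_insert_same, h1]

end Vale.Agent.P093.T
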