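import Vale.Agent.P093.Hom.OrderDef
import Vale.Agent.P093.T.Collapse
import Vale.Agent.P093.T.Qmap

/-!
Maps of a disk (the simplex with `m + 3` vertices) to the `(m+2)`-skeleton of the simplex with
vertex set `W`, their classes in `π_{m+2}`, the filling criterion and the insertion of spheres.
-/

open Topology.Homotopy Set
open scoped unitInterval Topology

namespace Vale.Agent.P093.T

variable {W : Type*} [Fintype W] {m : ℕ}

/-- A continuous map from the simplex with `m + 3` vertices to the `(m+2)`-skeleton of the simplex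
on `W`, the boundary going to the `(m+1)`-skeleton. -/
structure DiskMap (m : ℕ) (W : Type*) [Fintype W] where
  /-- the map -/
  toFun : stdSimplex ℝ (Fin (m + 3)) → Sk W (m + 2)
  cont : Continuous toFun
  bdry : ∀ z : stdSimplex ℝ (Fin (m + 3)), (∃ i, z.1 i = 0) → (toFun z : W → ℝ) ∈ Sk W (m + 1)

/-- the base point -/
noncomputable def base (m : ℕ) (w₀ : W) : Sk W (m + 2) := ⟨vtx w₀, vtx_mem_Sk w₀ _⟩

/-- the loop of a disk map -/
noncomputable def DiskMap.loop (a : DiskMap m W) (w₀ : W) : ELoop (m + 2) (Sk W (m + 2)) (base m w₀)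
    where
  toFun := fun y => collapse (m + 1) w₀ 1 (a.toFun ⟨qmap (m + 2) y, qmap_mem _ y⟩)
  cont := by
    have h1 : Continuous (fun z : ℝ × Sk W (m + 1 + 1) => collapse (m + 1) w₀ z.1 z.2) :=
      (exists_collapse (m + 1) w₀).choose_spec.1
    have h2 : Continuous (fun y : Fin (m + 2) → ℝ =>
        (⟨qmap (m + 2) y, qmap_mem _ y⟩ : stdSimplex ℝ (Fin (m + 3)))) :=
      Continuous.subtype_mk (continuous_qmap (m + 2)) _
    have h3 : Continuous (fun y : Fin (m + 2) → ℝ =>
        (((1 : ℝ), a.toFun ⟨qmap (m + 2) y, qmap_mem _ y⟩) : ℝ × Sk W (m + 1 + 1))) :=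
      continuous_const.prodMk (a.cont.comp h2)
    exact h1.comp h3
  off := by
    intro y hy
    have h1 := (exists_collapse (m + 1) w₀).choose_spec.2.2
    obtain ⟨j, hj⟩ := qmap_bdry (m + 2) y hy (by omega)
    have h2 := a.bdry ⟨qmap (m + 2) y, qmap_mem _ y⟩ ⟨j, hj⟩
    exact Subtype.ext (h1 _ h2)

/-- the class of a disk map -/
noncomputable def DiskMap.cl (a : DiskMap m W) (w₀ : W) : PiGrp m (Sk W (m + 2)) (base m w₀) :=
  (a.loop w₀).cls

omit [Fintype W] in
private theorem vtx_apply_self (w : W) : vtx w w = 1 := by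
  classical
  unfold vtx
  simp

omit [Fintype W] in
private theorem vtx_apply_ne (w w' : W) (h : w' ≠ w) : vtx w w' = 0 := by
  classical
  unfold vtx
  simp [h]

omit [Fintype W] in
private theorem vtx_nonneg (w w' : W) : 0 ≤ vtx w w' := by
  classical
  by_cases h : w' = w
  · subst h
    rw [vtx_apply_self]
    exact zero_le_one
  · rw [vtx_apply_ne w w' h]

private theorem vtx_sum (w : W) : ∑ w', vtx w w' = 1 := by
  classical
  rw [Finset.sum_eq_single w]
  · exact vtx_apply_self w
  · intro b _ hb
    exact vtx_apply_ne w b hb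
  · intro h
    exact absurd (Finset.mem_univ w) h

/-- an affine combination of vertices lies in the simplex -/
private theorem aff_simplex {n : ℕ} (s : Fin n → W) (z : Fin n → ℝ)
    (hz : z ∈ stdSimplex ℝ (Fin n)) :
    (fun w => ∑ i, z i * vtx (s i) w) ∈ stdSimplex ℝ W := by
  refine ⟨fun w => Finset.sum_nonneg fun i _ => mul_nonneg (hz.1 i) (vtx_nonneg _ _), ?_⟩
  rw [Finset.sum_comm]
  rw [← hz.2]
  refine Finset.sum_congr rfl fun i _ => ?_
  rw [← Finset.mul_sum, vtx_sum, mul_one]

/-- the support of an affine combination of vertices -/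
private theorem aff_spt {n : ℕ} (s : Fin n → W) (z : Fin n → ℝ) (T : Finset (Fin n))
    (hT : ∀ i, i ∉ T → z i = 0) :
    (spt (fun w => ∑ i, z i * vtx (s i) w)).card ≤ T.card := by
  classical
  refine le_trans (Finset.card_le_card ?_) (Finset.card_image_le (s := T) (f := s))
  intro w hw
  unfold spt at hw
  rw [Finset.mem_filter] at hw
  by_contra hcon
  apply hw.2
  refine Finset.sum_eq_zero fun i _ => ?_
  by_cases hi : i ∈ T
  · have hne : w ≠ s i := by
      rintro rfl
      exact hcon (Finset.mem_image_of_mem s hi)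
    rw [vtx_apply_ne _ _ hne, mul_zero]
  · rw [hT i hi, zero_mul]

/-- the affine disk map given by vertices `s 0, …, s (m+2)` -/
noncomputable def aff (s : Fin (m + 3) → W) : DiskMap m W where
  toFun := fun z => ⟨fun w => ∑ i, z.1 i * vtx (s i) w, by
    refine ⟨aff_simplex s z.1 z.2, ?_⟩
    have h := aff_spt s z.1 Finset.univ (fun i hi => absurd (Finset.mem_univ i) hi)
    simpa using h⟩
  cont := by
    refine Continuous.subtype_mk ?_ _
    refine continuous_pi fun w => ?_
    refine continuous_finsetSum _ fun i _ => ?_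
    exact ((continuous_apply i).comp continuous_subtype_val).mul continuous_const
  bdry := by
    rintro z ⟨i, hi⟩
    refine ⟨aff_simplex s z.1 z.2, ?_⟩
    have h := aff_spt s z.1 (Finset.univ.erase i) (fun j hj => by
      rw [Finset.mem_erase] at hj
      have : j = i := by
        by_contra hne
        exact hj ⟨hne, Finset.mem_univ j⟩
      rw [this]
      exact hi)
    rw [Finset.card_erase_of_mem (Finset.mem_univ i), Finset.card_univ, Fintype.card_fin] at h
    exact h

/-- the class of an ordered simplex (a list of `m + 3` vertices) -/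
noncomputable def thetaList (w₀ : W) (s : List W) : PiGrp m (Sk W (m + 2)) (base m w₀) :=
  if h : s.length = m + 3 then (aff (fun i => s.get (i.cast h.symm))).cl w₀ else 0

/-- the class of an ordered chain -/
noncomputable def theta (w₀ : W) (c : OChain W) : PiGrp m (Sk W (m + 2)) (base m w₀) :=
  extend (thetaList w₀) c

theorem theta_add (w₀ : W) (c c' : OChain W) :
    (theta w₀ (c + c') : PiGrp m (Sk W (m + 2)) (base m w₀)) = theta w₀ c + theta w₀ c' := by
  classical
  unfold theta extend
  exact Finsupp.sum_add_index' (fun s => zero_smul ℤ _) (fun s a b => add_smul a b _)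

theorem theta_smul (w₀ : W) (k : ℤ) (c : OChain W) :
    (theta w₀ (k • c) : PiGrp m (Sk W (m + 2)) (base m w₀)) = k • theta w₀ c := by
  classical
  unfold theta extend
  have h : (k • c).sum (fun s n => n • (thetaList w₀ s : PiGrp m (Sk W (m + 2)) (base m w₀))) =
      c.sum (fun s n => (k * n) • (thetaList w₀ s : PiGrp m (Sk W (m + 2)) (base m w₀))) :=
    Finsupp.sum_smul_index (fun s => zero_smul ℤ _)
  rw [h, Finsupp.smul_sum]
  exact Finsupp.sum_congr fun s _ => mul_smul _ _ _

/-- the boundary of the simplex with `m + 4` vertices -/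
abbrev BdSimplex (m : ℕ) : Type := {z : Fin (m + 4) → ℝ // z ∈ stdSimplex ℝ (Fin (m + 4)) ∧ ∃ i, z i = 0}

/-- inclusion of the `j`-th face -/
noncomputable def faceIn (j : Fin (m + 4)) (z : stdSimplex ℝ (Fin (m + 3))) : BdSimplex m :=
  ⟨Fin.insertNth j 0 z.1, by
    refine ⟨⟨fun i => ?_, ?_⟩, ⟨j, by rw [Fin.insertNth_apply_same]⟩⟩
    · refine Fin.succAboveCases j ?_ (fun i => ?_) i
      · rw [Fin.insertNth_apply_same]
      · rw [Fin.insertNth_apply_succAbove]
        exact z.2.1 i
    · rw [Fin.sum_univ_succAbove _ j, Fin.insertNth_apply_same, zero_add, ← z.2.2]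
      refine Finset.sum_congr rfl fun i _ => ?_
      rw [Fin.insertNth_apply_succAbove]⟩

end Vale.Agent.P093.T
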