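import Vale.Agent.P093.T.HatDef

/-!
Gluing and reflecting cubes.
-/

open Topology.Homotopy
open scoped unitInterval Topology

namespace Vale.Agent.P093.T

variable {m : ℕ} {X : Type*} [TopologicalSpace X] {x₀ : X}

theorem hgl_update (i : Fin (m + 3)) (k' : Fin (m + 2)) (s t : ℝ) (y : Fin (m + 2) → ℝ) :
    Function.update (Fin.insertNth i s y : Fin (m + 3) → ℝ) (i.succAbove k') t =
      Fin.insertNth i s (Function.update y k' t) := by
  funext j
  refine Fin.succAboveCases i ?_ (fun j' => ?_) j
  · rw [Function.update_of_ne (Fin.succAbove_ne i k').symm]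
    simp
  · by_cases hj : j' = k'
    · subst hj
      simp
    · rw [Function.update_of_ne (fun e => hj (Fin.succAbove_right_injective e))]
      simp [hj]

theorem hgl_face (k : Fin (m + 3)) (s : ℝ) (x : Fin (m + 3) → ℝ) :
    Function.update x k s = Fin.insertNth k s (Fin.removeNth k x) := by
  rw [Fin.insertNth_removeNth]

/-- exact gluing -/
theorem hgl_exact (k : Fin (m + 3)) (g₁ g₂ : Fin (m + 3) → Bool → ELoop (m + 2) X x₀)
    (h₁ : Ext g₁) (h₂ : Ext g₂) (hk : ∀ y, g₁ k true y = g₂ k false y) :
    ∃ g₃ : Fin (m + 3) → Bool → ELoop (m + 2) X x₀, Ext g₃ ∧ g₃ k false = g₁ k false ∧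
      g₃ k true = g₂ k true ∧ ∀ i ε, i ≠ k → (g₃ i ε).cls = (g₁ i ε).cls + (g₂ i ε).cls := by
  classical
  obtain ⟨G₁, hG₁, hf₁⟩ := h₁
  obtain ⟨G₂, hG₂, hf₂⟩ := h₂
  have hex : ∀ i : Fin (m + 3), i ≠ k → ∃ k' : Fin (m + 2), i.succAbove k' = k := fun i hi =>
    Fin.exists_succAbove_eq (Ne.symm hi)
  refine ⟨fun i ε => if hi : i = k then (if ε then g₂ k true else g₁ k false)
    else ELoop.cat (hex i hi).choose (g₁ i ε) (g₂ i ε), ?_, by simp, by simp, ?_⟩
  · refine ⟨fun x => if x k ≤ 1 / 2 then G₁ (Function.update x k (2 * x k))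
      else G₂ (Function.update x k (2 * x k - 1)), ?_, ?_⟩
    · refine Continuous.if_le ?_ ?_ (continuous_apply k) continuous_const ?_
      · exact hG₁.comp (continuous_id.update k (continuous_const.mul (continuous_apply k)))
      · exact hG₂.comp (continuous_id.update k
          ((continuous_const.mul (continuous_apply k)).sub continuous_const))
      · intro x hx
        rw [hx]
        norm_num
        have e1 : G₁ (Function.update x k 1) = g₁ k true (Fin.removeNth k x) := by
          rw [hgl_face, ← hf₁ k true]
          simp [side]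
        have e2 : G₂ (Function.update x k 0) = g₂ k false (Fin.removeNth k x) := by
          rw [hgl_face, ← hf₂ k false]
          simp [side]
        rw [e1, e2, hk]
    · intro i ε y
      by_cases hi : i = k
      · subst hi
        cases ε
        · have e := hf₁ i false y
          simp only [side] at e ⊢
          simp only [Bool.false_eq_true, if_false, Fin.insertNth_apply_same, dite_true] at e ⊢
          rw [if_pos (by norm_num)]
          rw [hgl_face, Fin.removeNth_insertNth, mul_zero]
          exact e
        · have e := hf₂ i true y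
          simp only [side] at e ⊢
          simp only [if_true, Fin.insertNth_apply_same, dite_true] at e ⊢
          rw [if_neg (by norm_num)]
          rw [hgl_face, Fin.removeNth_insertNth]
          norm_num
          exact e
      · have hc := (hex i hi).choose_spec
        simp only [dif_neg hi]
        generalize (hex i hi).choose = k' at hc
        subst hc
        simp only [hgl_update, Fin.insertNth_apply_succAbove, hf₁, hf₂]
        rfl
  · intro i ε hi
    simp only [dif_neg hi]
    exact cls_cat _ _ _

/-- the cube of a homotopy -/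
theorem hgl_homotopy (k : Fin (m + 3)) (p q : ELoop (m + 2) X x₀) (h : p.Homotopic q) :
    ∃ g : Fin (m + 3) → Bool → ELoop (m + 2) X x₀, Ext g ∧ g k false = p ∧ g k true = q ∧
      ∀ i ε, i ≠ k → (g i ε).cls = 0 := by
  classical
  obtain ⟨H, hH, h0, h1, hoff⟩ := h
  refine ⟨fun i ε => if i = k then (if ε then q else p) else ELoop.const (m + 2) x₀, ?_, by simp,
    by simp, ?_⟩
  · refine ⟨fun x => H (x k) (Fin.removeNth k x), ?_, ?_⟩
    · have hc : Continuous (fun x : Fin (m + 3) → ℝ =>
          ((x k, Fin.removeNth k x) : ℝ × (Fin (m + 2) → ℝ))) :=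
        (continuous_apply k).prodMk (continuous_pi fun j => continuous_apply (k.succAbove j))
      exact hH.comp hc
    · intro i ε y
      by_cases hi : i = k
      · subst hi
        cases ε
        · simp [side, h0]
        · simp [side, h1]
      · obtain ⟨i', hi'⟩ := Fin.exists_succAbove_eq hi
        have hn : Fin.removeNth k (Fin.insertNth i (side ε) y : Fin (m + 3) → ℝ) ∉
            openCube (m + 2) := by
          intro hc
          have := hc i'
          simp only [Fin.removeNth, hi', Fin.insertNth_apply_same] at this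
          cases ε <;> simp [side] at this
        simp only [if_neg hi]
        rw [hoff _ _ hn]
        rfl
  · intro i ε hi
    simp only [if_neg hi]
    exact cls_const

/-- (E2) gluing along the axis `k` -/
theorem extH_glue (k : Fin (m + 3)) (g g' g'' : Fin (m + 3) → Bool → ELoop (m + 2) X x₀)
    (h : ExtH g) (h' : ExtH g') (hk : (g k true).cls = (g' k false).cls)
    (h0 : (g'' k false).cls = (g k false).cls) (h1 : (g'' k true).cls = (g' k true).cls)
    (hs : ∀ i ε, i ≠ k → (g'' i ε).cls = (g i ε).cls + (g' i ε).cls) : ExtH g'' := by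
  obtain ⟨g₁, hc₁, he₁⟩ := h
  obtain ⟨g₂, hc₂, he₂⟩ := h'
  have hhom : (g₁ k true).Homotopic (g₂ k false) := by
    rw [← cls_eq_iff, hc₁, hc₂, hk]
  obtain ⟨g₃, he₃, h3f, h3t, h3s⟩ := hgl_homotopy k _ _ hhom
  obtain ⟨g₄, he₄, h4f, h4t, h4s⟩ := hgl_exact k g₁ g₃ he₁ he₃ (fun y => by rw [h3f])
  obtain ⟨g₅, he₅, h5f, h5t, h5s⟩ := hgl_exact k g₄ g₂ he₄ he₂ (fun y => by rw [h4t, h3t])
  refine ⟨g₅, fun i ε => ?_, he₅⟩
  by_cases hi : i = k
  · subst hi
    cases ε
    · rw [h5f, h4f, h0, hc₁]
    · rw [h5t, h1, hc₂]
  · rw [h5s i ε hi, h4s i ε hi, h3s i ε hi, add_zero, hs i ε hi, hc₁, hc₂]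

/-- (E5) reflection in the axis `k` -/
theorem extH_reflect (k : Fin (m + 3)) (g g' : Fin (m + 3) → Bool → ELoop (m + 2) X x₀)
    (h : ExtH g) (h0 : (g' k false).cls = (g k true).cls) (h1 : (g' k true).cls = (g k false).cls)
    (hs : ∀ i ε, i ≠ k → (g' i ε).cls = - (g i ε).cls) : ExtH g' := by
  classical
  obtain ⟨g₁, hc₁, G, hG, hf⟩ := h
  have hex : ∀ i : Fin (m + 3), i ≠ k → ∃ k' : Fin (m + 2), i.succAbove k' = k := fun i hi =>
    Fin.exists_succAbove_eq (Ne.symm hi)
  have hoff : ∀ (k' : Fin (m + 2)) (y : Fin (m + 2) → ℝ), y ∉ openCube (m + 2) →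
      Function.update y k' (1 - y k') ∉ openCube (m + 2) := by
    intro k' y hy hc
    apply hy
    intro j
    have hj := hc j
    by_cases e : j = k'
    · subst e
      simp only [Function.update_self] at hj
      constructor <;> linarith [hj.1, hj.2]
    · rw [Function.update_of_ne e] at hj
      exact hj
  have hcont : ∀ k' : Fin (m + 2), Continuous fun y : Fin (m + 2) → ℝ =>
      Function.update y k' (1 - y k') := fun k' =>
    continuous_id.update k' (continuous_const.sub (continuous_apply k'))
  refine ⟨fun i ε => if hi : i = k then g₁ k (!ε)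
    else (g₁ i ε).pre (fun y => Function.update y (hex i hi).choose (1 - y (hex i hi).choose))
      (hcont _) (hoff _), ?_, ?_⟩
  · intro i ε
    by_cases hi : i = k
    · subst hi
      cases ε
      · simp [h0, hc₁]
      · simp [h1, hc₁]
    · simp only [dif_neg hi]
      rw [hs i ε hi, ← hc₁]
      exact cls_refl _ _ _ fun y => rfl
  · refine ⟨fun x => G (Function.update x k (1 - x k)), ?_, ?_⟩
    · exact hG.comp (continuous_id.update k (continuous_const.sub (continuous_apply k)))
    · intro i ε y
      by_cases hi : i = k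
      · subst hi
        have e := hf i (!ε) y
        simp only [dif_pos]
        rw [← e, hgl_face, Fin.removeNth_insertNth, Fin.insertNth_apply_same]
        cases ε <;> simp [side]
      · have hc := (hex i hi).choose_spec
        simp only [dif_neg hi]
        generalize (hex i hi).choose = k' at hc
        subst hc
        simp only [hgl_update, Fin.insertNth_apply_succAbove, hf]
        rfl

end Vale.Agent.P093.T
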