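import Vale.Agent.P093.T.HatDef

/-!
The straight cube and the turn cube.
-/

open Topology.Homotopy
open scoped unitInterval Topology

namespace Vale.Agent.P093.T

variable {m : ℕ} {X : Type*} [TopologicalSpace X] {x₀ : X}

theorem htu_off {n : ℕ} (p : ELoop n X x₀) (y : Fin n → ℝ) (j : Fin n) (h : y j ≤ 0 ∨ 1 ≤ y j) :
    p y = x₀ := by
  apply p.off
  intro hc
  have := hc j
  rcases h with h | h
  · exact absurd this.1 (not_lt.2 h)
  · exact absurd this.2 (not_lt.2 h)

theorem htu_side (ε : Bool) : side ε ≤ 0 ∨ 1 ≤ side ε := by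
  cases ε
  · left; simp [side]
  · right; simp [side]

/-- (E4) the straight cube `G x = p (x₀,…,x_{m+1})` -/
theorem extH_straight (p : ELoop (m + 2) X x₀) (g : Fin (m + 3) → Bool → ELoop (m + 2) X x₀)
    (h0 : (g (Fin.last _) false).cls = p.cls) (h1 : (g (Fin.last _) true).cls = p.cls)
    (hs : ∀ i ε, i ≠ Fin.last _ → (g i ε).cls = 0) : ExtH g := by
  classical
  refine ⟨fun i _ => if i = Fin.last _ then p else ELoop.const (m + 2) x₀, ?_, ?_⟩
  · intro i ε
    by_cases hi : i = Fin.last _
    · subst hi
      simp only [if_true]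
      cases ε
      · exact h0.symm
      · exact h1.symm
    · simp only [if_neg hi]
      rw [cls_const, hs i ε hi]
  · refine ⟨fun x => p (Fin.removeNth (Fin.last _) x), ?_, ?_⟩
    · exact p.cont.comp (continuous_pi fun j => continuous_apply ((Fin.last _).succAbove j))
    · intro i ε y
      by_cases hi : i = Fin.last _
      · subst hi
        simp only [if_true, Fin.removeNth_insertNth]
      · simp only [if_neg hi]
        obtain ⟨i', hi'⟩ := Fin.exists_succAbove_eq hi
        refine htu_off p _ i' ?_
        simp only [Fin.removeNth, hi', Fin.insertNth_apply_same]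
        exact htu_side ε

/-- the last coordinate of the turn cube -/
noncomputable def htuU (s t : ℝ) : ℝ := max 0 (min t 1 - max s 0)

/-- the turn cube -/
noncomputable def htuG (i : Fin (m + 2)) (p : ELoop (m + 2) X x₀) (x : Fin (m + 3) → ℝ) : X :=
  p (Function.update (Fin.removeNth i.castSucc x) (Fin.last (m + 1))
    (htuU (x i.castSucc) (x (Fin.last _))))

theorem htuG_cont (i : Fin (m + 2)) (p : ELoop (m + 2) X x₀) : Continuous (htuG i p) := by
  refine p.cont.comp (Continuous.update ?_ _ ?_)
  · exact continuous_pi fun j => continuous_apply (i.castSucc.succAbove j)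
  · unfold htuU
    exact continuous_const.max (((continuous_apply _).min continuous_const).sub
      ((continuous_apply _).max continuous_const))

/-- the reflected loop -/
noncomputable def htuQ (p : ELoop (m + 2) X x₀) : ELoop (m + 2) X x₀ :=
  p.pre (fun y => Function.update y (Fin.last _) (1 - y (Fin.last _)))
    (continuous_id.update _ (continuous_const.sub (continuous_apply _))) (by
      intro y hy hc
      apply hy
      intro j
      have hj := hc j
      by_cases e : j = Fin.last _
      · subst e
        simp only [Function.update_self] at hj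
        constructor <;> linarith [hj.1, hj.2]
      · rw [Function.update_of_ne e] at hj
        exact hj)

/-- the top face of the turn cube -/
noncomputable def htuR (i : Fin (m + 2)) (p : ELoop (m + 2) X x₀) : ELoop (m + 2) X x₀ :=
  (htuQ p).pre (fun y => y ∘ Fin.cycleIcc i (Fin.last _))
    (continuous_pi fun j => continuous_apply _) (by
      intro y hy hc
      apply hy
      intro j
      have hj := hc ((Fin.cycleIcc i (Fin.last _)).symm j)
      simpa using hj)

theorem htuR_cls (i : Fin (m + 2)) (p : ELoop (m + 2) X x₀) :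
    (htuR i p).cls = ((-1 : ℤ) ^ (m + 2 - (i : ℕ))) • p.cls := by
  rw [cls_perm (Fin.cycleIcc i (Fin.last _)) (htuQ p) (htuR i p) (fun y => rfl),
    cls_refl (Fin.last _) p (htuQ p) (fun y => rfl), Fin.sign_cycleIcc_of_le (Fin.le_last _)]
  have h1 : m + 2 - (i : ℕ) = (m + 1 - (i : ℕ)) + 1 := by
    have := i.2
    omega
  rw [h1, pow_succ, mul_neg_one, neg_smul, smul_neg]
  congr 1

theorem htuG_face_false (i : Fin (m + 2)) (p : ELoop (m + 2) X x₀) (y : Fin (m + 2) → ℝ) :
    htuG i p (Fin.insertNth i.castSucc 0 y) = p y := by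
  have hl : (Fin.insertNth i.castSucc 0 y : Fin (m + 3) → ℝ) (Fin.last _) = y (Fin.last _) := by
    rw [← Fin.succAbove_ne_last_last (Fin.castSucc_lt_last i).ne, Fin.insertNth_apply_succAbove]
  unfold htuG
  rw [Fin.removeNth_insertNth, Fin.insertNth_apply_same, hl]
  by_cases h : 0 ≤ y (Fin.last _) ∧ y (Fin.last _) ≤ 1
  · have hu : htuU 0 (y (Fin.last _)) = y (Fin.last _) := by
      unfold htuU
      rw [min_eq_left h.2, max_self, sub_zero, max_eq_right h.1]
    rw [hu, Function.update_eq_self]
  · have h' : y (Fin.last _) ≤ 0 ∨ 1 ≤ y (Fin.last _) := by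
      by_contra hc
      push Not at hc
      exact h ⟨hc.1.le, hc.2.le⟩
    rw [htu_off p y (Fin.last _) h']
    refine htu_off p _ (Fin.last _) ?_
    rw [Function.update_self]
    unfold htuU
    rcases h' with h' | h'
    · left
      rw [max_self, sub_zero, min_eq_left (h'.trans zero_le_one), max_eq_left h']
    · right
      rw [max_self, sub_zero, min_eq_right h']
      exact le_max_right _ _

theorem htuG_face_true (i : Fin (m + 2)) (p : ELoop (m + 2) X x₀) (y : Fin (m + 2) → ℝ) :
    htuG i p (Fin.insertNth i.castSucc 1 y) = x₀ := by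
  unfold htuG
  refine htu_off p _ (Fin.last _) (Or.inl ?_)
  rw [Function.update_self, Fin.insertNth_apply_same]
  unfold htuU
  refine max_le le_rfl ?_
  have h1 : min ((Fin.insertNth i.castSucc 1 y : Fin (m + 3) → ℝ) (Fin.last _)) 1 ≤ 1 :=
    min_le_right _ _
  have h2 : (1 : ℝ) ≤ max 1 0 := le_max_left _ _
  linarith

theorem htuG_last_false (i : Fin (m + 2)) (p : ELoop (m + 2) X x₀) (y : Fin (m + 2) → ℝ) :
    htuG i p (Fin.insertNth (Fin.last _) 0 y) = x₀ := by
  unfold htuG
  refine htu_off p _ (Fin.last _) (Or.inl ?_)
  rw [Function.update_self, Fin.insertNth_apply_same]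
  unfold htuU
  refine max_le le_rfl ?_
  have h1 : min (0 : ℝ) 1 ≤ 0 := min_le_left _ _
  have h2 := le_max_right ((Fin.insertNth (Fin.last _) 0 y : Fin (m + 3) → ℝ) i.castSucc) 0
  linarith

theorem htuG_last_true (i : Fin (m + 2)) (p : ELoop (m + 2) X x₀) (y : Fin (m + 2) → ℝ) :
    htuG i p (Fin.insertNth (Fin.last _) 1 y) = htuR i p y := by
  have hr : htuR i p y = p (Function.update (y ∘ Fin.cycleIcc i (Fin.last _)) (Fin.last _)
      (1 - (y ∘ Fin.cycleIcc i (Fin.last _)) (Fin.last _))) := rfl
  have he : (y ∘ Fin.cycleIcc i (Fin.last (m + 1))) (Fin.last _) = y i := by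
    rw [Function.comp_apply, Fin.cycleIcc_of_last (Fin.le_last _)]
  have hi : (Fin.insertNth (Fin.last _) 1 y : Fin (m + 3) → ℝ) i.castSucc = y i := by
    rw [← Fin.succAbove_last_apply, Fin.insertNth_apply_succAbove]
  rw [hr, he]
  unfold htuG
  rw [hi, Fin.insertNth_apply_same]
  by_cases h : 0 ≤ y i ∧ y i ≤ 1
  · have hu : htuU (y i) 1 = 1 - y i := by
      unfold htuU
      rw [min_self, max_eq_left h.1, max_eq_right (by linarith [h.2])]
    rw [hu]
    congr 1
    funext k
    by_cases hk : k = Fin.last _
    · subst hk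
      rw [Function.update_self, Function.update_self]
    · rw [Function.update_of_ne hk, Function.update_of_ne hk]
      obtain ⟨k', rfl⟩ := Fin.exists_castSucc_eq.2 hk
      have h1 : Fin.cycleIcc i (Fin.last (m + 1)) k'.castSucc = i.succAbove k' := by
        have := congrFun (Fin.cycleIcc_comp_succAbove i (Fin.last (m + 1)) (Fin.le_last _)) k'
        rwa [Function.comp_apply, Fin.succAbove_last_apply] at this
      rw [Function.comp_apply, h1, Fin.removeNth_apply, Fin.castSucc_succAbove_castSucc,
        ← Fin.succAbove_last_apply, Fin.insertNth_apply_succAbove]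
  · have h' : y i ≤ 0 ∨ 1 ≤ y i := by
      by_contra hc
      push Not at hc
      exact h ⟨hc.1.le, hc.2.le⟩
    rw [htu_off p _ (Fin.last _), htu_off p _ (Fin.last _)]
    · rw [Function.update_self]
      rcases h' with h' | h'
      · right; linarith
      · left; linarith
    · rw [Function.update_self]
      unfold htuU
      rcases h' with h' | h'
      · right
        rw [min_self, max_eq_right h', sub_zero]
        exact le_max_right _ _
      · left
        rw [min_self]
        refine max_le le_rfl ?_
        have := le_max_left (y i) 0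
        linarith

theorem htuG_other (i : Fin (m + 2)) (p : ELoop (m + 2) X x₀) (j : Fin (m + 3))
    (hj : j ≠ i.castSucc) (hl : j ≠ Fin.last _) (ε : Bool) (y : Fin (m + 2) → ℝ) :
    htuG i p (Fin.insertNth j (side ε) y) = x₀ := by
  obtain ⟨j', rfl⟩ := Fin.exists_succAbove_eq hj
  have hj' : j' ≠ Fin.last _ := by
    rintro rfl
    exact hl (Fin.succAbove_ne_last_last (Fin.castSucc_lt_last i).ne)
  unfold htuG
  refine htu_off p _ j' ?_
  rw [Function.update_of_ne hj', Fin.removeNth_apply, Fin.insertNth_apply_same]
  exact htu_side ε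

/-- (E3) the turn cube: `G x = p (x_j (j ≠ i, last), u)`, `u = max (0, x_last - x_i)` in the last
coordinate of `p`. Its face `x_i = 0` is `p`, its face `x_last = 1` is `p` after the cyclic
permutation of the coordinates and one reflection, of class `(-1)^(m+2-i) [p]`; all other faces are
constant. Use `cls_perm` and `cls_refl`. -/
theorem extH_turn (i : Fin (m + 3)) (hi : i ≠ Fin.last _) (p : ELoop (m + 2) X x₀)
    (g : Fin (m + 3) → Bool → ELoop (m + 2) X x₀)
    (h0 : (g i false).cls = p.cls)
    (h1 : (g (Fin.last _) true).cls = ((-1 : ℤ) ^ (m + 2 - (i : ℕ))) • p.cls)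
    (hs : ∀ j ε, (j, ε) ≠ (i, false) → (j, ε) ≠ (Fin.last _, true) → (g j ε).cls = 0) :
    ExtH g := by
  classical
  obtain ⟨i, rfl⟩ := Fin.exists_castSucc_eq.2 hi
  refine ⟨fun j ε => if (j, ε) = (i.castSucc, false) then p
    else if (j, ε) = (Fin.last _, true) then htuR i p else ELoop.const (m + 2) x₀, ?_,
    htuG i p, htuG_cont i p, ?_⟩
  · intro j ε
    by_cases e1 : (j, ε) = (i.castSucc, false)
    · simp only [if_pos e1]
      obtain ⟨rfl, rfl⟩ := Prod.mk.injEq .. ▸ e1
      exact h0.symm
    · by_cases e2 : (j, ε) = (Fin.last _, true)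
      · simp only [if_neg e1, if_pos e2]
        obtain ⟨rfl, rfl⟩ := Prod.mk.injEq .. ▸ e2
        rw [h1, htuR_cls, Fin.val_castSucc]
      · simp only [if_neg e1, if_neg e2]
        rw [cls_const, hs j ε e1 e2]
  · intro j ε y
    by_cases e1 : (j, ε) = (i.castSucc, false)
    · simp only [if_pos e1]
      obtain ⟨rfl, rfl⟩ := Prod.mk.injEq .. ▸ e1
      have := htuG_face_false i p y
      simpa [side] using this
    · by_cases e2 : (j, ε) = (Fin.last _, true)
      · simp only [if_neg e1, if_pos e2]
        obtain ⟨rfl, rfl⟩ := Prod.mk.injEq .. ▸ e2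
        have := htuG_last_true i p y
        simpa [side] using this
      · simp only [if_neg e1, if_neg e2]
        show _ = x₀
        by_cases hj : j = i.castSucc
        · subst hj
          cases ε
          · exact absurd rfl e1
          · have := htuG_face_true i p y
            simpa [side] using this
        · by_cases hl : j = Fin.last _
          · subst hl
            cases ε
            · have := htuG_last_false i p y
              simpa [side] using this
            · exact absurd rfl e2
          · exact htuG_other i p j hj hl ε y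

end Vale.Agent.P093.T
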