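import Vale.Agent.P093.T.HatCollar
import Vale.Agent.P093.T.HatGlue
import Vale.Agent.P093.T.HatTurn

/-!
The homotopy addition theorem (see the plan in `HatDef`).
-/

open Topology.Homotopy
open scoped unitInterval Topology

namespace Vale.Agent.P093.T

variable {m : ℕ} {X : Type*} [TopologicalSpace X] {x₀ : X}

/-- some family with the given classes extends -/
def hatEC (c : Fin (m + 3) → Bool → PiGrp m X x₀) : Prop :=
  ∃ g : Fin (m + 3) → Bool → ELoop (m + 2) X x₀, (∀ i ε, (g i ε).cls = c i ε) ∧ Ext g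

/-- the signed sum of a family of classes -/
noncomputable def hatSum (c : Fin (m + 3) → Bool → PiGrp m X x₀) : PiGrp m X x₀ :=
  ∑ i : Fin (m + 3), ((-1 : ℤ) ^ (i : ℕ)) • (c i true - c i false)

theorem hatEC_of (c : Fin (m + 3) → Bool → PiGrp m X x₀)
    (h : ∀ g : Fin (m + 3) → Bool → ELoop (m + 2) X x₀, (∀ i ε, (g i ε).cls = c i ε) → ExtH g) :
    hatEC c := by
  choose p hp using fun x : Fin (m + 3) × Bool => cls_surj (x₀ := x₀) (c x.1 x.2)
  obtain ⟨g', h1, h2⟩ := h (fun i ε => p (i, ε)) (fun i ε => hp (i, ε))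
  exact ⟨g', fun i ε => (h1 i ε).trans (hp (i, ε)), h2⟩

theorem hatEC_glue (k : Fin (m + 3)) (c c' c'' : Fin (m + 3) → Bool → PiGrp m X x₀)
    (h : hatEC c) (h' : hatEC c') (hk : c k true = c' k false)
    (h0 : c'' k false = c k false) (h1 : c'' k true = c' k true)
    (hs : ∀ i ε, i ≠ k → c'' i ε = c i ε + c' i ε) : hatEC c'' := by
  obtain ⟨g, hg, he⟩ := h
  obtain ⟨g', hg', he'⟩ := h'
  refine hatEC_of _ fun g'' hg'' => ?_
  exact extH_glue k g g' g'' ⟨g, fun _ _ => rfl, he⟩ ⟨g', fun _ _ => rfl, he'⟩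
    (by rw [hg, hg', hk]) (by rw [hg'', h0, hg]) (by rw [hg'', h1, hg'])
    (fun i ε hi => by rw [hg'', hs i ε hi, hg, hg'])

theorem hatEC_reflect (k : Fin (m + 3)) (c c' : Fin (m + 3) → Bool → PiGrp m X x₀)
    (h : hatEC c) (h0 : c' k false = c k true) (h1 : c' k true = c k false)
    (hs : ∀ i ε, i ≠ k → c' i ε = - c i ε) : hatEC c' := by
  obtain ⟨g, hg, he⟩ := h
  refine hatEC_of _ fun g' hg' => ?_
  exact extH_reflect k g g' ⟨g, fun _ _ => rfl, he⟩ (by rw [hg', h0, hg]) (by rw [hg', h1, hg])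
    (fun i ε hi => by rw [hg', hs i ε hi, hg])

/-- the classes of the turn cube -/
noncomputable def hatTurn (i : Fin (m + 3)) (a b : PiGrp m X x₀) (j : Fin (m + 3)) (ε : Bool) : PiGrp m X x₀ :=
  if (j, ε) = (i, false) then a else if (j, ε) = (Fin.last _, true) then b else 0

theorem hatEC_turn (i : Fin (m + 3)) (hi : i ≠ Fin.last _) (a : PiGrp m X x₀) :
    hatEC (hatTurn i a (((-1 : ℤ) ^ (m + 2 - (i : ℕ))) • a)) := by
  refine hatEC_of _ fun g hg => ?_
  obtain ⟨p, hp⟩ := cls_surj (x₀ := x₀) a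
  refine extH_turn i hi p g ?_ ?_ ?_
  · rw [hg, hp]
    simp [hatTurn]
  · rw [hg, hp]
    have : (Fin.last (m + 2), true) ≠ (i, false) := by simp
    simp [hatTurn]
  · intro j ε h1 h2
    rw [hg]
    unfold hatTurn
    rw [if_neg h1, if_neg h2]

/-- adding the two faces of an axis -/
theorem hatEC_add (i : Fin (m + 3)) (hi : i ≠ Fin.last _)
    (c c' : Fin (m + 3) → Bool → PiGrp m X x₀)
    (h : hatEC c) (hc : ∀ ε, c i ε = 0)
    (htop : c' (Fin.last _) true = c (Fin.last _) true +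
      (((-1 : ℤ) ^ (m + 2 - (i : ℕ))) • (c' i false) -
        ((-1 : ℤ) ^ (m + 2 - (i : ℕ))) • (c' i true)))
    (hs : ∀ j ε, j ≠ i → (j, ε) ≠ (Fin.last _, true) → c' j ε = c j ε) : hatEC c' := by
  classical
  have hil : Fin.last (m + 2) ≠ i := fun e => hi e.symm
  -- first face
  obtain ⟨c1, hc1⟩ : ∃ c1 : Fin (m + 3) → Bool → PiGrp m X x₀, ∀ j ε, c1 j ε =
      hatTurn i (c' i false) (((-1 : ℤ) ^ (m + 2 - (i : ℕ))) • (c' i false)) j ε + c j ε :=
    ⟨_, fun _ _ => rfl⟩
  have h1 : hatEC c1 := by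
    refine hatEC_glue i _ c c1 (hatEC_turn i hi (c' i false)) h ?_ ?_ ?_ fun j ε _ => hc1 j ε
    · rw [hc]
      simp [hatTurn, hi]
    · rw [hc1, hc, add_zero]
    · rw [hc1]
      simp [hatTurn, hi]
  -- second face
  obtain ⟨d, hd⟩ : ∃ d : Fin (m + 3) → Bool → PiGrp m X x₀, ∀ j ε, d j ε =
      if j = i then (if ε = true then c' i true else 0) else
        - hatTurn i (c' i true) (((-1 : ℤ) ^ (m + 2 - (i : ℕ))) • (c' i true)) j ε :=
    ⟨_, fun _ _ => rfl⟩
  have h2 : hatEC d := by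
    refine hatEC_reflect i _ d (hatEC_turn i hi (c' i true)) ?_ ?_ fun j ε hj => ?_
    · rw [hd]
      simp [hatTurn, hi]
    · rw [hd]
      simp [hatTurn]
    · rw [hd, if_neg hj]
  refine hatEC_glue i c1 d c' h1 h2 ?_ ?_ ?_ ?_
  · rw [hc1, hd, hc]
    simp [hatTurn, hi]
  · rw [hc1, hc]
    simp [hatTurn]
  · rw [hd]
    simp
  · intro j ε hj
    rw [hc1, hd, if_neg hj]
    by_cases hje : (j, ε) = (Fin.last _, true)
    · obtain ⟨e1, e2⟩ := Prod.mk.injEq _ _ _ _ ▸ hje
      subst e1 e2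
      rw [htop]
      simp only [hatTurn, Prod.mk.injEq, Bool.true_eq_false, and_false, if_false, if_true]
      abel
    · rw [hs j ε hj hje]
      have h3 : (j, ε) ≠ (i, false) := fun e => hj (Prod.mk.inj e).1
      simp [hatTurn, h3, hje]

theorem hatSum_last (c : Fin (m + 3) → Bool → PiGrp m X x₀)
    (hc : ∀ i ε, i ≠ Fin.last _ → c i ε = 0) (h : hatSum c = 0) :
    c (Fin.last _) false = c (Fin.last _) true := by
  unfold hatSum at h
  rw [Finset.sum_eq_single (Fin.last (m + 2))] at h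
  · rcases neg_one_pow_eq_or ℤ ((Fin.last (m + 2) : Fin (m + 3)) : ℕ) with e | e
    · rw [e, one_smul, sub_eq_zero] at h
      exact h.symm
    · rw [e, neg_smul, one_smul, neg_eq_zero, sub_eq_zero] at h
      exact h.symm
  · intro j _ hj
    rw [hc j true hj, hc j false hj, sub_zero, smul_zero]
  · intro hh
    exact absurd (Finset.mem_univ _) hh

theorem hatEC_box (s : Finset (Fin (m + 3))) (hl : Fin.last _ ∉ s) :
    ∀ c : Fin (m + 3) → Bool → PiGrp m X x₀,
      (∀ i ε, i ≠ Fin.last _ → i ∉ s → c i ε = 0) → hatSum c = 0 → hatEC c := by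
  classical
  induction s using Finset.induction_on with
  | empty =>
    intro c hc hsum
    have hc' : ∀ i ε, i ≠ Fin.last _ → c i ε = 0 := fun i ε hi => hc i ε hi (by simp)
    have he := hatSum_last c hc' hsum
    refine hatEC_of _ fun g hg => ?_
    obtain ⟨p, hp⟩ := cls_surj (x₀ := x₀) (c (Fin.last _) false)
    refine extH_straight p g (by rw [hg, hp]) (by rw [hg, hp, he]) fun i ε hi => ?_
    rw [hg, hc' i ε hi]
  | insert i s hi ih =>
    intro c hc hsum
    have hil : i ≠ Fin.last _ := by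
      rintro rfl
      exact hl (Finset.mem_insert_self _ _)
    have hl' : Fin.last _ ∉ s := fun h => hl (Finset.mem_insert_of_mem h)
    obtain ⟨e, he⟩ : ∃ e : PiGrp m X x₀, e = ((-1 : ℤ) ^ (m + 2 - (i : ℕ))) • (c i false) -
        ((-1 : ℤ) ^ (m + 2 - (i : ℕ))) • (c i true) := ⟨_, rfl⟩
    obtain ⟨c1, hc1⟩ : ∃ c1 : Fin (m + 3) → Bool → PiGrp m X x₀, ∀ j ε, c1 j ε =
        c j ε - ((if j = i then c i ε else 0) +
          (if j = Fin.last _ then (if ε = true then e else 0) else 0)) := ⟨_, fun _ _ => rfl⟩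
    have hli : Fin.last (m + 2) ≠ i := fun e => hil e.symm
    refine hatEC_add i hil c1 c (ih hl' c1 ?_ ?_) ?_ ?_ ?_
    · intro j ε hj hjs
      rw [hc1]
      by_cases hji : j = i
      · subst hji
        simp [hj]
      · rw [hc j ε hj (by simp [hji, hjs])]
        simp [hji, hj]
    · have h1 : hatSum c1 = hatSum c - ∑ j : Fin (m + 3), ((-1 : ℤ) ^ (j : ℕ)) •
          ((if j = i then c i true - c i false else 0) + (if j = Fin.last _ then e else 0)) := by
        unfold hatSum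
        rw [← Finset.sum_sub_distrib]
        refine Finset.sum_congr rfl fun j _ => ?_
        rw [← smul_sub]
        congr 1
        rw [hc1, hc1]
        split_ifs <;> simp_all
        all_goals abel
      rw [h1, hsum]
      have h2 : ∑ j : Fin (m + 3), ((-1 : ℤ) ^ (j : ℕ)) •
          ((if j = i then c i true - c i false else 0) + (if j = Fin.last _ then e else 0)) =
          ((-1 : ℤ) ^ (i : ℕ)) • (c i true - c i false) + ((-1 : ℤ) ^ (m + 2)) • e := by
        simp only [smul_add, Finset.sum_add_distrib, smul_ite, smul_zero,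
          Finset.sum_ite_eq', Finset.mem_univ, if_true, Fin.val_last]
      rw [h2, he]
      have h3 : (i : ℕ) ≤ m + 2 := by omega
      have h4 : ((-1 : ℤ) ^ (m + 2)) * (-1) ^ (m + 2 - (i : ℕ)) = (-1) ^ (i : ℕ) := by
        rw [← pow_add]
        have : m + 2 + (m + 2 - (i : ℕ)) = (i : ℕ) + 2 * (m + 2 - (i : ℕ)) := by omega
        rw [this, pow_add, pow_mul]
        simp
      rw [smul_sub, smul_sub, smul_smul, smul_smul, h4]
      abel
    · intro ε
      rw [hc1]
      simp [hil]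
    · rw [hc1]
      simp [hli, he]
    · intro j ε hj hje
      rw [hc1]
      by_cases hjl : j = Fin.last _
      · subst hjl
        have : ε ≠ true := fun h => hje (by rw [h])
        simp [hj, this]
      · simp [hj, hjl]

/-- (BOX) -/
theorem extH_box (g : Fin (m + 3) → Bool → ELoop (m + 2) X x₀) (hg : faceSum g = 0) : ExtH g := by
  classical
  refine hatEC_box (Finset.univ.erase (Fin.last _)) (by simp) (fun i ε => (g i ε).cls) ?_ hg
  intro i ε h1 h2
  simp [h1] at h2

/-- clamp to the closed cube -/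
def hatClamp (t : ℝ) : ℝ := max 0 (min 1 t)

theorem hatClamp_cont : Continuous hatClamp := by
  unfold hatClamp
  fun_prop

theorem hatClamp_of_le {t : ℝ} (h : t ≤ 0) : hatClamp t = 0 := by
  unfold hatClamp
  rw [min_eq_right (by linarith), max_eq_left h]

theorem hatClamp_of_ge {t : ℝ} (h : 1 ≤ t) : hatClamp t = 1 := by
  unfold hatClamp
  rw [min_eq_left h, max_eq_right (by norm_num)]

theorem hatClamp_of_mem {t : ℝ} (h0 : 0 ≤ t) (h1 : t ≤ 1) : hatClamp t = t := by
  unfold hatClamp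
  rw [min_eq_right h1, max_eq_right h0]

theorem hatClamp_off (y : Fin (m + 2) → ℝ) (hy : y ∉ openCube (m + 2)) :
    ∃ (i : Fin (m + 2)) (ε : Bool), hatClamp (y i) = side ε := by
  unfold openCube at hy
  rw [Set.mem_ofPred_eq, not_forall] at hy
  obtain ⟨i, hi⟩ := hy
  rcases le_or_gt (y i) 0 with h | h
  · exact ⟨i, false, by rw [hatClamp_of_le h]; simp [side]⟩
  · have h2 : 1 ≤ y i := by
      by_contra hc
      exact hi ⟨h, not_le.1 hc⟩
    exact ⟨i, true, by rw [hatClamp_of_ge h2]; simp [side]⟩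

theorem hatClamp_loop (p : ELoop (m + 2) X x₀) (y : Fin (m + 2) → ℝ) :
    p (fun i => hatClamp (y i)) = p y := by
  by_cases hy : y ∈ openCube (m + 2)
  · congr 1
    funext i
    exact hatClamp_of_mem (hy i).1.le (hy i).2.le
  · rw [p.off y hy]
    apply p.off
    intro h
    obtain ⟨i, ε, hi⟩ := hatClamp_off y hy
    have h1 : 0 < hatClamp (y i) ∧ hatClamp (y i) < 1 := h i
    rw [hi] at h1
    cases ε <;> simp [side] at h1

/-- only bottom and top faces nontrivial: they are homotopic -/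
theorem cls_eq_of_extH (g : Fin (m + 3) → Bool → ELoop (m + 2) X x₀) (h : ExtH g)
    (hs : ∀ i ε, i ≠ Fin.last _ → (g i ε).cls = 0) :
    (g (Fin.last _) false).cls = (g (Fin.last _) true).cls := by
  classical
  obtain ⟨g2, hg2⟩ : ∃ g2 : Fin (m + 3) → Bool → ELoop (m + 2) X x₀, ∀ i ε, g2 i ε =
      if i = Fin.last _ then g i ε else ELoop.const (m + 2) x₀ := ⟨_, fun _ _ => rfl⟩
  have hcl : ∀ i ε, (g2 i ε).cls = (g i ε).cls := by
    intro i ε
    rw [hg2]
    split_ifs with h1
    · rfl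
    · rw [cls_const, hs i ε h1]
  have h2 : ExtH g2 := by
    obtain ⟨g', h3, h4⟩ := h
    exact ⟨g', fun i ε => (h3 i ε).trans (hcl i ε).symm, h4⟩
  obtain ⟨G, hG, hf⟩ := ext_of_extH g2 h2
  rw [cls_eq_iff]
  refine ⟨fun t y => G (Fin.insertNth (Fin.last _) (hatClamp t) fun i => hatClamp (y i)),
    ?_, ?_, ?_, ?_⟩
  · refine hG.comp ?_
    refine continuous_pi fun j => ?_
    refine Fin.succAboveCases (Fin.last (m + 2)) ?_ (fun j' => ?_) j
    · simp only [Fin.insertNth_apply_same]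
      exact hatClamp_cont.comp continuous_fst
    · simp only [Fin.insertNth_apply_succAbove]
      exact hatClamp_cont.comp ((continuous_apply j').comp continuous_snd)
  · intro y
    have h3 := hf (Fin.last _) false (fun i => hatClamp (y i))
    have h4 : side false = hatClamp 0 := by
      rw [hatClamp_of_le le_rfl]
      simp [side]
    rw [h4] at h3
    show G (Fin.insertNth (Fin.last _) (hatClamp 0) fun i => hatClamp (y i)) = _
    rw [h3, hg2, if_pos rfl, hatClamp_loop]
  · intro y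
    have h3 := hf (Fin.last _) true (fun i => hatClamp (y i))
    have h4 : side true = hatClamp 1 := by
      rw [hatClamp_of_ge le_rfl]
      simp [side]
    rw [h4] at h3
    show G (Fin.insertNth (Fin.last _) (hatClamp 1) fun i => hatClamp (y i)) = _
    rw [h3, hg2, if_pos rfl, hatClamp_loop]
  · intro t y hy
    obtain ⟨i, ε, hi⟩ := hatClamp_off y hy
    obtain ⟨z, hz⟩ : ∃ z : Fin (m + 3) → ℝ, z =
        Fin.insertNth (Fin.last (m + 2)) (hatClamp t) fun i => hatClamp (y i) := ⟨_, rfl⟩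
    have h3 := hf (Fin.castSucc i) ε (Fin.removeNth (Fin.castSucc i) z)
    have h4 : z (Fin.castSucc i) = side ε := by
      rw [hz, ← Fin.succAbove_last, Fin.insertNth_apply_succAbove, hi]
    rw [← h4, Fin.insertNth_self_removeNth, hg2, if_neg (Fin.castSucc_ne_last i)] at h3
    show G (Fin.insertNth (Fin.last (m + 2)) (hatClamp t) fun i => hatClamp (y i)) = x₀
    rw [← hz, h3]
    rfl

/-- The homotopy addition theorem. -/
theorem hat (g : Fin (m + 3) → Bool → ELoop (m + 2) X x₀) : Ext g ↔ faceSum g = 0 := by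
  classical
  refine ⟨fun h => ?_, fun h => ext_of_extH g (extH_box g h)⟩
  -- the right class of the top face
  obtain ⟨S, hS⟩ : ∃ S : PiGrp m X x₀, S = faceSum g := ⟨_, rfl⟩
  obtain ⟨t, ht⟩ := cls_surj (x₀ := x₀)
    ((g (Fin.last _) true).cls - ((-1 : ℤ) ^ (m + 2)) • S)
  obtain ⟨g1, hg1⟩ : ∃ g1 : Fin (m + 3) → Bool → ELoop (m + 2) X x₀, ∀ i ε, g1 i ε =
      if i = Fin.last _ then (if ε = true then t else g i ε) else g i ε := ⟨_, fun _ _ => rfl⟩
  have h1 : faceSum g1 = 0 := by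
    have h2 : faceSum g1 = faceSum g - ∑ j : Fin (m + 3), ((-1 : ℤ) ^ (j : ℕ)) •
        (if j = Fin.last _ then ((-1 : ℤ) ^ (m + 2)) • S else 0) := by
      unfold faceSum
      rw [← Finset.sum_sub_distrib]
      refine Finset.sum_congr rfl fun j _ => ?_
      rw [← smul_sub]
      congr 1
      rw [hg1, hg1]
      by_cases hj : j = Fin.last _
      · subst hj
        simp only [if_true, Bool.false_eq_true, if_false]
        rw [ht]
        abel
      · simp [hj]
    rw [h2, ← hS]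
    simp only [smul_ite, smul_zero, Finset.sum_ite_eq', Finset.mem_univ, if_true, Fin.val_last]
    rw [smul_smul, ← pow_add, ← two_mul, pow_mul]
    simp
  have h3 : ExtH g1 := extH_box g1 h1
  -- reflect and glue
  obtain ⟨c, hc⟩ : ∃ c : Fin (m + 3) → Bool → PiGrp m X x₀, ∀ i ε, c i ε =
      if i = Fin.last _ then (g1 i (!ε)).cls else - (g1 i ε).cls := ⟨_, fun _ _ => rfl⟩
  have h4 : hatEC c := by
    refine hatEC_reflect (Fin.last _) (fun i ε => (g1 i ε).cls) c h3 ?_ ?_ fun i ε hi => ?_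
    · rw [hc]; simp
    · rw [hc]; simp
    · rw [hc, if_neg hi]
  obtain ⟨d, hd⟩ : ∃ d : Fin (m + 3) → Bool → PiGrp m X x₀, ∀ i ε, d i ε =
      if i = Fin.last _ then (if ε = true then (g i true).cls else t.cls) else 0 :=
    ⟨_, fun _ _ => rfl⟩
  have h5 : hatEC d := by
    refine hatEC_glue (Fin.last _) c (fun i ε => (g i ε).cls) d h4 ⟨g, fun _ _ => rfl, h⟩
      ?_ ?_ ?_ fun i ε hi => ?_
    · rw [hc, hg1]; simp
    · rw [hc, hd, hg1]; simp
    · rw [hd]; simp
    · rw [hc, hd, if_neg hi, if_neg hi, hg1, if_neg hi]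
      abel
  obtain ⟨g2, hg2, he2⟩ := h5
  have h6 := cls_eq_of_extH g2 ⟨g2, fun _ _ => rfl, he2⟩ (fun i ε hi => by
    rw [hg2, hd, if_neg hi])
  rw [hg2, hg2, hd, hd] at h6
  simp only [if_true, Bool.false_eq_true, if_false] at h6
  rw [ht, sub_eq_self] at h6
  rw [← hS]
  have h7 : ((-1 : ℤ) ^ (m + 2)) • (((-1 : ℤ) ^ (m + 2)) • S) = 0 := by rw [h6, smul_zero]
  rw [smul_smul, ← pow_add, ← two_mul, pow_mul] at h7
  simpa using h7

end Vale.Agent.P093.T
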