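import Vale.Agent.P093.T.DiskDef
import Vale.Agent.P093.T.Hat
import Vale.Agent.P093.T.Descend

/-!
Filling of spheres.
-/

open Topology.Homotopy Set
open scoped unitInterval Topology

namespace Vale.Agent.P093.T

variable {W : Type*} [Fintype W] {m : ℕ}

theorem fill_collapse_cont (d : ℕ) (w₀ : W) :
    Continuous fun z : ℝ × Sk W (d + 1) => collapse d w₀ z.1 z.2 :=
  (exists_collapse d w₀).choose_spec.1

theorem fill_collapse_zero (d : ℕ) (w₀ : W) (y : Sk W (d + 1)) : collapse d w₀ 0 y = y :=
  (exists_collapse d w₀).choose_spec.2.1 y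

theorem fill_collapse_one (d : ℕ) (w₀ : W) (y : Sk W (d + 1)) (hy : (y : W → ℝ) ∈ Sk W d) :
    ((collapse d w₀ 1 y : Sk W (d + 1)) : W → ℝ) = vtx w₀ :=
  (exists_collapse d w₀).choose_spec.2.2 y hy

theorem fill_qmap_pos (k : ℕ) (x : Fin k → ℝ) (hx : x ∈ openCube k) (j : Fin (k + 1)) :
    0 < qmap k x j := by
  have hc : ∀ i, clamp (x i) = x i := fun i => by
    have := hx i
    unfold clamp
    rw [min_eq_right this.2.le, max_eq_right this.1.le]
  unfold qmap
  refine mul_pos (Finset.prod_pos fun i _ => ?_) ?_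
  · split_ifs
    · rw [hc]; exact (hx i).1
    · exact one_pos
  · split_ifs with h
    · rw [hc]; linarith [(hx ⟨j.val, h⟩).2]
    · exact one_pos

/-- a map of the boundary of the simplex extends if its collapse extends -/
theorem fill_collar (w₀ : W) (b : BdSimplex m → Sk W (m + 2)) (hb : Continuous b)
    (f' : stdSimplex ℝ (Fin (m + 4)) → Sk W (m + 2)) (hf' : Continuous f')
    (h1 : ∀ z : BdSimplex m, f' ⟨z.1, z.2.1⟩ = collapse (m + 1) w₀ 1 (b z)) :
    ∃ B : stdSimplex ℝ (Fin (m + 4)) → Sk W (m + 2), Continuous B ∧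
      ∀ z : BdSimplex m, B ⟨z.1, z.2.1⟩ = b z := by
  classical
  set N : ℝ := (m : ℝ) + 4 with hN
  have hNpos : 0 < N := by positivity
  have hN2 : 0 < 1 / (2 * N) := by positivity
  let S : Set (Fin (m + 4) → ℝ) := {z | z ∈ stdSimplex ℝ (Fin (m + 4)) ∧ ∃ i, z i = 0}
  let P : (Fin (m + 4) → ℝ) → Sk W (m + 2) :=
    Function.extend (Subtype.val : BdSimplex m → _) b (fun _ => base m w₀)
  have hP : ∀ z : BdSimplex m, P z.1 = b z := fun z => Subtype.val_injective.extend_apply b _ z
  have hPc : ContinuousOn P S := by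
    rw [continuousOn_iff_continuous_domRestrict]
    have : S.domRestrict P = fun z : S => b z := by funext z; exact hP z
    rw [this]
    exact hb
  let Q : (Fin (m + 4) → ℝ) → Sk W (m + 2) :=
    Function.extend (Subtype.val : stdSimplex ℝ (Fin (m + 4)) → _) f' (fun _ => base m w₀)
  have hQ : ∀ z : stdSimplex ℝ (Fin (m + 4)), Q z.1 = f' z :=
    fun z => Subtype.val_injective.extend_apply f' _ z
  have hQc : ContinuousOn Q (stdSimplex ℝ (Fin (m + 4))) := by
    rw [continuousOn_iff_continuous_domRestrict]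
    have : (stdSimplex ℝ (Fin (m + 4))).domRestrict Q = fun z => f' z := by funext z; exact hQ z
    rw [this]
    exact hf'
  let ν : (Fin (m + 4) → ℝ) → ℝ := fun z => Finset.univ.inf' Finset.univ_nonempty fun i => z i
  have hνc : Continuous ν :=
    Continuous.finset_inf'_apply Finset.univ_nonempty (fun i _ => continuous_apply i)
  have hνle : ∀ z i, ν z ≤ z i := fun z i => Finset.inf'_le _ (Finset.mem_univ i)
  have hνex : ∀ z, ∃ i, z i = ν z := fun z => by
    obtain ⟨i, _, hi⟩ := Finset.exists_mem_eq_inf' Finset.univ_nonempty z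
    exact ⟨i, hi.symm⟩
  have hsum : ∀ c : ℝ, ∑ _i : Fin (m + 4), c = N * c := fun c => by
    simp [hN]
  have hν0 : ∀ z ∈ stdSimplex ℝ (Fin (m + 4)), 0 ≤ ν z := fun z hz => by
    obtain ⟨i, hi⟩ := hνex z
    rw [← hi]
    exact hz.1 i
  let rad : (Fin (m + 4) → ℝ) → (Fin (m + 4) → ℝ) := fun z i => (z i - ν z) / (1 - N * ν z)
  have hden : ∀ z, ν z ≤ 1 / (2 * N) → 1 / 2 ≤ 1 - N * ν z := fun z hz => by
    have : N * ν z ≤ N * (1 / (2 * N)) := mul_le_mul_of_nonneg_left hz hNpos.le
    have h2 : N * (1 / (2 * N)) = 1 / 2 := by field_simp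
    linarith
  have hrad : ∀ z ∈ stdSimplex ℝ (Fin (m + 4)), ν z ≤ 1 / (2 * N) → rad z ∈ S := by
    intro z hz hle
    have hd := hden z hle
    refine ⟨⟨fun i => div_nonneg (sub_nonneg.2 (hνle z i)) (by linarith), ?_⟩, ?_⟩
    · simp only [rad]
      rw [← Finset.sum_div, Finset.sum_sub_distrib, hz.2, hsum]
      exact div_self (by linarith)
    · obtain ⟨i, hi⟩ := hνex z
      exact ⟨i, by simp only [rad]; rw [hi, sub_self, zero_div]⟩
  let dbl : (Fin (m + 4) → ℝ) → (Fin (m + 4) → ℝ) := fun z i => 2 * z i - 1 / N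
  have hdbl : ∀ z ∈ stdSimplex ℝ (Fin (m + 4)), 1 / (2 * N) ≤ ν z →
      dbl z ∈ stdSimplex ℝ (Fin (m + 4)) := by
    intro z hz hle
    refine ⟨fun i => ?_, ?_⟩
    · have h2 := hνle z i
      have h3 : 1 / N = 2 * (1 / (2 * N)) := by field_simp
      simp only [dbl]
      linarith
    · simp only [dbl]
      rw [Finset.sum_sub_distrib, ← Finset.mul_sum, hz.2, hsum]
      field_simp
      norm_num
  let B : stdSimplex ℝ (Fin (m + 4)) → Sk W (m + 2) := fun z =>
    if ν z.1 ≤ 1 / (2 * N) then collapse (m + 1) w₀ (2 * N * ν z.1) (P (rad z.1))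
    else Q (dbl z.1)
  refine ⟨B, ?_, ?_⟩
  · let A : Set (stdSimplex ℝ (Fin (m + 4))) := {z | ν z.1 ≤ 1 / (2 * N)}
    let A' : Set (stdSimplex ℝ (Fin (m + 4))) := {z | 1 / (2 * N) ≤ ν z.1}
    have hcν : Continuous fun z : stdSimplex ℝ (Fin (m + 4)) => ν z.1 :=
      hνc.comp continuous_subtype_val
    have hAc : IsClosed A := isClosed_le hcν continuous_const
    have hA'c : IsClosed A' := isClosed_le continuous_const hcν
    have hU : (univ : Set (stdSimplex ℝ (Fin (m + 4)))) = A ∪ A' := by
      symm
      rw [eq_univ_iff_forall]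
      intro z
      exact le_total (ν z.1) (1 / (2 * N))
    rw [← continuousOn_univ, hU]
    refine ContinuousOn.union_of_isClosed ?_ ?_ hAc hA'c
    · have e : EqOn B (fun z => collapse (m + 1) w₀ (2 * N * ν z.1) (P (rad z.1))) A :=
        fun z hz => if_pos hz
      refine ContinuousOn.congr ?_ e
      refine (fill_collapse_cont (m + 1) w₀).comp_continuousOn (ContinuousOn.prodMk ?_ ?_)
      · exact (continuous_const.mul hcν).continuousOn
      · refine hPc.comp ?_ (fun z hz => hrad z.1 z.2 hz)
        rw [continuousOn_pi]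
        intro i
        refine ContinuousOn.div ?_ ?_ ?_
        · exact (((continuous_apply i).comp continuous_subtype_val).sub hcν).continuousOn
        · exact (continuous_const.sub (continuous_const.mul hcν)).continuousOn
        · intro z hz
          have := hden z.1 hz
          linarith
    · have e : EqOn B (fun z => Q (dbl z.1)) A' := by
        intro z hz
        by_cases h : ν z.1 ≤ 1 / (2 * N)
        · have heq : ν z.1 = 1 / (2 * N) := le_antisymm h hz
          have hr : rad z.1 = dbl z.1 := by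
            funext i
            simp only [rad, dbl]
            rw [heq]
            field_simp
            ring
          have hS := hrad z.1 z.2 h
          have h2 : 2 * N * ν z.1 = 1 := by rw [heq]; field_simp
          simp only [B]
          rw [if_pos h, h2]
          have e1 : P (rad z.1) = b ⟨rad z.1, hS⟩ := hP ⟨rad z.1, hS⟩
          rw [e1, ← h1 ⟨rad z.1, hS⟩, ← hQ, ← hr]
        · simp only [B]
          rw [if_neg h]
      refine ContinuousOn.congr ?_ e
      refine hQc.comp ?_ (fun z hz => hdbl z.1 z.2 hz)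
      refine Continuous.continuousOn ?_
      refine continuous_pi fun i => ?_
      exact (continuous_const.mul ((continuous_apply i).comp continuous_subtype_val)).sub
        continuous_const
  · intro z
    obtain ⟨i, hi⟩ := z.2.2
    have h0 : ν z.1 = 0 := le_antisymm ((hνle z.1 i).trans_eq hi) (hν0 z.1 z.2.1)
    have hr : rad z.1 = z.1 := by
      funext j
      simp only [rad]
      rw [h0]
      simp
    simp only [B]
    rw [if_pos (by rw [h0]; exact hN2.le), h0, mul_zero, hr, fill_collapse_zero]
    exact hP z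

/-- (C2) FILLING. A map `b` of the boundary of the simplex with `m + 4` vertices to the
`(m+2)`-skeleton, whose faces are the disk maps `f j`, extends over the simplex if the alternating
sum of the classes of its faces is zero. Proof: `collapse 1 ∘ b ∘ qmap` on the boundary of the
`(m+3)`-cube has the faces `(f i).loop` on `x_i = 1`, `(f last).loop` on `x_last = 0`, constants on
the other faces `x_i = 0` (`qmap_one`, `qmap_last`, `qmap_zero`); so it extends by `hat`; the
extension descends to the simplex (`descend`); so `collapse 1 ∘ b` extends over the simplex, and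
`b` extends by the collar `collapse t ∘ b`, `t ∈ [0,1]`. -/
theorem fill (w₀ : W) (b : BdSimplex m → Sk W (m + 2)) (hb : Continuous b)
    (f : Fin (m + 4) → DiskMap m W) (hf : ∀ j z, b (faceIn j z) = (f j).toFun z)
    (hsum : ∑ j : Fin (m + 4), ((-1 : ℤ) ^ (j : ℕ)) • (f j).cl w₀ = 0) :
    ∃ B : stdSimplex ℝ (Fin (m + 4)) → Sk W (m + 2), Continuous B ∧
      ∀ z : BdSimplex m, B ⟨z.1, z.2.1⟩ = b z := by
  classical
  let P : (Fin (m + 4) → ℝ) → Sk W (m + 2) :=
    Function.extend (Subtype.val : BdSimplex m → _) b (fun _ => base m w₀)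
  have hP : ∀ z : BdSimplex m, P z.1 = b z := fun z => Subtype.val_injective.extend_apply b _ z
  let g : Fin (m + 3) → Bool → ELoop (m + 2) (Sk W (m + 2)) (base m w₀) := fun i ε =>
    if ε = true then (f (Fin.castSucc i)).loop w₀
    else if i = Fin.last (m + 2) then (f (Fin.last (m + 3))).loop w₀
    else ELoop.const (m + 2) (base m w₀)
  have hgs : faceSum g = 0 := by
    rw [← hsum, Fin.sum_univ_castSucc, faceSum]
    have e1 : ∀ i : Fin (m + 3), ((-1 : ℤ) ^ (i : ℕ)) • ((g i true).cls - (g i false).cls) =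
        ((-1 : ℤ) ^ (i : ℕ)) • (f (Fin.castSucc i)).cl w₀ +
          (if i = Fin.last (m + 2) then ((-1 : ℤ) ^ (m + 3)) • (f (Fin.last (m + 3))).cl w₀
            else 0) := by
      intro i
      by_cases hi : i = Fin.last (m + 2)
      · subst hi
        simp only [g, if_true, Bool.false_eq_true, if_false, DiskMap.cl, Fin.val_last]
        rw [smul_sub, sub_eq_add_neg, pow_succ (-1 : ℤ) (m + 2), mul_neg_one, neg_smul]
      · simp only [g, if_true, Bool.false_eq_true, if_false, hi, DiskMap.cl, cls_const, sub_zero,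
          add_zero]
    rw [Finset.sum_congr rfl fun i _ => e1 i, Finset.sum_add_distrib, Finset.sum_ite_eq']
    simp
  obtain ⟨G, hG, hGf⟩ := (hat g).2 hgs
  have hloop : ∀ (j : Fin (m + 4)) (y : Fin (m + 2) → ℝ), ((f j).loop w₀) y =
      collapse (m + 1) w₀ 1 (P (Fin.insertNth j 0 (qmap (m + 2) y))) := by
    intro j y
    have : P (Fin.insertNth j 0 (qmap (m + 2) y)) =
        b (faceIn j ⟨qmap (m + 2) y, qmap_mem _ y⟩) := hP (faceIn j ⟨qmap (m + 2) y, qmap_mem _ y⟩)
    rw [this, hf]
    rfl
  have key : ∀ x : Fin (m + 3) → ℝ, (∀ i, 0 ≤ x i ∧ x i ≤ 1) → x ∉ openCube (m + 3) →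
      G x = collapse (m + 1) w₀ 1 (P (qmap (m + 3) x)) := by
    intro x hx hxo
    have : ∃ i, x i = 0 ∨ x i = 1 := by
      by_contra hcon
      push Not at hcon
      exact hxo fun i => ⟨lt_of_le_of_ne (hx i).1 (Ne.symm (hcon i).1),
        lt_of_le_of_ne (hx i).2 (hcon i).2⟩
    obtain ⟨i, hi⟩ := this
    have hxe : Fin.insertNth i (x i) (Fin.removeNth i x) = x := Fin.insertNth_self_removeNth i x
    rcases hi with hi | hi
    · by_cases hl : i = Fin.last (m + 2)
      · subst hl
        have e2 := hGf (Fin.last (m + 2)) false (Fin.removeNth (Fin.last (m + 2)) x)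
        have e3 := qmap_last (m + 2) (Fin.removeNth (Fin.last (m + 2)) x)
        rw [hi] at hxe
        rw [side, if_neg (by simp), hxe] at e2
        rw [hxe] at e3
        rw [e2, e3]
        simp only [g, if_true, Bool.false_eq_true, if_false]
        exact hloop _ _
      · have e2 := hGf i false (Fin.removeNth i x)
        have e3 := qmap_zero (m + 2) i hl (Fin.removeNth i x)
        rw [hi] at hxe
        rw [side, if_neg (by simp), hxe] at e2
        rw [hxe] at e3
        rw [e2]
        simp only [g, Bool.false_eq_true, if_false, hl]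
        -- the point of the simplex
        have hz := qmap_mem (m + 3) x
        set z := qmap (m + 3) x with hzdef
        have hz' : Fin.init z ∈ stdSimplex ℝ (Fin (m + 3)) := by
          refine ⟨fun j => hz.1 _, ?_⟩
          have := hz.2
          rw [Fin.sum_univ_castSucc, e3.1, add_zero] at this
          exact this
        have hzz : (faceIn (Fin.last (m + 3)) ⟨Fin.init z, hz'⟩ : BdSimplex m).1 = z := by
          show Fin.insertNth (Fin.last (m + 3)) 0 (Fin.init z) = z
          rw [Fin.insertNth_last']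
          have := Fin.snoc_init_self z
          rw [e3.1] at this
          exact this
        have hPz : P z = (f (Fin.last (m + 3))).toFun ⟨Fin.init z, hz'⟩ := by
          rw [← hf, ← hP, hzz]
        rw [hPz]
        apply Subtype.ext
        rw [fill_collapse_one]
        · rfl
        · exact (f (Fin.last (m + 3))).bdry _ ⟨Fin.last (m + 2), e3.2⟩
    · have e2 := hGf i true (Fin.removeNth i x)
      have e3 := qmap_one (m + 2) i (Fin.removeNth i x)
      rw [hi] at hxe
      rw [side, if_pos rfl, hxe] at e2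
      rw [hxe] at e3
      rw [e2, e3]
      simp only [g, if_true]
      exact hloop _ _
  obtain ⟨f', hf', hff⟩ := descend (m + 3) G hG (by
    intro x x' hx hx' hxo hxo' he
    rw [key x hx hxo, key x' hx' hxo', he])
  refine fill_collar w₀ b hb f' hf' ?_
  intro z
  obtain ⟨x, hx, hxz⟩ := qmap_surj (m + 3) z.1 z.2.1
  have hxo : x ∉ openCube (m + 3) := by
    intro ho
    obtain ⟨i, hi⟩ := z.2.2
    have := fill_qmap_pos (m + 3) x ho i
    rw [hxz, hi] at this
    exact lt_irrefl _ this
  have e1 : (⟨z.1, z.2.1⟩ : stdSimplex ℝ (Fin (m + 4))) = ⟨qmap (m + 3) x, qmap_mem (m + 3) x⟩ :=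
    Subtype.ext hxz.symm
  rw [e1, hff x hx, key x hx hxo, hxz, hP]

end Vale.Agent.P093.T
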