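import Vale.Agent.P093.T.DiskInsertA

/-!
Insertion of spheres in disk maps.
-/

open Topology.Homotopy Set
open scoped unitInterval Topology

namespace Vale.Agent.P093.T

variable {W : Type*} [Fintype W] {m : ℕ}

/-- the class of the boundary of an ordered simplex, in terms of affine disk maps -/
theorem sum_faces_eq_theta (w₀ : W) (c : Fin (m + 4) → W) :
    (∑ j : Fin (m + 4), ((-1 : ℤ) ^ (j : ℕ)) • (aff (c ∘ Fin.succAbove j)).cl w₀ :
      PiGrp m (Sk W (m + 2)) (base m w₀)) = theta w₀ (simplexBoundary (List.ofFn c)) := by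
  classical
  have hlen : ¬ (List.ofFn c).length ≤ 1 := by
    rw [List.length_ofFn]
    omega
  have hadd : ∀ (T : Finset ℕ) (f : ℕ → OChain W),
      (theta w₀ (∑ i ∈ T, f i) : PiGrp m (Sk W (m + 2)) (base m w₀)) =
        ∑ i ∈ T, theta w₀ (f i) := by
    intro T f
    induction T using Finset.induction_on with
    | empty =>
      rw [Finset.sum_empty, Finset.sum_empty]
      unfold theta extend
      exact Finsupp.sum_zero_index
    | insert i T hi ih => rw [Finset.sum_insert hi, Finset.sum_insert hi, theta_add, ih]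
  unfold simplexBoundary
  rw [if_neg hlen, hadd, List.length_ofFn, Finset.sum_range]
  refine Finset.sum_congr rfl fun j _ => ?_
  rw [theta_smul]
  congr 1
  unfold theta extend
  rw [Finsupp.sum_single_index (h := fun s n => n • (thetaList w₀ s :
    PiGrp m (Sk W (m + 2)) (base m w₀))) (zero_smul ℤ _), one_smul]
  unfold thetaList
  have hl : ((List.ofFn c).eraseIdx (j : ℕ)).length = m + 3 := by
    rw [List.length_eraseIdx_of_lt (by rw [List.length_ofFn]; exact j.2), List.length_ofFn]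
    rfl
  rw [dif_pos hl]
  congr 2
  funext i
  rw [List.get_eq_getElem, List.getElem_eraseIdx]
  simp only [Fin.val_cast, Function.comp_apply]
  by_cases hij : (i : ℕ) < (j : ℕ)
  · rw [dif_pos hij, List.getElem_ofFn]
    congr 1
    apply Fin.ext
    rw [Fin.succAbove_of_castSucc_lt j i (by rw [Fin.lt_def]; exact hij)]
    rfl
  · rw [dif_neg hij, List.getElem_ofFn]
    congr 1
    apply Fin.ext
    rw [Fin.succAbove_of_le_castSucc j i (by rw [Fin.le_def]; exact not_lt.mp hij)]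
    rfl

/-- the property of being a modification of `a` off the boundary inside `S` with class shift
`x` -/
def Ins (w₀ : W) (S : Finset W) (a : DiskMap m W)
    (x : PiGrp m (Sk W (m + 2)) (base m w₀)) : Prop :=
  ∃ a' : DiskMap m W, (∀ z : stdSimplex ℝ (Fin (m + 3)), (∃ i, z.1 i = 0) →
        a'.toFun z = a.toFun z) ∧
      (∀ z, spt (a'.toFun z : W → ℝ) ⊆ S) ∧
      a'.cl w₀ = a.cl w₀ + x

theorem exists_zero_coord (z : stdSimplex ℝ (Fin (m + 3))) (h : z.1 0 = 1) :
    ∃ i, z.1 i = 0 := by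
  refine ⟨1, ?_⟩
  have h2 := z.2.2
  have h3 : (∑ i, z.1 i) = z.1 0 + ∑ i ∈ Finset.univ.erase (0 : Fin (m + 3)), z.1 i :=
    (Finset.add_sum_erase _ _ (Finset.mem_univ _)).symm
  have h4 : z.1 1 ≤ ∑ i ∈ Finset.univ.erase (0 : Fin (m + 3)), z.1 i := by
    refine Finset.single_le_sum (f := fun i => z.1 i) (fun i _ => z.2.1 i) ?_
    rw [Finset.mem_erase]
    exact ⟨by simp, Finset.mem_univ _⟩
  have h5 := z.2.1 1
  linarith

/-- insertion of `n` copies of a sphere with sign `ε` -/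
theorem insert_sphere_iter (w₀ : W) (S : Finset W) (a : DiskMap m W) (v : W) (hv : v ∈ S)
    (ha0 : ∀ z : stdSimplex ℝ (Fin (m + 3)), z.1 0 = 1 → (a.toFun z : W → ℝ) = vtx v)
    (haS : ∀ z, spt (a.toFun z : W → ℝ) ⊆ S)
    (c : Fin (m + 4) → W) (hc : ∀ i, c i ∈ S) (ε : ℤ) (hε : ε = 1 ∨ ε = -1) (n : ℕ) :
    Ins w₀ S a (((n : ℤ) * ε) • ∑ j : Fin (m + 4), ((-1 : ℤ) ^ (j : ℕ)) •
        (aff (c ∘ Fin.succAbove j)).cl w₀) := by
  induction n with
  | zero =>
    refine ⟨a, fun z _ => rfl, haS, ?_⟩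
    rw [Nat.cast_zero, zero_mul, zero_smul, add_zero]
  | succ n ih =>
    obtain ⟨a1, h1, h2, h3⟩ := ih
    obtain ⟨a2, h4, h5, h6⟩ := insert_sphere w₀ S a1 v hv (fun z hz => by
      rw [h1 z (exists_zero_coord z hz)]
      exact ha0 z hz) h2 c hc ε hε
    refine ⟨a2, fun z hz => (h4 z hz).trans (h1 z hz), h5, ?_⟩
    rw [h6, h3, add_assoc, ← add_smul]
    congr 2
    push_cast
    ring

/-- insertion of an integer multiple of the boundary of an ordered simplex -/
theorem insert_sphere_int (w₀ : W) (S : Finset W) (a : DiskMap m W) (v : W) (hv : v ∈ S)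
    (ha0 : ∀ z : stdSimplex ℝ (Fin (m + 3)), z.1 0 = 1 → (a.toFun z : W → ℝ) = vtx v)
    (haS : ∀ z, spt (a.toFun z : W → ℝ) ⊆ S)
    (s : List W) (hs : s.length = m + 4) (hsS : ∀ w ∈ s, w ∈ S) (k : ℤ) :
    Ins w₀ S a (k • theta w₀ (simplexBoundary s)) := by
  obtain ⟨c, rfl⟩ : ∃ c : Fin (m + 4) → W, s = List.ofFn c := by
    refine ⟨fun i => s.get (i.cast hs.symm), ?_⟩
    refine List.ext_get (by rw [List.length_ofFn, hs]) fun n h1 h2 => ?_
    rw [List.get_ofFn]
    rfl
  have hc : ∀ i, c i ∈ S := fun i => hsS _ ((List.mem_ofFn' c (c i)).mpr ⟨i, rfl⟩)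
  rw [← sum_faces_eq_theta]
  rcases le_or_gt 0 k with hk | hk
  · obtain ⟨n, rfl⟩ := Int.eq_ofNat_of_zero_le hk
    have := insert_sphere_iter w₀ S a v hv ha0 haS c hc 1 (Or.inl rfl) n
    rwa [mul_one] at this
  · obtain ⟨n, hn⟩ := Int.eq_ofNat_of_zero_le (a := -k) (by omega)
    have h := insert_sphere_iter w₀ S a v hv ha0 haS c hc (-1) (Or.inr rfl) n
    have hk2 : (n : ℤ) * (-1) = k := by
      have : (n : ℤ) = -k := hn.symm
      rw [this]
      ring
    rwa [hk2] at h

/-- insertion of a chain of spheres -/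
theorem insert_chain (w₀ : W) (S : Finset W) (a : DiskMap m W) (v : W) (hv : v ∈ S)
    (ha0 : ∀ z : stdSimplex ℝ (Fin (m + 3)), z.1 0 = 1 → (a.toFun z : W → ℝ) = vtx v)
    (haS : ∀ z, spt (a.toFun z : W → ℝ) ⊆ S)
    (c : OChain W) (hc : ∀ s ∈ c.support, s.length = m + 4 ∧ ∀ w ∈ s, w ∈ S) :
    ∃ a' : DiskMap m W, (∀ z : stdSimplex ℝ (Fin (m + 3)), (∃ i, z.1 i = 0) →
        a'.toFun z = a.toFun z) ∧
      (∀ z, spt (a'.toFun z : W → ℝ) ⊆ S) ∧
      a'.cl w₀ = a.cl w₀ + theta w₀ (extend simplexBoundary c) := by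
  classical
  have hext : extend simplexBoundary c = ∑ s ∈ c.support, c s • simplexBoundary s := rfl
  rw [hext]
  have key : ∀ T : Finset (List W), (∀ s ∈ T, s.length = m + 4 ∧ ∀ w ∈ s, w ∈ S) →
      Ins w₀ S a (theta w₀ (∑ s ∈ T, c s • simplexBoundary s)) := by
    intro T
    induction T using Finset.induction_on with
    | empty =>
      intro _
      refine ⟨a, fun z _ => rfl, haS, ?_⟩
      have h0 : (theta w₀ (0 : OChain W) : PiGrp m (Sk W (m + 2)) (base m w₀)) = 0 := by
        unfold theta extend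
        exact Finsupp.sum_zero_index
      rw [Finset.sum_empty, h0, add_zero]
    | insert s T hi ih =>
      intro hT
      obtain ⟨a1, h1, h2, h3⟩ := ih fun t ht => hT t (Finset.mem_insert_of_mem ht)
      have hs := hT s (Finset.mem_insert_self s T)
      obtain ⟨a2, h4, h5, h6⟩ := insert_sphere_int w₀ S a1 v hv (fun z hz => by
        rw [h1 z (exists_zero_coord z hz)]
        exact ha0 z hz) h2 s hs.1 hs.2 (c s)
      refine ⟨a2, fun z hz => (h4 z hz).trans (h1 z hz), h5, ?_⟩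
      rw [h6, h3, Finset.sum_insert hi, theta_add, theta_smul, add_assoc,
        add_comm (theta w₀ (∑ s ∈ T, c s • simplexBoundary s))]
  exact key c.support hc

end Vale.Agent.P093.T
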