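import Vale.Agent.P093.T.DiskSphere
import Vale.Agent.P093.T.Descend

/-!
Insertion of one sphere in a disk map.
-/

open Topology.Homotopy Set
open scoped unitInterval Topology

namespace Vale.Agent.P093.T

variable {W : Type*} [Fintype W] {m : ℕ}

/-! ### the cube -/

/-- dilation by `2` about the centre of the cube -/
private noncomputable def dscale {k : ℕ} (y : Fin k → ℝ) : Fin k → ℝ :=
  fun i => 1 / 2 + 2 * (y i - 1 / 2)

/-- twice the distance to the centre -/
private noncomputable def dnorm {k : ℕ} (y : Fin k → ℝ) : ℝ := 2 * ‖fun i => y i - 1 / 2‖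

private theorem dscale_cont {k : ℕ} : Continuous (dscale (k := k)) := by
  unfold dscale
  fun_prop

private theorem dnorm_cont {k : ℕ} : Continuous (dnorm (k := k)) := by
  unfold dnorm
  fun_prop

private theorem dnorm_ge {k : ℕ} (y : Fin k → ℝ) (i : Fin k) : 2 * |y i - 1 / 2| ≤ dnorm y := by
  unfold dnorm
  have := norm_le_pi_norm (fun i => y i - 1 / 2) i
  rw [Real.norm_eq_abs] at this
  linarith

private theorem dnorm_lt {k : ℕ} (y : Fin k → ℝ) {r : ℝ} (hr : 0 < r)
    (h : ∀ i, 2 * |y i - 1 / 2| < r) : dnorm y < r := by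
  unfold dnorm
  have : ‖fun i => y i - 1 / 2‖ < r / 2 := by
    rw [pi_norm_lt_iff (by linarith)]
    intro i
    rw [Real.norm_eq_abs]
    linarith [h i]
  linarith

/-- off the inner cube the dilated point is not in the open cube -/
private theorem dscale_off {k : ℕ} (y : Fin k → ℝ) (h : 1 / 2 ≤ dnorm y) :
    dscale y ∉ openCube k := by
  intro hy
  refine absurd (dnorm_lt y (r := 1 / 2) (by norm_num) fun i => ?_) (not_lt.2 h)
  have := hy i
  unfold dscale at this
  have h1 : |y i - 1 / 2| < 1 / 4 := by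
    rw [abs_lt]
    constructor <;> linarith [this.1, this.2]
  linarith

private theorem dclamp_cont : Continuous clamp := by
  unfold clamp
  fun_prop

private theorem dclamp_nonneg (t : ℝ) : 0 ≤ clamp t := le_max_left _ _

private theorem dclamp_le_one (t : ℝ) : clamp t ≤ 1 := by
  unfold clamp
  exact max_le zero_le_one (min_le_left _ _)

/-! ### the sphere with a sign, attached to the vertex `v` -/

private theorem collapse_low (w₀ : W) (y : Sk W (m + 2)) (hy : (y : W → ℝ) ∈ Sk W (m + 1)) :
    collapse (m + 1) w₀ 1 y = base m w₀ :=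
  Subtype.ext ((exists_collapse (m + 1) w₀).choose_spec.2.2 y hy)

private theorem collapse_cont (w₀ : W) :
    Continuous fun y : Sk W (m + 2) => collapse (m + 1) w₀ 1 y := by
  have h1 : Continuous (fun z : ℝ × Sk W (m + 1 + 1) => collapse (m + 1) w₀ z.1 z.2) :=
    (exists_collapse (m + 1) w₀).choose_spec.1
  exact h1.comp (by fun_prop : Continuous fun y : Sk W (m + 1 + 1) => ((1 : ℝ), y))

/-- sphere with sign -/
private theorem sphere_sign (w₀ : W) (c : Fin (m + 4) → W) (ε : ℤ) (hε : ε = 1 ∨ ε = -1) :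
    ∃ L : (Fin (m + 2) → ℝ) → Sk W (m + 2), Continuous L ∧
      (∀ y, y ∉ openCube (m + 2) → (L y : W → ℝ) = vtx (c 0)) ∧
      (∀ y, ∀ w ∈ spt (L y : W → ℝ), ∃ i, c i = w) ∧
      ∀ ℓ : ELoop (m + 2) (Sk W (m + 2)) (base m w₀), (∀ y, ℓ y = collapse (m + 1) w₀ 1 (L y)) →
        ℓ.cls = ε • ∑ j : Fin (m + 4), ((-1 : ℤ) ^ (j : ℕ)) •
          (aff (c ∘ Fin.succAbove j)).cl w₀ := by
  obtain ⟨L, h1, h2, h3, h4⟩ := exists_sphere w₀ c
  rcases hε with rfl | rfl
  · refine ⟨L, h1, h2, h3, fun ℓ hℓ => ?_⟩
    rw [one_smul]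
    exact h4 ℓ hℓ
  · have hc : Continuous fun y : Fin (m + 2) → ℝ => Function.update y 0 (1 - y 0) := by
      fun_prop
    have ho : ∀ y : Fin (m + 2) → ℝ, y ∉ openCube (m + 2) →
        Function.update y 0 (1 - y 0) ∉ openCube (m + 2) := by
      intro y hy hu
      apply hy
      intro i
      have := hu i
      by_cases hi : i = 0
      · subst hi
        rw [Function.update_self] at this
        constructor <;> linarith [this.1, this.2]
      · rwa [Function.update_of_ne hi] at this
    refine ⟨fun y => L (Function.update y 0 (1 - y 0)), h1.comp hc, fun y hy => h2 _ (ho y hy),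
      fun y => h3 _, fun ℓ hℓ => ?_⟩
    have e1 : ∀ y : Fin (m + 2) → ℝ, Function.update (Function.update y 0 (1 - y 0)) 0
        (1 - Function.update y 0 (1 - y 0) 0) = y := by
      intro y
      rw [Function.update_self, Function.update_idem]
      rw [show (1 : ℝ) - (1 - y 0) = y 0 by ring, Function.update_eq_self]
    have e2 := h4 (ℓ.pre _ hc ho) (fun y => by
      show ℓ (Function.update y 0 (1 - y 0)) = _
      rw [hℓ]
      show collapse (m + 1) w₀ 1 (L (Function.update (Function.update y 0 (1 - y 0)) 0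
        (1 - Function.update y 0 (1 - y 0) 0))) = _
      rw [e1])
    have e3 := cls_refl 0 ℓ (ℓ.pre _ hc ho) (fun y => rfl)
    rw [e2] at e3
    rw [neg_smul, one_smul, e3, neg_neg]

omit [Fintype W] in
private theorem dvtx_self (w : W) : vtx w w = 1 := by
  classical
  unfold vtx
  simp

omit [Fintype W] in
private theorem dvtx_ne (w w' : W) (h : w' ≠ w) : vtx w w' = 0 := by
  classical
  unfold vtx
  simp [h]

omit [Fintype W] in
private theorem dvtx_nonneg (w w' : W) : 0 ≤ vtx w w' := by
  classical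
  by_cases h : w' = w
  · subst h
    rw [dvtx_self]
    exact zero_le_one
  · rw [dvtx_ne w w' h]

private theorem dvtx_sum (w : W) : ∑ w', vtx w w' = 1 := by
  classical
  rw [Finset.sum_eq_single w]
  · exact dvtx_self w
  · intro b _ hb
    exact dvtx_ne w b hb
  · intro h
    exact absurd (Finset.mem_univ w) h

/-- a point of the edge between two vertices -/
private noncomputable def edgeP (u v : W) (t : ℝ) : W → ℝ :=
  fun w => (1 - clamp t) * vtx u w + clamp t * vtx v w

private theorem edgeP_spt (u v : W) (t : ℝ) : ∀ w ∈ spt (edgeP u v t), w = u ∨ w = v := by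
  intro w hw
  unfold spt at hw
  rw [Finset.mem_filter] at hw
  by_contra hcon
  push Not at hcon
  apply hw.2
  unfold edgeP
  rw [dvtx_ne u w hcon.1, dvtx_ne v w hcon.2, mul_zero, mul_zero, add_zero]

private theorem edgeP_mem (u v : W) (t : ℝ) (d : ℕ) (hd : 1 ≤ d) : edgeP u v t ∈ Sk W d := by
  classical
  refine ⟨⟨fun w => ?_, ?_⟩, ?_⟩
  · have h1 := dclamp_nonneg t
    have h2 := dclamp_le_one t
    exact add_nonneg (mul_nonneg (by linarith) (dvtx_nonneg _ _))
      (mul_nonneg h1 (dvtx_nonneg _ _))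
  · unfold edgeP
    rw [Finset.sum_add_distrib, ← Finset.mul_sum, ← Finset.mul_sum, dvtx_sum, dvtx_sum]
    ring
  · have h : spt (edgeP u v t) ⊆ {u, v} := by
      intro w hw
      rw [Finset.mem_insert, Finset.mem_singleton]
      exact edgeP_spt u v t w hw
    have := Finset.card_le_card h
    have := Finset.card_le_two (a := u) (b := v)
    omega

omit [Fintype W] in
private theorem edgeP_zero (u v : W) {t : ℝ} (ht : t ≤ 0) : edgeP u v t = vtx u := by
  have h : clamp t = 0 := by
    unfold clamp
    rw [min_eq_right (by linarith), max_eq_left ht]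
  funext w
  unfold edgeP
  rw [h]
  ring

omit [Fintype W] in
private theorem edgeP_one (u v : W) {t : ℝ} (ht : 1 ≤ t) : edgeP u v t = vtx v := by
  have h : clamp t = 1 := by
    unfold clamp
    rw [min_eq_left ht, max_eq_right zero_le_one]
  funext w
  unfold edgeP
  rw [h]
  ring

/-- the sphere with sign, connected to `v` -/
private theorem sphere_conn (w₀ : W) (c : Fin (m + 4) → W) (ε : ℤ) (hε : ε = 1 ∨ ε = -1)
    (v : W) :
    ∃ L : (Fin (m + 2) → ℝ) → Sk W (m + 2), Continuous L ∧
      (∀ y, y ∉ openCube (m + 2) → (L y : W → ℝ) = vtx v) ∧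
      (∀ y, ∀ w ∈ spt (L y : W → ℝ), (∃ i, c i = w) ∨ w = v) ∧
      ∀ ℓ : ELoop (m + 2) (Sk W (m + 2)) (base m w₀), (∀ y, ℓ y = collapse (m + 1) w₀ 1 (L y)) →
        ℓ.cls = ε • ∑ j : Fin (m + 4), ((-1 : ℤ) ^ (j : ℕ)) •
          (aff (c ∘ Fin.succAbove j)).cl w₀ := by
  obtain ⟨L, h1, h2, h3, h4⟩ := sphere_sign w₀ c ε hε
  have hE : Continuous fun y : Fin (m + 2) → ℝ =>
      (⟨edgeP (c 0) v (2 * dnorm y - 1), edgeP_mem _ _ _ _ (by omega)⟩ : Sk W (m + 2)) := by
    refine Continuous.subtype_mk ?_ _
    have h5 : Continuous fun y : Fin (m + 2) → ℝ => clamp (2 * dnorm y - 1) :=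
      dclamp_cont.comp (by have := dnorm_cont (k := m + 2); fun_prop)
    unfold edgeP
    fun_prop
  have hS : Continuous fun y : Fin (m + 2) → ℝ => L (dscale y) := h1.comp dscale_cont
  refine ⟨fun y => if dnorm y ≤ 1 / 2 then L (dscale y) else
      ⟨edgeP (c 0) v (2 * dnorm y - 1), edgeP_mem _ _ _ _ (by omega)⟩, ?_, ?_, ?_, ?_⟩
  · refine Continuous.if_le hS hE dnorm_cont continuous_const fun y hy => ?_
    refine Subtype.ext ?_
    rw [h2 _ (dscale_off y hy.ge)]
    exact (edgeP_zero _ _ (by rw [hy]; norm_num)).symm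
  · intro y hy
    have h5 : 1 ≤ dnorm y := by
      by_contra hcon
      push Not at hcon
      apply hy
      intro i
      have h6 := dnorm_ge y i
      have h7 : |y i - 1 / 2| < 1 / 2 := by linarith
      rw [abs_lt] at h7
      constructor <;> linarith [h7.1, h7.2]
    simp only
    rw [if_neg (by linarith)]
    exact edgeP_one _ _ (by linarith)
  · intro y w hw
    simp only at hw
    split_ifs at hw with h5
    · exact Or.inl (h3 _ w hw)
    · rcases edgeP_spt _ _ _ w hw with h | h
      · exact Or.inl ⟨0, h.symm⟩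
      · exact Or.inr h
  · intro ℓ hℓ
    have hlo : ∀ y, y ∉ openCube (m + 2) → collapse (m + 1) w₀ 1 (L y) = base m w₀ := by
      intro y hy
      apply collapse_low
      rw [h2 y hy]
      exact vtx_mem_Sk _ _
    let ℓ' : ELoop (m + 2) (Sk W (m + 2)) (base m w₀) :=
      ⟨fun y => collapse (m + 1) w₀ 1 (L y), (collapse_cont w₀).comp h1, hlo⟩
    rw [← h4 ℓ' fun y => rfl]
    refine cls_scale ℓ' ℓ fun y => ?_
    show ℓ y = collapse (m + 1) w₀ 1 (L (dscale y))
    rw [hℓ]
    by_cases h5 : dnorm y ≤ 1 / 2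
    · simp only
      rw [if_pos h5]
    · simp only
      rw [if_neg h5, hlo _ (dscale_off y (not_le.1 h5).le)]
      exact collapse_low w₀ _ (edgeP_mem _ _ _ _ (by omega))

/-! ### the collar -/

/-- radial projection to the boundary of the cube -/
private noncomputable def bpt {k : ℕ} (y : Fin k → ℝ) : Fin k → ℝ :=
  fun i => 1 / 2 + (y i - 1 / 2) / max (dnorm y) (1 / 2)

/-- the time -/
private noncomputable def btime {k : ℕ} (y : Fin k → ℝ) : ℝ := clamp (2 - 2 * dnorm y)

/-- the point whose value is taken on the collar -/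
private noncomputable def cpt {k : ℕ} (y : Fin (k + 1) → ℝ) : Fin (k + 1) → ℝ :=
  Function.update (bpt y) 0 ((1 - btime y) * bpt y 0 + btime y * max 0 (2 * bpt y 0 - 1))

private theorem bpt_cont {k : ℕ} : Continuous (bpt (k := k)) := by
  refine continuous_pi fun i => ?_
  refine continuous_const.add (Continuous.div (by fun_prop)
    (dnorm_cont.max continuous_const) fun y => ?_)
  have : (1 : ℝ) / 2 ≤ max (dnorm y) (1 / 2) := le_max_right _ _
  linarith

private theorem btime_cont {k : ℕ} : Continuous (btime (k := k)) := by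
  unfold btime
  exact dclamp_cont.comp (by have := dnorm_cont (k := k); fun_prop)

private theorem cpt_cont {k : ℕ} : Continuous (cpt (k := k)) := by
  unfold cpt
  have h1 := bpt_cont (k := k + 1)
  have h2 := btime_cont (k := k + 1)
  fun_prop

private theorem bpt_abs {k : ℕ} (y : Fin k → ℝ) (i : Fin k) : |bpt y i - 1 / 2| ≤ 1 / 2 := by
  have h1 := dnorm_ge y i
  have h2 : (0 : ℝ) < max (dnorm y) (1 / 2) := lt_of_lt_of_le (by norm_num) (le_max_right _ _)
  have h3 : bpt y i - 1 / 2 = (y i - 1 / 2) / max (dnorm y) (1 / 2) := by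
    unfold bpt
    ring
  rw [h3, abs_div, abs_of_pos h2, div_le_iff₀ h2]
  have := le_max_left (dnorm y) (1 / 2)
  linarith

private theorem bpt_off {k : ℕ} (y : Fin k → ℝ) (hy : 1 / 2 ≤ dnorm y) :
    bpt y ∉ openCube k := by
  intro h
  have h2 : 0 < dnorm y := by linarith
  refine absurd (dnorm_lt y h2 fun i => ?_) (lt_irrefl _)
  have h3 := h i
  have h4 : bpt y i - 1 / 2 = (y i - 1 / 2) / dnorm y := by
    unfold bpt
    rw [max_eq_left hy]
    ring
  have h5 : |bpt y i - 1 / 2| < 1 / 2 := by
    rw [abs_lt]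
    constructor <;> linarith [h3.1, h3.2]
  rw [h4, abs_div, abs_of_pos h2, div_lt_iff₀ h2] at h5
  linarith

private theorem cpt_off {k : ℕ} (y : Fin (k + 1) → ℝ) (hy : 1 / 2 ≤ dnorm y) :
    cpt y ∉ openCube (k + 1) := by
  intro h
  apply bpt_off y hy
  intro i
  have h1 := h i
  unfold cpt at h1
  by_cases hi : i = 0
  · subst hi
    rw [Function.update_self] at h1
    have h2 := bpt_abs y 0
    rw [abs_le] at h2
    have h3 : 0 ≤ btime y := dclamp_nonneg _
    have h4 : btime y ≤ 1 := dclamp_le_one _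
    constructor
    · by_contra hcon
      have h5 : bpt y 0 = 0 := by linarith [h2.1]
      rw [h5] at h1
      norm_num at h1
    · by_contra hcon
      have h5 : bpt y 0 = 1 := by linarith [h2.2]
      rw [h5] at h1
      norm_num at h1
  · rwa [Function.update_of_ne hi] at h1

/-- on the boundary of the cube nothing changes -/
private theorem cpt_bdry {k : ℕ} (y : Fin (k + 1) → ℝ) (h : dnorm y = 1) : cpt y = y := by
  have h1 : bpt y = y := by
    funext i
    unfold bpt
    rw [h, max_eq_left (by norm_num)]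
    ring
  have h2 : btime y = 0 := by
    unfold btime clamp
    rw [h]
    norm_num
  unfold cpt
  rw [h1, h2, Function.update_eq_iff]
  refine ⟨by ring, fun x _ => rfl⟩

/-- on the boundary of the inner cube -/
private theorem cpt_inner {k : ℕ} (y : Fin (k + 1) → ℝ) (h : dnorm y = 1 / 2) :
    cpt y = Function.update (dscale y) 0 (max 0 (2 * dscale y 0 - 1)) := by
  have h1 : bpt y = dscale y := by
    funext i
    unfold bpt dscale
    rw [h, max_eq_left le_rfl]
    ring
  have h2 : btime y = 1 := by
    unfold btime clamp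
    rw [h]
    norm_num
  unfold cpt
  rw [h1, h2]
  congr 1
  ring

private theorem dnorm_cube {k : ℕ} (y : Fin k → ℝ) (hy : ∀ i, 0 ≤ y i ∧ y i ≤ 1)
    (ho : y ∉ openCube k) : dnorm y = 1 := by
  apply le_antisymm
  · unfold dnorm
    have : ‖fun i => y i - 1 / 2‖ ≤ 1 / 2 := by
      rw [pi_norm_le_iff_of_nonneg (by norm_num)]
      intro i
      rw [Real.norm_eq_abs, abs_le]
      constructor <;> linarith [(hy i).1, (hy i).2]
    linarith
  · by_contra hcon
    push Not at hcon
    apply ho
    intro i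
    have h6 := dnorm_ge y i
    have h7 : |y i - 1 / 2| < 1 / 2 := by linarith
    rw [abs_lt] at h7
    constructor <;> linarith [h7.1, h7.2]

/-- clamping the coordinates -/
private theorem dqmap_clamp (k : ℕ) (y : Fin k → ℝ) : qmap k (fun i => clamp (y i)) = qmap k y := by
  have h : ∀ t : ℝ, clamp (clamp t) = clamp t := fun t =>
    clamp_of_mem_descend (dclamp_nonneg t) (dclamp_le_one t)
  funext j
  unfold qmap
  simp only [h]

private theorem dqmap_first (k : ℕ) (y : Fin (k + 1) → ℝ) (h : clamp (y 0) = 0) :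
    qmap (k + 1) y 0 = 1 := by
  have h0 : ((0 : Fin (k + 1 + 1)) : ℕ) < k + 1 := by simp
  have h1 : (⟨((0 : Fin (k + 1 + 1)) : ℕ), h0⟩ : Fin (k + 1)) = 0 := by
    ext
    simp
  unfold qmap
  rw [Finset.prod_eq_one fun i _ => if_neg (by simp), dif_pos h0, h1, h]
  norm_num

/-! ### the insertion -/

/-- (C3) INSERTION of the sphere `∂c` in a disk map. First connect the vertex `v` to `c 0` by an
edge: `L'' y = L (1/2 + 2 (y - 1/2))` in the inner cube, the edge in the collar (`collapse 1`
sends the edge to the base point). Put `F = catFun 0 L'' (a ∘ qmap)` (the face `y_0 = 0` of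
`a ∘ qmap` is constant `v`), correct the boundary values by a collar
(`F' y = F (1/2 + 2 (y - 1/2))` in the inner cube `[1/4,3/4]^(m+2)`, and on the collar at height
`N ∈ [1/2,1]` over the boundary point `b` the value `a (qmap (b with b_0 replaced by
(1-s) b_0 + s max 0 (2 b_0 - 1)))`, `s = 2 - 2N`), and descend by `descend`. For `ε = -1` reflect
`L''` in one coordinate. -/
theorem insert_sphere (w₀ : W) (S : Finset W) (a : DiskMap m W) (v : W) (hv : v ∈ S)
    (ha0 : ∀ z : stdSimplex ℝ (Fin (m + 3)), z.1 0 = 1 → (a.toFun z : W → ℝ) = vtx v)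
    (haS : ∀ z, spt (a.toFun z : W → ℝ) ⊆ S)
    (c : Fin (m + 4) → W) (hc : ∀ i, c i ∈ S) (ε : ℤ) (hε : ε = 1 ∨ ε = -1) :
    ∃ a' : DiskMap m W, (∀ z : stdSimplex ℝ (Fin (m + 3)), (∃ i, z.1 i = 0) →
        a'.toFun z = a.toFun z) ∧
      (∀ z, spt (a'.toFun z : W → ℝ) ⊆ S) ∧
      a'.cl w₀ = a.cl w₀ + ε • ∑ j : Fin (m + 4), ((-1 : ℤ) ^ (j : ℕ)) •
        (aff (c ∘ Fin.succAbove j)).cl w₀ := by
  classical
  obtain ⟨L, h1, h2, h3, h4⟩ := sphere_conn w₀ c ε hε v
  -- the disk map on the cube
  let A : (Fin (m + 2) → ℝ) → Sk W (m + 2) := fun y => a.toFun ⟨qmap (m + 2) y, qmap_mem _ y⟩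
  have hA : Continuous A := a.cont.comp (Continuous.subtype_mk (continuous_qmap (m + 2)) _)
  have hA0 : ∀ y : Fin (m + 2) → ℝ, y 0 ≤ 0 → (A y : W → ℝ) = vtx v := by
    intro y hy
    apply ha0
    show qmap (m + 2) y 0 = 1
    have h5 : clamp (y 0) = 0 := by
      unfold clamp
      rw [min_eq_right (by linarith), max_eq_left hy]
    exact dqmap_first (m + 1) y h5
  have hAb : ∀ y : Fin (m + 2) → ℝ, y ∉ openCube (m + 2) → (A y : W → ℝ) ∈ Sk W (m + 1) :=
    fun y hy => a.bdry _ (qmap_bdry (m + 2) y hy (by omega))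
  -- the concatenation
  have hF0 : Continuous (catFun 0 L A) := by
    unfold catFun
    refine Continuous.if_le (h1.comp (by fun_prop)) (hA.comp (by fun_prop)) (by fun_prop)
      continuous_const fun y hy => ?_
    refine Subtype.ext ?_
    rw [h2, hA0]
    · rw [Function.update_self, hy]
      norm_num
    · intro h
      have := (h 0).2
      rw [Function.update_self, hy] at this
      norm_num at this
  -- with the collar
  let F : (Fin (m + 2) → ℝ) → Sk W (m + 2) := fun y =>
    if dnorm y ≤ 1 / 2 then catFun 0 L A (dscale y) else A (cpt y)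
  have hF : Continuous F := by
    refine Continuous.if_le (hF0.comp dscale_cont) (hA.comp cpt_cont) dnorm_cont
      continuous_const fun y hy => ?_
    rw [cpt_inner y hy]
    have h5 := dscale_off y hy.ge
    unfold catFun
    split_ifs with h6
    · refine Subtype.ext ?_
      rw [max_eq_left (by linarith), hA0 _ (by rw [Function.update_self]), h2]
      intro h
      apply h5
      intro i
      have h7 := h i
      by_cases hi : i = 0
      · subst hi
        rw [Function.update_self] at h7
        constructor <;> linarith [h7.1, h7.2]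
      · rwa [Function.update_of_ne hi] at h7
    · rw [max_eq_right (by linarith)]
  have hFb : ∀ y : Fin (m + 2) → ℝ, (∀ i, 0 ≤ y i ∧ y i ≤ 1) → y ∉ openCube (m + 2) →
      F y = A y := by
    intro y hy ho
    have h5 := dnorm_cube y hy ho
    show (if dnorm y ≤ 1 / 2 then catFun 0 L A (dscale y) else A (cpt y)) = A y
    rw [if_neg (by rw [h5]; norm_num), cpt_bdry y h5]
  have hAq : ∀ y y' : Fin (m + 2) → ℝ, qmap (m + 2) y = qmap (m + 2) y' → A y = A y' := by
    intro y y' h
    show a.toFun ⟨qmap (m + 2) y, qmap_mem _ y⟩ = a.toFun ⟨qmap (m + 2) y', qmap_mem _ y'⟩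
    congr 1
    exact Subtype.ext h
  obtain ⟨f, hf, hfF⟩ := descend (m + 2) F hF fun x x' hx hx' ho ho' h => by
    rw [hFb x hx ho, hFb x' hx' ho']
    exact hAq _ _ h
  have hbd : ∀ z : stdSimplex ℝ (Fin (m + 3)), (∃ i, z.1 i = 0) → f z = a.toFun z := by
    rintro z ⟨i, hi⟩
    obtain ⟨x, hx, hxz⟩ := qmap_surj (m + 2) z.1 z.2
    have hz : (⟨qmap (m + 2) x, qmap_mem _ x⟩ : stdSimplex ℝ (Fin (m + 3))) = z :=
      Subtype.ext hxz
    have ho : x ∉ openCube (m + 2) := by
      intro h
      have h5 : 0 < qmap (m + 2) x i := by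
        unfold qmap
        refine mul_pos (Finset.prod_pos fun j _ => ?_) ?_
        · split_ifs
          · rw [clamp_of_mem_descend (h j).1.le (h j).2.le]
            exact (h j).1
          · exact one_pos
        · split_ifs with h6
          · rw [clamp_of_mem_descend (h _).1.le (h _).2.le]
            linarith [(h ⟨i.val, h6⟩).2]
          · exact one_pos
      rw [hxz, hi] at h5
      exact lt_irrefl _ h5
    rw [← hz, hfF x hx, hFb x hx ho]
  refine ⟨⟨f, hf, fun z hz => ?_⟩, hbd, fun z => ?_, ?_⟩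
  · rw [hbd z hz]
    exact a.bdry z hz
  · obtain ⟨x, hx, hxz⟩ := qmap_surj (m + 2) z.1 z.2
    have hz : (⟨qmap (m + 2) x, qmap_mem _ x⟩ : stdSimplex ℝ (Fin (m + 3))) = z :=
      Subtype.ext hxz
    show spt (f z : W → ℝ) ⊆ S
    rw [← hz, hfF x hx]
    have hL : ∀ y, spt (L y : W → ℝ) ⊆ S := by
      intro y w hw
      rcases h3 y w hw with ⟨i, hi⟩ | hi
      · rw [← hi]
        exact hc i
      · rw [hi]
        exact hv
    show spt ((if dnorm x ≤ 1 / 2 then catFun 0 L A (dscale x) else A (cpt x) :
      Sk W (m + 2)) : W → ℝ) ⊆ S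
    unfold catFun
    split_ifs
    · exact hL _
    · exact haS _
    · exact haS _
  · -- the class
    have hlo : ∀ y, y ∉ openCube (m + 2) → collapse (m + 1) w₀ 1 (L y) = base m w₀ := by
      intro y hy
      apply collapse_low
      rw [h2 y hy]
      exact vtx_mem_Sk _ _
    let ℓ : ELoop (m + 2) (Sk W (m + 2)) (base m w₀) :=
      ⟨fun y => collapse (m + 1) w₀ 1 (L y), (collapse_cont w₀).comp h1, hlo⟩
    have e1 : ℓ.cls = ε • ∑ j : Fin (m + 4), ((-1 : ℤ) ^ (j : ℕ)) •
        (aff (c ∘ Fin.succAbove j)).cl w₀ := h4 ℓ fun y => rfl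
    have e2 := cls_cat 0 ℓ (a.loop w₀)
    rw [← e1]
    refine ((cls_scale (ELoop.cat 0 ℓ (a.loop w₀)) _ fun y => ?_).trans e2).trans (add_comm _ _)
    show collapse (m + 1) w₀ 1 (f ⟨qmap (m + 2) y, qmap_mem _ y⟩) =
      ELoop.cat 0 ℓ (a.loop w₀) (dscale y)
    have e3 : f ⟨qmap (m + 2) y, qmap_mem _ y⟩ = F fun i => clamp (y i) := by
      rw [← hfF _ fun i => ⟨dclamp_nonneg _, dclamp_le_one _⟩]
      congr 1
      exact Subtype.ext (dqmap_clamp _ y).symm
    rw [e3]
    by_cases h5 : dnorm (fun i => clamp (y i)) ≤ 1 / 2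
    · have h6 : (fun i => clamp (y i)) = y := by
        funext i
        have h7 := dnorm_ge (fun i => clamp (y i)) i
        have h8 : |clamp (y i) - 1 / 2| ≤ 1 / 4 := by linarith
        rw [abs_le] at h8
        rcases le_or_gt (y i) 0 with h9 | h9
        · exfalso
          have : clamp (y i) = 0 := by
            unfold clamp
            rw [min_eq_right (by linarith), max_eq_left h9]
          linarith [h8.1]
        · rcases le_or_gt (y i) 1 with h10 | h10
          · exact clamp_of_mem_descend h9.le h10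
          · exfalso
            have : clamp (y i) = 1 := by
              unfold clamp
              rw [min_eq_left h10.le, max_eq_right zero_le_one]
            linarith [h8.2]
      rw [h6] at h5 ⊢
      show collapse (m + 1) w₀ 1
        (if dnorm y ≤ 1 / 2 then catFun 0 L A (dscale y) else A (cpt y)) = _
      rw [if_pos h5]
      show _ = catFun 0 ℓ (a.loop w₀) (dscale y)
      unfold catFun
      split_ifs
      · rfl
      · rfl
    · show collapse (m + 1) w₀ 1
        (if dnorm (fun i => clamp (y i)) ≤ 1 / 2 then catFun 0 L A (dscale fun i => clamp (y i))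
          else A (cpt fun i => clamp (y i))) = _
      rw [if_neg h5, (ELoop.cat 0 ℓ (a.loop w₀)).off]
      · exact collapse_low w₀ _ (hAb _ (cpt_off _ (not_le.1 h5).le))
      · intro h
        apply h5
        have h6 : (fun i => clamp (y i)) = y := by
          funext i
          have := h i
          unfold dscale at this
          exact clamp_of_mem_descend (by linarith [this.1]) (by linarith [this.2])
        rw [h6]
        refine (dnorm_lt y (r := 1 / 2) (by norm_num) fun i => ?_).le
        have := h i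
        unfold dscale at this
        have h7 : |y i - 1 / 2| < 1 / 4 := by
          rw [abs_lt]
          constructor <;> linarith [this.1, this.2]
        linarith

end Vale.Agent.P093.T
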