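import Vale.Agent.P093.T.DiskDef
import Vale.Agent.P093.T.Hat

/-!
The boundary of a simplex as a loop.
-/

open Topology.Homotopy Set
open scoped unitInterval Topology

namespace Vale.Agent.P093.T

variable {W : Type*} [Fintype W] {m : ℕ}

/-! ### The affine map -/

/-- the point of the simplex on `W` with barycentric coordinates `z` in the list `c` -/
noncomputable def dsAff {N : ℕ} (c : Fin N → W) (z : Fin N → ℝ) : W → ℝ :=
  fun w => ∑ i, z i * vtx (c i) w

omit [Fintype W] in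
theorem ds_vtx_eq (v : W) : (vtx v : W → ℝ) v = 1 := by
  classical
  unfold vtx
  simp

omit [Fintype W] in
theorem ds_vtx_ne {v w : W} (h : w ≠ v) : (vtx v : W → ℝ) w = 0 := by
  classical
  unfold vtx
  simp [h]

omit [Fintype W] in
theorem ds_vtx_nonneg (v w : W) : 0 ≤ (vtx v : W → ℝ) w := by
  by_cases h : w = v
  · subst h
    rw [ds_vtx_eq]
    exact zero_le_one
  · rw [ds_vtx_ne h]

theorem ds_vtx_sum (v : W) : ∑ w, (vtx v : W → ℝ) w = 1 := by
  classical
  unfold vtx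
  simp

omit [Fintype W] in
theorem dsAff_continuous {N : ℕ} (c : Fin N → W) : Continuous (dsAff c) := by
  unfold dsAff
  fun_prop

omit [Fintype W] in
theorem dsAff_insertNth {N : ℕ} (c : Fin (N + 1) → W) (j : Fin (N + 1)) (z : Fin N → ℝ) :
    dsAff c (Fin.insertNth j (0 : ℝ) z) = dsAff (c ∘ Fin.succAbove j) z := by
  funext w
  unfold dsAff
  rw [Fin.sum_univ_succAbove _ j]
  simp

theorem dsAff_mem {N : ℕ} (c : Fin N → W) {z : Fin N → ℝ} (hz : z ∈ stdSimplex ℝ (Fin N)) :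
    dsAff c z ∈ stdSimplex ℝ W := by
  refine ⟨fun w => Finset.sum_nonneg fun i _ => mul_nonneg (hz.1 i) (ds_vtx_nonneg _ _), ?_⟩
  unfold dsAff
  rw [Finset.sum_comm]
  simp_rw [← Finset.mul_sum, ds_vtx_sum, mul_one]
  exact hz.2

theorem ds_mem_spt {N : ℕ} (c : Fin N → W) (z : Fin N → ℝ) {w : W} (hw : w ∈ spt (dsAff c z)) :
    ∃ i, z i ≠ 0 ∧ c i = w := by
  classical
  unfold spt at hw
  rw [Finset.mem_filter] at hw
  by_contra hcon
  push Not at hcon
  apply hw.2
  unfold dsAff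
  refine Finset.sum_eq_zero fun i _ => ?_
  by_cases hi : z i = 0
  · rw [hi, zero_mul]
  · rw [ds_vtx_ne (hcon i hi).symm, mul_zero]

theorem ds_card_spt {N : ℕ} (c : Fin N → W) (z : Fin N → ℝ) (J : Finset (Fin N))
    (hJ : ∀ j ∈ J, z j = 0) : (spt (dsAff c z)).card ≤ N - J.card := by
  classical
  have h1 : spt (dsAff c z) ⊆ (Finset.univ \ J).image c := by
    intro w hw
    obtain ⟨i, hi, rfl⟩ := ds_mem_spt c z hw
    refine Finset.mem_image_of_mem c ?_
    rw [Finset.mem_sdiff]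
    exact ⟨Finset.mem_univ _, fun h => hi (hJ i h)⟩
  refine (Finset.card_le_card h1).trans (Finset.card_image_le.trans ?_)
  rw [Finset.card_sdiff_of_subset (Finset.subset_univ J), Finset.card_univ, Fintype.card_fin]

theorem dsAff_mem_one (c : Fin (m + 4) → W) {z : Fin (m + 4) → ℝ}
    (hz : z ∈ stdSimplex ℝ (Fin (m + 4))) (h : ∃ j, z j = 0) : dsAff c z ∈ Sk W (m + 2) := by
  obtain ⟨j, hj⟩ := h
  refine ⟨dsAff_mem c hz, ?_⟩
  have := ds_card_spt c z {j} (by simpa using hj)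
  rw [Finset.card_singleton] at this
  omega

theorem dsAff_mem_two (c : Fin (m + 4) → W) {z : Fin (m + 4) → ℝ}
    (hz : z ∈ stdSimplex ℝ (Fin (m + 4))) {j j' : Fin (m + 4)} (hjj : j ≠ j') (hj : z j = 0)
    (hj' : z j' = 0) : dsAff c z ∈ Sk W (m + 1) := by
  refine ⟨dsAff_mem c hz, ?_⟩
  have := ds_card_spt c z {j, j'} (by
    intro i hi
    rw [Finset.mem_insert, Finset.mem_singleton] at hi
    rcases hi with rfl | rfl <;> assumption)
  rw [Finset.card_pair hjj] at this
  omega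

/-! ### Clamping -/

theorem ds_clamp_mem (t : ℝ) : 0 ≤ clamp t ∧ clamp t ≤ 1 := by
  unfold clamp
  refine ⟨le_max_left _ _, max_le zero_le_one (min_le_left _ _)⟩

theorem ds_clamp_of_mem {t : ℝ} (h0 : 0 ≤ t) (h1 : t ≤ 1) : clamp t = t := by
  unfold clamp
  rw [min_eq_right h1, max_eq_right h0]

theorem ds_clamp_of_le {t : ℝ} (h0 : t ≤ 0) : clamp t = 0 := by
  unfold clamp
  rw [min_eq_right (h0.trans zero_le_one), max_eq_left h0]

theorem ds_clamp_of_ge {t : ℝ} (h0 : 1 ≤ t) : clamp t = 1 := by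
  unfold clamp
  rw [min_eq_left h0, max_eq_right zero_le_one]

theorem ds_clamp_clamp (t : ℝ) : clamp (clamp t) = clamp t :=
  ds_clamp_of_mem (ds_clamp_mem t).1 (ds_clamp_mem t).2

theorem ds_clamp_continuous : Continuous clamp := by
  unfold clamp
  fun_prop

/-- clamping all coordinates -/
noncomputable def dsCl {k : ℕ} (x : Fin k → ℝ) : Fin k → ℝ := fun i => clamp (x i)

theorem dsCl_continuous {k : ℕ} : Continuous (dsCl (k := k)) :=
  continuous_pi fun i => ds_clamp_continuous.comp (continuous_apply i)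

theorem ds_qmap_cl (k : ℕ) (x : Fin k → ℝ) : qmap k (dsCl x) = qmap k x := by
  funext j
  unfold qmap dsCl
  simp only [ds_clamp_clamp]

theorem dsCl_not_mem {k : ℕ} {x : Fin k → ℝ} (hx : x ∉ openCube k) : dsCl x ∉ openCube k := by
  intro h
  apply hx
  intro i
  have hi := h i
  unfold dsCl at hi
  constructor
  · by_contra hcon
    rw [ds_clamp_of_le (not_lt.1 hcon)] at hi
    exact lt_irrefl _ hi.1
  · by_contra hcon
    rw [ds_clamp_of_ge (not_lt.1 hcon)] at hi
    exact lt_irrefl _ hi.2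

theorem dsCl_of_mem {k : ℕ} {x : Fin k → ℝ} (hx : x ∈ openCube k) : dsCl x = x := by
  funext i
  exact ds_clamp_of_mem (hx i).1.le (hx i).2.le

theorem ds_side_clamp (ε : Bool) : clamp (side ε) = side ε := by
  cases ε
  · exact ds_clamp_of_le (by simp [side])
  · exact ds_clamp_of_ge (by simp [side])

theorem dsCl_insertNth {k : ℕ} (i : Fin (k + 1)) (ε : Bool) (y : Fin k → ℝ) :
    dsCl (Fin.insertNth i (side ε) y : Fin (k + 1) → ℝ) = Fin.insertNth i (side ε) (dsCl y) := by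
  funext j
  refine Fin.succAboveCases i ?_ (fun l => ?_) j
  · unfold dsCl
    rw [Fin.insertNth_apply_same, Fin.insertNth_apply_same, ds_side_clamp]
  · unfold dsCl
    rw [Fin.insertNth_apply_succAbove, Fin.insertNth_apply_succAbove]

/-- on the face `x_0 = 0` the map `qmap` is constant -/
theorem ds_qmap_zero (k : ℕ) (x : Fin (k + 1) → ℝ) (h : clamp (x 0) = 0) :
    qmap (k + 1) x = Pi.single 0 1 := by
  funext j
  unfold qmap
  by_cases hj : j = 0
  · subst hj
    rw [Pi.single_eq_same]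
    have h1 : ∏ i : Fin (k + 1), (if i.val < (0 : Fin (k + 1 + 1)).val then clamp (x i) else 1) = 1 := by
      refine Finset.prod_eq_one fun i _ => ?_
      simp
    rw [h1, one_mul]
    have h2 : (0 : Fin (k + 1 + 1)).val < k + 1 := by simp
    rw [dif_pos h2]
    have h3 : (⟨(0 : Fin (k + 1 + 1)).val, h2⟩ : Fin (k + 1)) = 0 := rfl
    rw [h3, h, sub_zero]
  · rw [Pi.single_eq_of_ne hj]
    have h1 : ∏ i : Fin (k + 1), (if i.val < j.val then clamp (x i) else 1) = 0 := by
      refine Finset.prod_eq_zero (Finset.mem_univ 0) ?_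
      have h2 : (0 : Fin (k + 1)).val < j.val := by
        have : j.val ≠ 0 := fun h => hj (Fin.ext h)
        show 0 < j.val
        omega
      rw [if_pos h2, h]
    rw [h1, zero_mul]

/-! ### The radial retraction -/

/-- the gauge of the retraction -/
noncomputable def dsM (x : Fin (m + 3) → ℝ) : ℝ :=
  max ((1 + x 0) / 2) (2 * ‖fun i : Fin (m + 2) => x i.succ - 1 / 2‖)

/-- the retraction of the cube to the boundary without the face `x_0 = 0` -/
noncomputable def dsR (x : Fin (m + 3) → ℝ) : Fin (m + 3) → ℝ :=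
  Fin.cons ((1 + x 0) / dsM x - 1) fun i : Fin (m + 2) => 1 / 2 + (x i.succ - 1 / 2) / dsM x

theorem dsM_pos {x : Fin (m + 3) → ℝ} (h : 0 ≤ x 0) : 0 < dsM x := by
  unfold dsM
  exact lt_max_of_lt_left (by linarith)

theorem dsM_continuous : Continuous (dsM (m := m)) := by
  unfold dsM
  fun_prop

theorem dsR_not_mem {x : Fin (m + 3) → ℝ} (h : 0 ≤ x 0) : dsR x ∉ openCube (m + 3) := by
  intro hR
  have hM := dsM_pos h
  have h1 : (1 + x 0) / 2 < dsM x := by
    have h2 := (hR 0).2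
    unfold dsR at h2
    rw [Fin.cons_zero] at h2
    have h3 : (1 + x 0) / dsM x < 2 := by linarith
    rw [div_lt_iff₀ hM] at h3
    linarith
  have h2 : 2 * ‖fun i : Fin (m + 2) => x i.succ - 1 / 2‖ < dsM x := by
    have h3 : ‖fun i : Fin (m + 2) => x i.succ - 1 / 2‖ < dsM x / 2 := by
      rw [pi_norm_lt_iff (by linarith)]
      intro i
      have h4 := hR i.succ
      unfold dsR at h4
      rw [Fin.cons_succ] at h4
      rw [Real.norm_eq_abs, abs_lt]
      have h5 : -(1 / 2) < (x i.succ - 1 / 2) / dsM x := by linarith [h4.1]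
      have h6 : (x i.succ - 1 / 2) / dsM x < 1 / 2 := by linarith [h4.2]
      rw [lt_div_iff₀ hM] at h5
      rw [div_lt_iff₀ hM] at h6
      constructor <;> linarith
    linarith
  exact lt_irrefl _ (max_lt h1 h2)

theorem dsM_eq_one {x : Fin (m + 3) → ℝ} (hx : ∀ i, 0 ≤ x i ∧ x i ≤ 1)
    (h : x 0 = 1 ∨ ∃ i : Fin (m + 2), x i.succ = 0 ∨ x i.succ = 1) : dsM x = 1 := by
  have hle : ‖fun i : Fin (m + 2) => x i.succ - 1 / 2‖ ≤ 1 / 2 := by
    rw [pi_norm_le_iff_of_nonneg (by norm_num)]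
    intro i
    have := hx i.succ
    rw [Real.norm_eq_abs, abs_le]
    constructor <;> linarith [this.1, this.2]
  unfold dsM
  refine le_antisymm (max_le ?_ (by linarith)) ?_
  · linarith [(hx 0).2]
  · rcases h with h | ⟨i, hi⟩
    · refine le_max_of_le_left ?_
      rw [h]
      norm_num
    · refine le_max_of_le_right ?_
      have h1 := norm_le_pi_norm (fun i : Fin (m + 2) => x i.succ - 1 / 2) i
      have h2 : ‖x i.succ - 1 / 2‖ = 1 / 2 := by
        rw [Real.norm_eq_abs]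
        rcases hi with hi | hi <;> rw [hi] <;> norm_num
      have h3 : ‖x i.succ - 1 / 2‖ ≤ ‖fun i : Fin (m + 2) => x i.succ - 1 / 2‖ := h1
      rw [h2] at h3
      linarith

theorem dsR_fix {x : Fin (m + 3) → ℝ} (hx : ∀ i, 0 ≤ x i ∧ x i ≤ 1)
    (h : x 0 = 1 ∨ ∃ i : Fin (m + 2), x i.succ = 0 ∨ x i.succ = 1) : dsR x = x := by
  unfold dsR
  rw [dsM_eq_one hx h]
  funext j
  refine Fin.cases ?_ (fun l => ?_) j
  · rw [Fin.cons_zero]
    ring
  · rw [Fin.cons_succ]
    ring

theorem dsR_zero_of_not_mem {y : Fin (m + 2) → ℝ} (hy : y ∉ openCube (m + 2)) :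
    clamp (dsR (Fin.cons 0 y : Fin (m + 3) → ℝ) 0) = 0 := by
  have hM : 1 ≤ dsM (Fin.cons 0 y : Fin (m + 3) → ℝ) := by
    unfold dsM
    refine le_max_of_le_right ?_
    simp only [Fin.cons_succ]
    unfold openCube at hy
    rw [Set.mem_ofPred_eq] at hy
    push Not at hy
    obtain ⟨i, hi⟩ := hy
    have h1 : ‖y i - 1 / 2‖ ≤ ‖fun i : Fin (m + 2) => y i - 1 / 2‖ :=
      norm_le_pi_norm (fun i : Fin (m + 2) => y i - 1 / 2) i
    have h2 : 1 / 2 ≤ ‖y i - 1 / 2‖ := by
      rw [Real.norm_eq_abs]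
      by_cases h0 : 0 < y i
      · have := hi h0
        exact le_trans (by linarith) (le_abs_self _)
      · exact le_trans (by linarith [not_lt.1 h0]) (neg_le_abs _)
    linarith
  apply ds_clamp_of_le
  unfold dsR
  rw [Fin.cons_zero, Fin.cons_zero]
  have h1 : (1 + 0) / dsM (Fin.cons 0 y : Fin (m + 3) → ℝ) ≤ 1 := by
    rw [div_le_one (by linarith)]
    linarith
  linarith

theorem dsR_cl_continuous : Continuous fun x : Fin (m + 3) → ℝ => dsR (dsCl x) := by
  have hM : Continuous fun x : Fin (m + 3) → ℝ => dsM (dsCl x) :=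
    dsM_continuous.comp dsCl_continuous
  have hM0 : ∀ x : Fin (m + 3) → ℝ, dsM (dsCl x) ≠ 0 := fun x =>
    (dsM_pos (ds_clamp_mem (x 0)).1).ne'
  refine continuous_pi fun j => ?_
  refine Fin.cases ?_ (fun l => ?_) j
  · unfold dsR
    simp only [Fin.cons_zero]
    exact ((continuous_const.add ((continuous_apply 0).comp dsCl_continuous)).div hM hM0).sub
      continuous_const
  · unfold dsR
    simp only [Fin.cons_succ]
    exact continuous_const.add ((((continuous_apply l.succ).comp dsCl_continuous).sub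
      continuous_const).div hM hM0)

/-! ### The map of the cube -/

/-- The map of the cube to the `(m+2)`-skeleton. -/
noncomputable def dsB (c : Fin (m + 4) → W) (x : Fin (m + 3) → ℝ) : Sk W (m + 2) :=
  ⟨dsAff c (qmap (m + 3) (dsR (dsCl x))), dsAff_mem_one c (qmap_mem _ _)
    (qmap_bdry _ _ (dsR_not_mem (ds_clamp_mem (x 0)).1) (by omega))⟩

theorem dsB_continuous (c : Fin (m + 4) → W) : Continuous (dsB c) :=
  Continuous.subtype_mk ((dsAff_continuous c).comp
    ((continuous_qmap _).comp dsR_cl_continuous)) _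

theorem dsB_off (c : Fin (m + 4) → W) {y : Fin (m + 2) → ℝ} (hy : y ∉ openCube (m + 2)) :
    (dsB c (Fin.cons 0 y) : W → ℝ) = vtx (c 0) := by
  have h1 : dsCl (Fin.cons 0 y : Fin (m + 3) → ℝ) = Fin.cons 0 (dsCl y) := by
    funext j
    refine Fin.cases ?_ (fun l => ?_) j
    · unfold dsCl
      rw [Fin.cons_zero, Fin.cons_zero]
      exact ds_clamp_of_le le_rfl
    · unfold dsCl
      rw [Fin.cons_succ, Fin.cons_succ]
  show dsAff c (qmap (m + 3) (dsR (dsCl (Fin.cons 0 y : Fin (m + 3) → ℝ)))) = vtx (c 0)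
  rw [h1, ds_qmap_zero _ _ (dsR_zero_of_not_mem (dsCl_not_mem hy))]
  funext w
  unfold dsAff
  rw [Finset.sum_eq_single 0]
  · simp
  · intro i _ hi
    rw [Pi.single_eq_of_ne hi, zero_mul]
  · intro h
    exact absurd (Finset.mem_univ _) h

theorem dsB_cons_cl (c : Fin (m + 4) → W) (y : Fin (m + 2) → ℝ) :
    dsB c (Fin.cons 0 (dsCl y)) = dsB c (Fin.cons 0 y) := by
  apply Subtype.ext
  by_cases hy : y ∈ openCube (m + 2)
  · rw [dsCl_of_mem hy]
  · rw [dsB_off c hy, dsB_off c (dsCl_not_mem hy)]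

theorem dsB_face (c : Fin (m + 4) → W) (x : Fin (m + 3) → ℝ)
    (h : dsCl x 0 = 1 ∨ ∃ i : Fin (m + 2), dsCl x i.succ = 0 ∨ dsCl x i.succ = 1) :
    (dsB c x : W → ℝ) = dsAff c (qmap (m + 3) x) := by
  show dsAff c (qmap (m + 3) (dsR (dsCl x))) = _
  rw [dsR_fix (x := dsCl x) (fun i => ds_clamp_mem (x i)) h, ds_qmap_cl]

theorem aff_toFun_val (s : Fin (m + 3) → W) (z : stdSimplex ℝ (Fin (m + 3))) :
    ((aff s).toFun z : W → ℝ) = dsAff s z.1 := rfl

theorem dsB_one (c : Fin (m + 4) → W) (i : Fin (m + 3)) (y : Fin (m + 2) → ℝ) :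
    dsB c (Fin.insertNth i 1 y) =
      (aff (c ∘ Fin.succAbove i.castSucc)).toFun ⟨qmap (m + 2) y, qmap_mem _ y⟩ := by
  apply Subtype.ext
  rw [aff_toFun_val, dsB_face, qmap_one, dsAff_insertNth]
  have h1 : clamp 1 = 1 := ds_clamp_of_ge le_rfl
  refine Fin.cases ?_ (fun l => ?_) i
  · left
    unfold dsCl
    rw [Fin.insertNth_apply_same, h1]
  · right
    refine ⟨l, Or.inr ?_⟩
    unfold dsCl
    rw [Fin.insertNth_apply_same, h1]

theorem dsB_last (c : Fin (m + 4) → W) (y : Fin (m + 2) → ℝ) :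
    dsB c (Fin.insertNth (Fin.last (m + 2)) 0 y) =
      (aff (c ∘ Fin.succAbove (Fin.last (m + 3)))).toFun ⟨qmap (m + 2) y, qmap_mem _ y⟩ := by
  apply Subtype.ext
  rw [aff_toFun_val, dsB_face, qmap_last, dsAff_insertNth]
  have h1 : clamp 0 = 0 := ds_clamp_of_le le_rfl
  right
  refine ⟨Fin.last (m + 1), Or.inl ?_⟩
  rw [Fin.succ_last]
  unfold dsCl
  rw [Fin.insertNth_apply_same, h1]

theorem dsB_zero (c : Fin (m + 4) → W) (i : Fin (m + 3)) (h0 : i ≠ 0) (hl : i ≠ Fin.last _)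
    (y : Fin (m + 2) → ℝ) : (dsB c (Fin.insertNth i 0 y) : W → ℝ) ∈ Sk W (m + 1) := by
  obtain ⟨l, rfl⟩ := Fin.exists_succ_eq.2 h0
  rw [dsB_face]
  · have h1 := qmap_zero (m + 2) l.succ hl y
    refine dsAff_mem_two c (qmap_mem _ _) (j := Fin.last (m + 3))
      (j' := Fin.castSucc (Fin.last (m + 2))) ?_ h1.1 h1.2
    intro h
    have := congrArg Fin.val h
    simp at this
  · right
    refine ⟨l, Or.inl ?_⟩
    unfold dsCl
    rw [Fin.insertNth_apply_same]
    exact ds_clamp_of_le le_rfl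

/-- the faces of the cube map after the collapse -/
noncomputable def dsG (w₀ : W) (c : Fin (m + 4) → W)
    (ℓ : ELoop (m + 2) (Sk W (m + 2)) (base m w₀)) (i : Fin (m + 3)) (ε : Bool) :
    ELoop (m + 2) (Sk W (m + 2)) (base m w₀) :=
  if ε = true then (aff (c ∘ Fin.succAbove i.castSucc)).loop w₀ else
    if i = 0 then ℓ else if i = Fin.last _ then
      (aff (c ∘ Fin.succAbove (Fin.last (m + 3)))).loop w₀ else ELoop.const _ _

theorem dsG_true (w₀ : W) (c : Fin (m + 4) → W) (ℓ : ELoop (m + 2) (Sk W (m + 2)) (base m w₀))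
    (i : Fin (m + 3)) : dsG w₀ c ℓ i true = (aff (c ∘ Fin.succAbove i.castSucc)).loop w₀ := by
  unfold dsG
  rw [if_pos rfl]

theorem dsG_zero (w₀ : W) (c : Fin (m + 4) → W) (ℓ : ELoop (m + 2) (Sk W (m + 2)) (base m w₀)) :
    dsG w₀ c ℓ 0 false = ℓ := by
  unfold dsG
  rw [if_neg Bool.false_ne_true, if_pos rfl]

theorem dsG_last (w₀ : W) (c : Fin (m + 4) → W) (ℓ : ELoop (m + 2) (Sk W (m + 2)) (base m w₀)) :
    dsG w₀ c ℓ (Fin.last _) false = (aff (c ∘ Fin.succAbove (Fin.last (m + 3)))).loop w₀ := by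
  have h : (Fin.last (m + 2) : Fin (m + 3)) ≠ 0 := by
    intro h
    have := congrArg Fin.val h
    simp at this
  unfold dsG
  rw [if_neg Bool.false_ne_true, if_neg h, if_pos rfl]

theorem dsG_other (w₀ : W) (c : Fin (m + 4) → W) (ℓ : ELoop (m + 2) (Sk W (m + 2)) (base m w₀))
    {i : Fin (m + 3)} (h0 : i ≠ 0) (hl : i ≠ Fin.last _) :
    dsG w₀ c ℓ i false = ELoop.const _ _ := by
  unfold dsG
  rw [if_neg Bool.false_ne_true, if_neg h0, if_neg hl]

theorem dsG_ext (w₀ : W) (c : Fin (m + 4) → W) (ℓ : ELoop (m + 2) (Sk W (m + 2)) (base m w₀))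
    (hℓ : ∀ y, ℓ y = collapse (m + 1) w₀ 1 (dsB c (Fin.cons 0 y))) : Ext (dsG w₀ c ℓ) := by
  obtain ⟨hcc, -, hc1⟩ := (exists_collapse (m + 1) w₀).choose_spec
  have hc1' : ∀ y : Sk W (m + 2), (y : W → ℝ) ∈ Sk W (m + 1) →
      collapse (m + 1) w₀ 1 y = base m w₀ := fun y hy => Subtype.ext (hc1 y hy)
  have hcont : Continuous (collapse (m + 1) w₀ 1 : Sk W (m + 2) → Sk W (m + 2)) :=
    hcc.comp (by fun_prop : Continuous fun y : Sk W (m + 2) => ((1 : ℝ), y))
  have ef : side false = 0 := by simp [side]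
  have et : side true = 1 := by simp [side]
  refine ⟨fun x => collapse (m + 1) w₀ 1 (dsB c x), hcont.comp (dsB_continuous c), ?_⟩
  intro i ε y
  cases ε
  · by_cases h0 : i = 0
    · subst h0
      rw [dsG_zero, hℓ y]
      show collapse (m + 1) w₀ 1 (dsB c (Fin.insertNth 0 (side false) y)) = _
      rw [ef, Fin.insertNth_zero']
    · by_cases hl : i = Fin.last _
      · subst hl
        rw [dsG_last]
        show collapse (m + 1) w₀ 1 (dsB c (Fin.insertNth (Fin.last (m + 2)) (side false) y)) =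
          collapse (m + 1) w₀ 1 _
        rw [ef, dsB_last]
      · rw [dsG_other w₀ c ℓ h0 hl]
        show collapse (m + 1) w₀ 1 (dsB c (Fin.insertNth i (side false) y)) = base m w₀
        rw [ef]
        exact hc1' _ (dsB_zero c i h0 hl y)
  · rw [dsG_true]
    show collapse (m + 1) w₀ 1 (dsB c (Fin.insertNth i (side true) y)) =
          collapse (m + 1) w₀ 1 _
    rw [et, dsB_one]

/-- A sphere as a loop: for a list `c` of `m + 4` vertices in `S` there is a continuous map of the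
cube to the `(m+2)`-skeleton of `S`, equal to the vertex `c 0` off the open cube, which after
`collapse 1` has the class of the boundary of `c`. Proof: `B = (affine map of c) ∘ qmap` on the
boundary of the `(m+3)`-cube without the face `x_0 = 0`, pulled back by the retraction
`r(x_0, x') = ((1+x_0)/M - 1, 1/2 + (x' - 1/2)/M)`, `M = max ((1+x_0)/2) (2 |x' - 1/2|_∞)`, and
restricted to `x_0 = 0`; class by `hat` applied to `collapse 1 ∘ B ∘ r`. -/
theorem exists_sphere (w₀ : W) (c : Fin (m + 4) → W) :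
    ∃ L : (Fin (m + 2) → ℝ) → Sk W (m + 2), Continuous L ∧
      (∀ y, y ∉ openCube (m + 2) → (L y : W → ℝ) = vtx (c 0)) ∧
      (∀ y, ∀ w ∈ spt (L y : W → ℝ), ∃ i, c i = w) ∧
      ∀ ℓ : ELoop (m + 2) (Sk W (m + 2)) (base m w₀), (∀ y, ℓ y = collapse (m + 1) w₀ 1 (L y)) →
        ℓ.cls = ∑ j : Fin (m + 4), ((-1 : ℤ) ^ (j : ℕ)) • (aff (c ∘ Fin.succAbove j)).cl w₀ := by
  have hcons : Continuous fun y : Fin (m + 2) → ℝ => (Fin.cons 0 y : Fin (m + 3) → ℝ) := by
    refine continuous_pi fun j => ?_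
    refine Fin.cases ?_ (fun l => ?_) j
    · simp only [Fin.cons_zero]
      exact continuous_const
    · simp only [Fin.cons_succ]
      exact continuous_apply l
  refine ⟨fun y => dsB c (Fin.cons 0 y), (dsB_continuous c).comp hcons,
    fun y hy => dsB_off c hy, fun y w hw => ?_, fun ℓ hℓ => ?_⟩
  · obtain ⟨i, -, hi⟩ := ds_mem_spt c _ hw
    exact ⟨i, hi⟩
  · have hsum := (hat (dsG w₀ c ℓ)).1 (dsG_ext w₀ c ℓ hℓ)
    have hne : (0 : Fin (m + 3)) ≠ Fin.last (m + 2) := by
      intro h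
      have := congrArg Fin.val h
      simp at this
    have h1 : ∑ i : Fin (m + 3), ((-1 : ℤ) ^ (i : ℕ)) • (dsG w₀ c ℓ i false).cls =
        ℓ.cls + ((-1 : ℤ) ^ (m + 2)) • (aff (c ∘ Fin.succAbove (Fin.last (m + 3)))).cl w₀ := by
      rw [Finset.sum_eq_add (0 : Fin (m + 3)) (Fin.last (m + 2)) hne]
      · rw [dsG_zero, dsG_last, Fin.val_zero, pow_zero, one_smul, Fin.val_last]
        rfl
      · intro i _ hi
        rw [dsG_other w₀ c ℓ hi.1 hi.2, cls_const, smul_zero]
      · intro h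
        exact absurd (Finset.mem_univ _) h
      · intro h
        exact absurd (Finset.mem_univ _) h
    have h2 : ∑ i : Fin (m + 3), ((-1 : ℤ) ^ (i : ℕ)) • (dsG w₀ c ℓ i true).cls =
        ∑ i : Fin (m + 3), ((-1 : ℤ) ^ (i : ℕ)) •
          (aff (c ∘ Fin.succAbove i.castSucc)).cl w₀ := by
      refine Finset.sum_congr rfl fun i _ => ?_
      rw [dsG_true]
      rfl
    unfold faceSum at hsum
    simp_rw [smul_sub] at hsum
    rw [Finset.sum_sub_distrib, h1, h2] at hsum
    rw [Fin.sum_univ_castSucc]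
    simp only [Fin.val_castSucc, Fin.val_last]
    have h3 : ((-1 : ℤ) ^ (m + 3)) = -((-1 : ℤ) ^ (m + 2)) := by ring
    rw [h3, neg_smul]
    rw [sub_eq_zero] at hsum
    rw [hsum]
    abel

end Vale.Agent.P093.T
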