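import Vale.Agent.P093.T.HatDef

/-!
Collars: `ExtH g → Ext g`.
-/

open Topology.Homotopy
open scoped unitInterval Topology

namespace Vale.Agent.P093.T

variable {m : ℕ} {X : Type*} [TopologicalSpace X] {x₀ : X}

namespace Collar

/-- the centre of the cube -/
noncomputable def hc (n : ℕ) : Fin n → ℝ := fun _ => 1 / 2

/-- sup-norm distance to the centre -/
noncomputable def rr {n : ℕ} (x : Fin n → ℝ) : ℝ := ‖x - hc n‖

theorem rr_cont {n : ℕ} : Continuous (rr : (Fin n → ℝ) → ℝ) :=
  (continuous_id.sub continuous_const).norm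

/-- sign of a side -/
def sg (ε : Bool) : ℝ := if ε then 1 else -1

theorem side_eq (ε : Bool) : side ε = 1 / 2 + sg ε * (1 / 2) := by
  cases ε <;> norm_num [side, sg]

theorem abs_le_rr {n : ℕ} (x : Fin n → ℝ) (i : Fin n) : |x i - 1 / 2| ≤ rr x := by
  have := norm_le_pi_norm (x - hc n) i
  simpa [rr, hc, Real.norm_eq_abs] using this

theorem exists_face {n : ℕ} (x : Fin n → ℝ) (h : 0 < rr x) :
    ∃ p : Fin n × Bool, x p.1 = 1 / 2 + sg p.2 * rr x := by
  have h1 : ∃ i, rr x ≤ |x i - 1 / 2| := by
    by_contra hcon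
    push Not at hcon
    have : ‖x - hc n‖ < rr x := by
      rw [pi_norm_lt_iff h]
      intro i
      have := hcon i
      simpa [hc, Real.norm_eq_abs] using this
    exact lt_irrefl _ this
  obtain ⟨i, hi⟩ := h1
  have h2 : |x i - 1 / 2| = rr x := le_antisymm (abs_le_rr x i) hi
  rcases abs_choice (x i - 1 / 2) with h3 | h3
  · refine ⟨(i, true), ?_⟩
    simp only [sg, if_true]
    rw [h3] at h2
    linarith
  · refine ⟨(i, false), ?_⟩
    have : sg false = -1 := rfl
    simp only [this]
    rw [h3] at h2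
    linarith

/-- projection to the face `i` -/
noncomputable def pr (i : Fin (m + 3)) (x : Fin (m + 3) → ℝ) : Fin (m + 2) → ℝ :=
  fun j => 1 / 2 + (x (i.succAbove j) - 1 / 2) / (2 * max (rr x) (1 / 4))

theorem pr_cont (i : Fin (m + 3)) : Continuous (pr i : (Fin (m + 3) → ℝ) → Fin (m + 2) → ℝ) := by
  refine continuous_pi fun j => ?_
  refine continuous_const.add (((continuous_apply _).sub continuous_const).div ?_ fun x => ?_)
  · exact continuous_const.mul (rr_cont.max continuous_const)
  · have : (1 / 4 : ℝ) ≤ max (rr x) (1 / 4) := le_max_right _ _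
    intro h
    linarith

/-- if `x` lies on two faces the projection is not in the open cube -/
theorem pr_off {i i' : Fin (m + 3)} (hi : i' ≠ i) (ε : Bool) (x : Fin (m + 3) → ℝ) (hr : 1 / 4 ≤ rr x)
    (hx : x i' = 1 / 2 + sg ε * rr x) : pr i x ∉ openCube (m + 2) := by
  obtain ⟨j, hj⟩ := Fin.exists_succAbove_eq hi
  intro h
  have h1 := h j
  have h2 : pr i x j = 1 / 2 + sg ε * (1 / 2) := by
    unfold pr
    rw [hj, hx, max_eq_left hr]
    have : rr x ≠ 0 := by
      intro h
      rw [h] at hr
      norm_num at hr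
    field_simp
    ring
  rw [h2] at h1
  cases ε
  · have : sg false = -1 := rfl
    rw [this] at h1
    linarith [h1.1]
  · have : sg true = 1 := rfl
    rw [this] at h1
    linarith [h1.2]

/-- clamping to the cube -/
noncomputable def clp {n : ℕ} (x : Fin n → ℝ) : Fin n → ℝ := fun i => max 0 (min 1 (x i))

theorem clp_cont {n : ℕ} : Continuous (clp : (Fin n → ℝ) → Fin n → ℝ) :=
  continuous_pi fun i => continuous_const.max (continuous_const.min (continuous_apply i))

theorem clp_val (p : ELoop (m + 2) X x₀) (y : Fin (m + 2) → ℝ) : p (clp y) = p y := by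
  by_cases h : y ∈ openCube (m + 2)
  · have : clp y = y := by
      funext i
      obtain ⟨h0, h1⟩ := h i
      unfold clp
      rw [min_eq_right h1.le, max_eq_right h0.le]
    rw [this]
  · rw [p.off y h, p.off]
    intro h'
    apply h
    intro i
    obtain ⟨h0, h1⟩ := h' i
    unfold clp at h0 h1
    constructor
    · by_contra hc
      push Not at hc
      have : min 1 (y i) ≤ 0 := (min_le_right _ _).trans hc
      rw [max_eq_left this] at h0
      exact lt_irrefl _ h0
    · by_contra hc
      push Not at hc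
      rw [min_eq_left hc] at h1
      norm_num at h1

end Collar

open Collar in
/-- (E1) collar: replace the faces of an extendable family by homotopic ones. The new cube map is
the old one on the inner cube `[1/4,3/4]^(m+3)` (rescaled); a point of the collar at height
`N = 2 max_i |x_i - 1/2| ∈ [1/2, 1]` is sent to the value at time `2N - 1` of the homotopy of the
face(s) on which its radial projection `1/2 + (x - 1/2)/N` lies. -/
theorem ext_of_extH (g : Fin (m + 3) → Bool → ELoop (m + 2) X x₀) (h : ExtH g) : Ext g := by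
  obtain ⟨g', hcls, G, hG, hGf⟩ := h
  have hH : ∀ i ε, ∃ H : ℝ → (Fin (m + 2) → ℝ) → X,
      Continuous (fun z : ℝ × (Fin (m + 2) → ℝ) => H z.1 z.2) ∧
      (∀ y, H 0 y = g' i ε y) ∧ (∀ y, H 1 y = g i ε y) ∧ ∀ t y, y ∉ openCube (m + 2) → H t y = x₀ :=
    fun i ε => (cls_eq_iff _ _).1 (hcls i ε)
  choose H Hc H0 H1 Hoff using hH
  classical
  -- the value of the piece `(i, ε)`
  let P : Fin (m + 3) × Bool → (Fin (m + 3) → ℝ) → X := fun p x => H p.1 p.2 (4 * rr x - 1) (pr p.1 x)
  have Pc : ∀ p, Continuous (P p) := fun p =>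
    (Hc p.1 p.2).comp (((continuous_const.mul rr_cont).sub continuous_const).prodMk (pr_cont p.1))
  let S : (Fin (m + 3) → ℝ) → (Fin (m + 3) → ℝ) := fun x i => 1 / 2 + 2 * (x i - 1 / 2)
  have Sc : Continuous S := continuous_pi fun i =>
    continuous_const.add (continuous_const.mul ((continuous_apply i).sub continuous_const))
  let C : Option (Fin (m + 3) × Bool) → Set (Fin (m + 3) → ℝ) := fun o =>
    match o with
    | none => {x | rr x ≤ 1 / 4}
    | some p => {x | 1 / 4 ≤ rr x ∧ x p.1 = 1 / 2 + sg p.2 * rr x}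
  have Pcomp : ∀ (p q : Fin (m + 3) × Bool) x, x ∈ C (some p) → x ∈ C (some q) → P p x = P q x := by
    rintro ⟨i, ε⟩ ⟨i', ε'⟩ x ⟨hr, hx⟩ ⟨-, hx'⟩
    by_cases hi : i' = i
    · subst hi
      have : ε = ε' := by
        simp only at hx hx'
        have h1 : sg ε * rr x = sg ε' * rr x := by linarith
        have h2 : rr x ≠ 0 := by
          intro h
          rw [h] at hr
          norm_num at hr
        have h3 := mul_right_cancel₀ h2 h1
        cases ε <;> cases ε' <;> first | rfl | (norm_num [sg] at h3)
      rw [this]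
    · have e1 : P (i, ε) x = x₀ := Hoff _ _ _ _ (pr_off hi ε' x hr hx')
      have e2 : P (i', ε') x = x₀ := Hoff _ _ _ _ (pr_off (Ne.symm hi) ε x hr hx)
      rw [e1, e2]
  have hex : ∀ x, ¬ rr x ≤ 1 / 4 → ∃ p, x ∈ C (some p) := by
    intro x hx
    push Not at hx
    obtain ⟨p, hp⟩ := exists_face x (by linarith)
    exact ⟨p, hx.le, hp⟩
  let G2 : (Fin (m + 3) → ℝ) → X := fun x =>
    if hx : rr x ≤ 1 / 4 then G (S x) else P (hex x hx).choose x
  have hin : ∀ p x, x ∈ C (some p) → rr x ≤ 1 / 4 → P p x = G (S x) := by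
    rintro ⟨i, ε⟩ x ⟨hr, hx⟩ hr'
    have h1 : rr x = 1 / 4 := le_antisymm hr' hr
    have h2 : P (i, ε) x = H i ε 0 (pr i x) := by
      show H i ε (4 * rr x - 1) (pr i x) = _
      rw [h1]
      norm_num
    rw [h2, H0, ← hGf]
    congr 1
    funext k
    refine Fin.succAboveCases i ?_ (fun j => ?_) k
    · rw [Fin.insertNth_apply_same]
      show side ε = 1 / 2 + 2 * (x i - 1 / 2)
      simp only at hx
      rw [side_eq, hx, h1]
      ring
    · rw [Fin.insertNth_apply_succAbove]
      show 1 / 2 + (x (i.succAbove j) - 1 / 2) / (2 * max (rr x) (1 / 4)) =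
        1 / 2 + 2 * (x (i.succAbove j) - 1 / 2)
      rw [h1, max_self]
      ring
  have hG2 : ∀ p x, x ∈ C (some p) → G2 x = P p x := by
    intro p x hx
    by_cases hr : rr x ≤ 1 / 4
    · have : G2 x = G (S x) := dif_pos hr
      rw [this, hin p x hx hr]
    · have : G2 x = P (hex x hr).choose x := dif_neg hr
      rw [this]
      exact Pcomp _ _ x (hex x hr).choose_spec hx
  have hcov : (⋃ o, C o) = Set.univ := by
    refine Set.eq_univ_of_forall fun x => ?_
    rw [Set.mem_iUnion]
    by_cases hr : rr x ≤ 1 / 4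
    · exact ⟨none, hr⟩
    · obtain ⟨p, hp⟩ := hex x hr
      exact ⟨some p, hp⟩
  have hcl : ∀ o, IsClosed (C o) := by
    intro o
    cases o with
    | none => exact isClosed_le rr_cont continuous_const
    | some p =>
      exact (isClosed_le continuous_const rr_cont).inter
        (isClosed_eq (continuous_apply _) (continuous_const.add (continuous_const.mul rr_cont)))
  have hcon : ∀ o, ContinuousOn G2 (C o) := by
    intro o
    cases o with
    | none =>
      refine ((hG.comp Sc).continuousOn (s := C none)).congr fun x hx => ?_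
      exact dif_pos hx
    | some p =>
      exact ((Pc p).continuousOn (s := C (some p))).congr fun x hx => hG2 p x hx
  have hG2c : Continuous G2 := (locallyFinite_of_finite C).continuous hcov hcl hcon
  refine ⟨fun x => G2 (clp x), hG2c.comp clp_cont, fun i ε y => ?_⟩
  have e1 : clp (Fin.insertNth i (side ε) y : Fin (m + 3) → ℝ) = (Fin.insertNth i (side ε) (clp y) : Fin (m + 3) → ℝ) := by
    funext k
    refine Fin.succAboveCases i ?_ (fun j => ?_) k
    · unfold clp
      rw [Fin.insertNth_apply_same, Fin.insertNth_apply_same]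
      cases ε <;> norm_num [side]
    · unfold clp
      rw [Fin.insertNth_apply_succAbove, Fin.insertNth_apply_succAbove]
  have hle : ∀ t : ℝ, |max 0 (min 1 t) - 1 / 2| ≤ 1 / 2 := by
    intro t
    rw [abs_le]
    constructor
    · have := le_max_left 0 (min 1 t)
      linarith
    · have : max 0 (min 1 t) ≤ 1 := max_le zero_le_one (min_le_left _ _)
      linarith
  have e2 : rr (clp (Fin.insertNth i (side ε) y : Fin (m + 3) → ℝ)) = 1 / 2 := by
    refine le_antisymm ?_ ?_
    · unfold rr
      rw [pi_norm_le_iff_of_nonneg (by norm_num)]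
      intro k
      exact hle _
    · have := abs_le_rr (clp (Fin.insertNth i (side ε) y : Fin (m + 3) → ℝ)) i
      rw [e1, Fin.insertNth_apply_same] at this
      rw [e1]
      refine le_trans ?_ this
      cases ε <;> norm_num [side, abs_of_nonneg]
  have e3 : clp (Fin.insertNth i (side ε) y : Fin (m + 3) → ℝ) ∈ C (some (i, ε)) := by
    refine ⟨by rw [e2]; norm_num, ?_⟩
    simp only
    rw [e2, ← side_eq, e1, Fin.insertNth_apply_same]
  show G2 (clp (Fin.insertNth i (side ε) y : Fin (m + 3) → ℝ)) = g i ε y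
  rw [hG2 (i, ε) _ e3]
  show H i ε (4 * rr (clp (Fin.insertNth i (side ε) y : Fin (m + 3) → ℝ)) - 1)
    (pr i (clp (Fin.insertNth i (side ε) y : Fin (m + 3) → ℝ))) = g i ε y
  have e4 : pr i (clp (Fin.insertNth i (side ε) y : Fin (m + 3) → ℝ)) = clp y := by
    funext j
    unfold pr
    rw [e2, e1, Fin.insertNth_apply_succAbove]
    have : max (1 / 2 : ℝ) (1 / 4) = 1 / 2 := max_eq_left (by norm_num)
    rw [this]
    ring
  rw [e2, e4]
  have e5 : (4 * (1 / 2) - 1 : ℝ) = 1 := by norm_num
  rw [e5, H1]
  exact clp_val _ _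

end Vale.Agent.P093.T
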