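import Vale.Agent.P093.T.LoopsSign

/-!
The homotopy addition theorem for the boundary of an `(m+3)`-dimensional cube.

`Bdry X x₀ m` : families of loops `g i ε` (`i : Fin (m+3)` an axis, `ε : Bool` a side); the loop
`g i ε` is the prescribed value on the face `x_i = ε` of the cube `[0,1]^(m+3)`, which is
parametrised by `Fin (m+2) → ℝ` through `Fin.insertNth i ε`.

`Ext g` : the family extends over the cube. `ExtH g`: a family homotopic to `g` extends.

PROOF PLAN of `hat`. (E1) `ExtH g → Ext g` (collar). All other steps are done with `ExtH`.
(E2) gluing of two cubes along the axis `k`. (E3) the turn cube, (E4) the straight cube,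
(E5) reflection of a cube. (BOX) given all `g i ε` except the top face `(last, true)`, there is a
loop `t` such that `ExtH` holds with top face `t` and the signed sum is `0`: start with the
constant family, add the bottom face by (E4), then the side faces one at a time: the face
`(i, false)` is added by gluing (E2, along the axis `i`) the turn cube of (E3) in front of the
cube constructed so far (whose face `(i, false)` is still constant), similarly `(i, true)`.
Gluing along `i` changes the other faces into concatenations, i.e. adds classes; faces
concatenated with a constant loop keep their class. Then `hat` (⇐): by (BOX) the top face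
has the right class, so `ExtH g`, so `Ext g`. (⇒): two cubes with the same faces up to the top one:
reflect the second in the last axis, glue along the last axis: the side faces become
`cat last (reflected g) g`, null-homotopic, so `ExtH` with only bottom and top faces nontrivial,
which is a homotopy between the two top faces.
-/

open Topology.Homotopy
open scoped unitInterval Topology

namespace Vale.Agent.P093.T

variable {m : ℕ} {X : Type*} [TopologicalSpace X] {x₀ : X}

/-- `0` or `1` -/
def side (ε : Bool) : ℝ := if ε then 1 else 0

/-- The family `g` of loops on the faces of the cube `[0,1]^(m+3)` extends over the cube. -/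
def Ext (g : Fin (m + 3) → Bool → ELoop (m + 2) X x₀) : Prop :=
  ∃ G : (Fin (m + 3) → ℝ) → X, Continuous G ∧
    ∀ i ε (y : Fin (m + 2) → ℝ), G (Fin.insertNth i (side ε) y) = g i ε y

/-- some family with the same classes extends -/
def ExtH (g : Fin (m + 3) → Bool → ELoop (m + 2) X x₀) : Prop :=
  ∃ g' : Fin (m + 3) → Bool → ELoop (m + 2) X x₀, (∀ i ε, (g' i ε).cls = (g i ε).cls) ∧ Ext g'

/-- the signed sum of the classes of the faces -/
noncomputable def faceSum (g : Fin (m + 3) → Bool → ELoop (m + 2) X x₀) : PiGrp m X x₀ :=
  ∑ i : Fin (m + 3), ((-1 : ℤ) ^ (i : ℕ)) • ((g i true).cls - (g i false).cls)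

end Vale.Agent.P093.T
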