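import Vale.Agent.P093.T.AffMap
import Vale.Agent.P093.T.ChainDef
import Vale.Agent.P093.T.DiskInsert

/-!
The modified map on one simplex with `m + 3` vertices.
-/

open Set

namespace Vale.Agent.P093.T

variable {U W : Type*} [Fintype U] [LinearOrder U] [Fintype W]

theorem hopfDisk_extend_neg {V M : Type*} [AddCommGroup M] (F : List V → M) (c : OChain V) :
    extend F (-c) = -extend F c := by
  classical
  unfold extend
  rw [Finsupp.sum_neg_index (fun s => zero_smul ℤ (F s))]
  unfold Finsupp.sum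
  rw [← Finset.sum_neg_distrib]
  exact Finset.sum_congr rfl fun s _ => neg_smul _ _

theorem hopfDisk_extend_single {V M : Type*} [AddCommGroup M] (F : List V → M) (l : List V) :
    extend F (Finsupp.single l 1) = F l := by
  classical
  unfold extend
  rw [Finsupp.sum_single_index (zero_smul ℤ (F l)), one_smul]

omit [Fintype U] in
theorem hopfDisk_sum {m : ℕ} (s : Finset U) (hs : s.card = m + 3) (f : U → ℝ) :
    ∑ i, f (s.orderEmbOfFin hs i) = ∑ u ∈ s, f u := by
  conv_rhs => rw [← Finset.map_orderEmbOfFin_univ s hs]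
  rw [Finset.sum_map]
  rfl

omit [LinearOrder U] in
theorem hopfDisk_off (s : Finset U) (z : U → ℝ) (hz : spt z ⊆ s) (u : U) (hu : u ∉ s) :
    z u = 0 := by
  by_contra h
  apply hu
  apply hz
  unfold spt
  simp [h]

theorem hopfDisk_mem {m : ℕ} (s : Finset U) (hs : s.card = m + 3) (z : U → ℝ)
    (hz : z ∈ Face s) : (fun i => z (s.orderEmbOfFin hs i)) ∈ stdSimplex ℝ (Fin (m + 3)) := by
  refine ⟨fun i => hz.1.1 _, ?_⟩
  rw [hopfDisk_sum s hs z, ← hz.1.2]
  refine Finset.sum_subset (Finset.subset_univ s) fun u _ hu => ?_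
  exact hopfDisk_off s z hz.2 u hu

theorem hopfDisk_aff {m : ℕ} (φ : U → W) (s : Finset U) (hs : s.card = m + 3) (z : U → ℝ)
    (hz : z ∈ Face s) (h : (fun i => z (s.orderEmbOfFin hs i)) ∈ stdSimplex ℝ (Fin (m + 3))) :
    ((aff (fun i => φ (s.orderEmbOfFin hs i)) : DiskMap m W).toFun
      ⟨fun i => z (s.orderEmbOfFin hs i), h⟩ : W → ℝ) = affMap φ z := by
  funext w
  show ∑ i, z (s.orderEmbOfFin hs i) * vtx (φ (s.orderEmbOfFin hs i)) w =
    ∑ u, z u * vtx (φ u) w
  rw [hopfDisk_sum s hs (fun u => z u * vtx (φ u) w)]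
  refine Finset.sum_subset (Finset.subset_univ s) fun u _ hu => ?_
  rw [hopfDisk_off s z hz.2 u hu, zero_mul]

omit [Fintype U] in
theorem hopfDisk_cl {m : ℕ} (w₀ : W) (φ : U → W) (s : Finset U) (hs : s.card = m + 3) :
    (aff (fun i => φ (s.orderEmbOfFin hs i)) : DiskMap m W).cl w₀ =
      theta w₀ (Finsupp.single (imgList φ s) 1) := by
  unfold theta
  rw [hopfDisk_extend_single]
  unfold thetaList
  have hl : (imgList φ s).length = m + 3 := by
    unfold imgList
    rw [List.length_map, Finset.length_sort, hs]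
  rw [dif_pos hl]
  congr 2
  funext i
  unfold imgList
  simp only [Finset.orderEmbOfFin_apply, List.get_eq_getElem, List.getElem_map]
  rfl

open Classical in
/-- the modified map on one simplex with `m + 3` vertices: `insert_chain` applied to
`aff (φ ∘ sorted vertices)` and the chain `-H` -/
theorem disk_step {m : ℕ} (w₀ : W) (φ : U → W) (S : U → Finset W) (hφ : ∀ u, φ u ∈ S u)
    (s : Finset U) (hs : s.card = m + 3) (H : OChain W)
    (hH : ∀ l ∈ H.support, l.length = m + 4 ∧ ∀ w ∈ l, w ∈ s.biUnion S) :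
    ∃ (a : DiskMap m W) (g : (U → ℝ) → (W → ℝ)), ContinuousOn g (Face s) ∧
      (∀ z ∈ Face s, spt z ≠ s → g z = affMap φ z) ∧
      (∀ z ∈ Face s, g z ∈ Sk W (m + 2) ∧ spt (g z) ⊆ s.biUnion S) ∧
      (∀ (z : stdSimplex ℝ (Fin (m + 3))) (z' : U → ℝ), z' ∈ Face s →
        (∀ i, z' ((s.orderEmbOfFin hs) i) = z.1 i) → g z' = a.toFun z) ∧
      a.cl w₀ = theta w₀ (Finsupp.single (imgList φ s) 1 - extend simplexBoundary H) := by
  have hmem : ∀ i, φ (s.orderEmbOfFin hs i) ∈ s.biUnion S := fun i =>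
    Finset.mem_biUnion.2 ⟨_, Finset.orderEmbOfFin_mem s hs i, hφ _⟩
  obtain ⟨a, ha1, ha2, ha3⟩ := insert_chain w₀ (s.biUnion S)
    (aff (fun i => φ (s.orderEmbOfFin hs i)) : DiskMap m W) (φ (s.orderEmbOfFin hs 0)) (hmem 0)
    (by
      intro z hz
      have h0 : ∀ i, i ≠ 0 → z.1 i = 0 := by
        intro i hi
        have h1 := z.2.2
        have h2 : ∑ j ∈ Finset.univ.erase (0 : Fin (m + 3)), z.1 j = 0 := by
          rw [← Finset.add_sum_erase _ _ (Finset.mem_univ (0 : Fin (m + 3)))] at h1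
          have : z.1 0 = 1 := hz
          linarith
        have h3 := (Finset.sum_eq_zero_iff_of_nonneg (fun j _ => z.2.1 j)).1 h2 i
          (Finset.mem_erase.2 ⟨hi, Finset.mem_univ i⟩)
        exact h3
      funext w
      show ∑ i, z.1 i * vtx (φ (s.orderEmbOfFin hs i)) w = _
      rw [Finset.sum_eq_single 0]
      · rw [hz, one_mul]
      · intro i _ hi
        rw [h0 i hi, zero_mul]
      · intro h
        exact absurd (Finset.mem_univ _) h)
    (by
      intro z w hw
      have h1 : (∑ i, z.1 i * vtx (φ (s.orderEmbOfFin hs i)) w) ≠ 0 :=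
        (Finset.mem_filter.1 hw).2
      obtain ⟨i, -, hi⟩ := Finset.exists_ne_zero_of_sum_ne_zero h1
      have h2 : w = φ (s.orderEmbOfFin hs i) := by
        by_contra hne
        exact hi (by rw [vtx_of_ne hne, mul_zero])
      rw [h2]
      exact hmem i)
    (-H) (by
      intro l hl
      rw [Finsupp.support_neg] at hl
      exact hH l hl)
  refine ⟨a, fun z => if h : (fun i => z (s.orderEmbOfFin hs i)) ∈ stdSimplex ℝ (Fin (m + 3))
    then (a.toFun ⟨_, h⟩ : W → ℝ) else 0, ?_, ?_, ?_, ?_, ?_⟩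
  · rw [continuousOn_iff_continuous_domRestrict]
    have h0 : Continuous fun z : Face s => (fun i => z.1 (s.orderEmbOfFin hs i)) :=
      continuous_pi fun i =>
        (continuous_apply (s.orderEmbOfFin hs i)).comp continuous_subtype_val
    have h1 : Continuous fun z : Face s => (⟨fun i => z.1 (s.orderEmbOfFin hs i),
        hopfDisk_mem s hs z.1 z.2⟩ : stdSimplex ℝ (Fin (m + 3))) :=
      h0.subtype_mk _
    have h2 := continuous_subtype_val.comp (a.cont.comp h1)
    refine h2.congr fun z => ?_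
    show _ = dite _ _ _
    rw [dif_pos (hopfDisk_mem s hs z.1 z.2)]
    rfl
  · intro z hz hne
    have h := hopfDisk_mem s hs z hz
    show dite _ _ _ = _
    rw [dif_pos h]
    have hex : ∃ u ∈ s, z u = 0 := by
      by_contra hcon
      push Not at hcon
      apply hne
      refine Finset.Subset.antisymm hz.2 fun u hu => ?_
      unfold spt
      simp [hcon u hu]
    obtain ⟨u, hu, hu0⟩ := hex
    have hrange : u ∈ Set.range (s.orderEmbOfFin hs) := by
      rw [Finset.range_orderEmbOfFin]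
      exact hu
    obtain ⟨i, rfl⟩ := hrange
    rw [ha1 ⟨_, h⟩ ⟨i, hu0⟩]
    exact hopfDisk_aff φ s hs z hz h
  · intro z hz
    have h := hopfDisk_mem s hs z hz
    show dite _ _ _ ∈ _ ∧ spt (dite _ _ _) ⊆ _
    rw [dif_pos h]
    exact ⟨(a.toFun ⟨_, h⟩).2, ha2 _⟩
  · intro z z' hz' hzz
    have h := hopfDisk_mem s hs z' hz'
    show dite _ _ _ = _
    rw [dif_pos h]
    have : (⟨fun i => z' (s.orderEmbOfFin hs i), h⟩ : stdSimplex ℝ (Fin (m + 3))) = z :=
      Subtype.ext (funext hzz)
    rw [this]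
  · rw [ha3, hopfDisk_cl, hopfDisk_extend_neg, ← theta_add, sub_eq_add_neg]

end Vale.Agent.P093.T
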