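import Vale.Agent.P093.T.Poly
import Vale.Agent.P093.T.DiskFill

/-!
Filling one simplex with `m + 4` vertices.
-/

open Set

namespace Vale.Agent.P093.T

variable {U W : Type*} [Fintype U] [LinearOrder U] [Fintype W]

omit [LinearOrder U] in
theorem hfill_spt_iff (z : U → ℝ) (u : U) : u ∈ spt z ↔ z u ≠ 0 := by
  classical
  unfold spt
  simp

omit [Fintype U] in
/-- extension by zero of a point of the standard simplex through the sorted vertices -/
noncomputable def hfillUp {k : ℕ} (s : Finset U) (hs : s.card = k) (y : Fin k → ℝ) : U → ℝ :=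
  Function.extend (s.orderEmbOfFin hs) y 0

omit [Fintype U] in
theorem hfillUp_apply {k : ℕ} (s : Finset U) (hs : s.card = k) (y : Fin k → ℝ) (i : Fin k) :
    hfillUp s hs y (s.orderEmbOfFin hs i) = y i :=
  (s.orderEmbOfFin hs).injective.extend_apply y 0 i

omit [Fintype U] in
theorem hfillUp_off {k : ℕ} (s : Finset U) (hs : s.card = k) (y : Fin k → ℝ) (u : U)
    (hu : u ∉ s) : hfillUp s hs y u = 0 := by
  unfold hfillUp
  rw [Function.extend_apply']
  · rfl
  · rintro ⟨i, hi⟩
    exact hu (hi ▸ s.orderEmbOfFin_mem hs i)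

omit [Fintype U] in
theorem hfill_exists {k : ℕ} (s : Finset U) (hs : s.card = k) (u : U) (hu : u ∈ s) :
    ∃ i, s.orderEmbOfFin hs i = u := by
  have h := s.range_orderEmbOfFin hs
  have h2 : u ∈ Set.range (s.orderEmbOfFin hs) := by
    rw [h]
    exact hu
  exact h2

omit [Fintype U] in
theorem hfillUp_cont {k : ℕ} (s : Finset U) (hs : s.card = k) :
    Continuous (hfillUp s hs) := by
  refine continuous_pi fun u => ?_
  by_cases hu : u ∈ s
  · obtain ⟨i, rfl⟩ := hfill_exists s hs u hu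
    simp only [hfillUp_apply]
    exact continuous_apply i
  · simp only [hfillUp_off s hs _ u hu]
    exact continuous_const

/-- sums over the face -/
theorem hfill_sum {k : ℕ} (s : Finset U) (hs : s.card = k) (z : U → ℝ)
    (hz : ∀ u, u ∉ s → z u = 0) : ∑ i, z (s.orderEmbOfFin hs i) = ∑ u, z u := by
  classical
  have h1 : ∑ u, z u = ∑ u ∈ s, z u := by
    symm
    refine Finset.sum_subset (Finset.subset_univ s) fun u _ hu => hz u hu
  rw [h1]
  have h2 : s = Finset.univ.map (s.orderEmbOfFin hs).toEmbedding := by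
    ext u
    constructor
    · intro hu
      obtain ⟨i, hi⟩ := hfill_exists s hs u hu
      exact Finset.mem_map.2 ⟨i, Finset.mem_univ i, hi⟩
    · intro hu
      obtain ⟨i, _, hi⟩ := Finset.mem_map.1 hu
      rw [← hi]
      exact s.orderEmbOfFin_mem hs i
  conv_rhs => rw [h2]
  rw [Finset.sum_map]
  rfl

theorem hfillUp_face {k : ℕ} (s : Finset U) (hs : s.card = k) (y : Fin k → ℝ)
    (hy : y ∈ stdSimplex ℝ (Fin k)) : hfillUp s hs y ∈ Face s := by
  refine ⟨⟨fun u => ?_, ?_⟩, fun u hu => ?_⟩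
  · by_cases hu : u ∈ s
    · obtain ⟨i, rfl⟩ := hfill_exists s hs u hu
      rw [hfillUp_apply]
      exact hy.1 i
    · rw [hfillUp_off s hs y u hu]
  · rw [← hfill_sum s hs _ fun u hu => hfillUp_off s hs y u hu, ← hy.2]
    exact Finset.sum_congr rfl fun i _ => hfillUp_apply s hs y i
  · by_contra hus
    exact (hfill_spt_iff _ _).1 hu (hfillUp_off s hs y u hus)

omit [LinearOrder U] in
theorem hfill_zero_off (s : Finset U) (z : U → ℝ) (hz : z ∈ Face s) (u : U) (hu : u ∉ s) :
    z u = 0 := by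
  by_contra h
  exact hu (hz.2 ((hfill_spt_iff z u).2 h))

theorem hfill_down {k : ℕ} (s : Finset U) (hs : s.card = k) (z : U → ℝ) (hz : z ∈ Face s) :
    (fun i => z (s.orderEmbOfFin hs i)) ∈ stdSimplex ℝ (Fin k) := by
  refine ⟨fun i => hz.1.1 _, ?_⟩
  rw [hfill_sum s hs z fun u hu => hfill_zero_off s z hz u hu]
  exact hz.1.2

theorem hfill_up_down {k : ℕ} (s : Finset U) (hs : s.card = k) (z : U → ℝ) (hz : z ∈ Face s) :
    hfillUp s hs (fun i => z (s.orderEmbOfFin hs i)) = z := by
  funext u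
  by_cases hu : u ∈ s
  · obtain ⟨i, rfl⟩ := hfill_exists s hs u hu
    rw [hfillUp_apply]
  · rw [hfillUp_off s hs _ u hu, hfill_zero_off s z hz u hu]

theorem hfill_bd {k : ℕ} (s : Finset U) (hs : s.card = k) (z : U → ℝ) (hz : z ∈ Face s) :
    spt z ≠ s ↔ ∃ i, z (s.orderEmbOfFin hs i) = 0 := by
  constructor
  · intro h
    by_contra hcon
    push Not at hcon
    refine h (Finset.Subset.antisymm hz.2 fun u hu => ?_)
    obtain ⟨i, rfl⟩ := hfill_exists s hs u hu
    exact (hfill_spt_iff _ _).2 (hcon i)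
  · rintro ⟨i, hi⟩ h
    have h1 : s.orderEmbOfFin hs i ∈ spt z := by
      rw [h]
      exact s.orderEmbOfFin_mem hs i
    exact (hfill_spt_iff _ _).1 h1 hi

omit [Fintype U] [LinearOrder U] in
/-- the retraction of the simplex on `W` onto the face spanned by `S` -/
theorem hfill_retract (S : Finset W) (hS : S.Nonempty) :
    ∃ r : (W → ℝ) → (W → ℝ), Continuous r ∧ (∀ y, y ∈ stdSimplex ℝ W → r y ∈ stdSimplex ℝ W ∧
      spt (r y) ⊆ S ∧ (spt (r y)).card ≤ (spt y).card) ∧
      ∀ y, y ∈ stdSimplex ℝ W → spt y ⊆ S → r y = y := by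
  classical
  obtain ⟨s0, hs0⟩ := hS
  let q : W → W := fun w => if w ∈ S then w else s0
  have hq : ∀ w, q w ∈ S := by
    intro w
    by_cases h : w ∈ S
    · have : q w = w := if_pos h
      rw [this]
      exact h
    · have : q w = s0 := if_neg h
      rw [this]
      exact hs0
  have hsp : ∀ (y : W → ℝ) (w : W), w ∈ spt y ↔ y w ≠ 0 := by
    intro y w
    unfold spt
    simp
  have hv0 : ∀ w v : W, 0 ≤ vtx w v := by
    intro w v
    by_cases h : v = w
    · rw [h, vtx_self]
      exact zero_le_one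
    · rw [vtx_of_ne h]
  have hv1 : ∀ w : W, ∑ v, vtx w v = 1 := by
    intro w
    rw [Finset.sum_eq_single w]
    · exact vtx_self w
    · intro v _ hv
      exact vtx_of_ne hv
    · intro h
      exact absurd (Finset.mem_univ w) h
  have hsub : ∀ y : W → ℝ, spt (fun v => ∑ w, y w * vtx (q w) v) ⊆ (spt y).image q := by
    intro y v hv
    rw [hsp] at hv
    by_contra hcon
    apply hv
    refine Finset.sum_eq_zero fun w _ => ?_
    by_cases hw : y w = 0
    · rw [hw, zero_mul]
    · have hne : v ≠ q w := by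
        rintro rfl
        exact hcon (Finset.mem_image_of_mem q ((hsp y w).2 hw))
      rw [vtx_of_ne hne, mul_zero]
  refine ⟨fun y v => ∑ w, y w * vtx (q w) v, ?_, ?_, ?_⟩
  · refine continuous_pi fun v => ?_
    refine continuous_finsetSum _ fun w _ => ?_
    exact (continuous_apply w).mul continuous_const
  · intro y hy
    refine ⟨⟨fun v => Finset.sum_nonneg fun w _ => mul_nonneg (hy.1 w) (hv0 _ _), ?_⟩, ?_, ?_⟩
    · rw [Finset.sum_comm, ← hy.2]
      refine Finset.sum_congr rfl fun w _ => ?_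
      rw [← Finset.mul_sum, hv1, mul_one]
    · intro v hv
      obtain ⟨w, _, hw⟩ := Finset.mem_image.1 (hsub y hv)
      rw [← hw]
      exact hq w
    · exact (Finset.card_le_card (hsub y)).trans Finset.card_image_le
  · intro y _ hyS
    funext v
    show ∑ w, y w * vtx (q w) v = y v
    rw [Finset.sum_eq_single v]
    · by_cases hv : y v = 0
      · rw [hv, zero_mul]
      · have h1 : q v = v := if_pos (hyS ((hsp y v).2 hv))
        rw [h1, vtx_self, mul_one]
    · intro w _ hwv
      by_cases hw : y w = 0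
      · rw [hw, zero_mul]
      · have h1 : q w = w := if_pos (hyS ((hsp y w).2 hw))
        rw [h1, vtx_of_ne (Ne.symm hwv), mul_zero]
    · intro h
      exact absurd (Finset.mem_univ v) h

open Classical in
/-- filling one simplex with `m + 4` vertices -/
theorem fill_step {m : ℕ} (w₀ : W) (S : Finset W) (hS : S.Nonempty) (s : Finset U)
    (hs : s.card = m + 4) (f : (U → ℝ) → (W → ℝ))
    (hf : ContinuousOn f {z | z ∈ Face s ∧ spt z ≠ s})
    (hfm : ∀ z ∈ Face s, spt z ≠ s → f z ∈ Sk W (m + 2) ∧ spt (f z) ⊆ S)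
    (a : Fin (m + 4) → DiskMap m W)
    (ha : ∀ (j : Fin (m + 4)) (z : stdSimplex ℝ (Fin (m + 3))) (z' : U → ℝ), z' ∈ Face s →
      (∀ i, z' ((s.orderEmbOfFin hs) i) = (Fin.insertNth j 0 z.1 : Fin (m + 4) → ℝ) i) →
        f z' = (a j).toFun z)
    (hsum : ∑ j : Fin (m + 4), ((-1 : ℤ) ^ (j : ℕ)) • (a j).cl w₀ = 0) :
    ∃ g : (U → ℝ) → (W → ℝ), ContinuousOn g (Face s) ∧
      (∀ z ∈ Face s, spt z ≠ s → g z = f z) ∧
      ∀ z ∈ Face s, g z ∈ Sk W (m + 2) ∧ spt (g z) ⊆ S := by
  -- boundary points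
  have hbd : ∀ y : BdSimplex m, hfillUp s hs y.1 ∈ Face s ∧ spt (hfillUp s hs y.1) ≠ s := by
    intro y
    have h1 := hfillUp_face s hs y.1 y.2.1
    refine ⟨h1, (hfill_bd s hs _ h1).2 ?_⟩
    obtain ⟨i, hi⟩ := y.2.2
    exact ⟨i, by rw [hfillUp_apply]; exact hi⟩
  let b : BdSimplex m → Sk W (m + 2) := fun y =>
    ⟨f (hfillUp s hs y.1), (hfm _ (hbd y).1 (hbd y).2).1⟩
  have hb : Continuous b := by
    refine Continuous.subtype_mk ?_ _
    exact hf.comp_continuous ((hfillUp_cont s hs).comp continuous_subtype_val) fun y => hbd y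
  have hbf : ∀ j z, b (faceIn j z) = (a j).toFun z := by
    intro j z
    refine Subtype.ext ?_
    refine ha j z _ (hbd (faceIn j z)).1 fun i => ?_
    rw [hfillUp_apply]
    rfl
  obtain ⟨B, hB, hBb⟩ := fill w₀ b hb a hbf hsum
  obtain ⟨r, hr, hr1, hr2⟩ := hfill_retract S hS
  let g : (U → ℝ) → (W → ℝ) := fun z =>
    if h : (fun i => z (s.orderEmbOfFin hs i)) ∈ stdSimplex ℝ (Fin (m + 4)) then
      r (B ⟨fun i => z (s.orderEmbOfFin hs i), h⟩) else 0
  have hg : ∀ z (hz : z ∈ Face s), g z = r (B ⟨fun i => z (s.orderEmbOfFin hs i),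
      hfill_down s hs z hz⟩) := fun z hz => dif_pos (hfill_down s hs z hz)
  refine ⟨g, ?_, ?_, ?_⟩
  · rw [continuousOn_iff_continuous_domRestrict]
    have h1 : (Face s).domRestrict g = fun z : Face s => r (B ⟨fun i =>
        z.1 (s.orderEmbOfFin hs i), hfill_down s hs z.1 z.2⟩) := by
      funext z
      exact hg z.1 z.2
    rw [h1]
    refine hr.comp (continuous_subtype_val.comp (hB.comp ?_))
    refine Continuous.subtype_mk ?_ _
    exact continuous_pi fun i => (continuous_apply _).comp continuous_subtype_val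
  · intro z hz hne
    rw [hg z hz]
    obtain ⟨i, hi⟩ := (hfill_bd s hs z hz).1 hne
    have h1 := hBb ⟨fun i => z (s.orderEmbOfFin hs i), hfill_down s hs z hz, i, hi⟩
    have h2 : ((b ⟨fun i => z (s.orderEmbOfFin hs i), hfill_down s hs z hz, i, hi⟩ :
        Sk W (m + 2)) : W → ℝ) = f z := by
      show f (hfillUp s hs fun i => z (s.orderEmbOfFin hs i)) = f z
      rw [hfill_up_down s hs z hz]
    have h3 : ((B ⟨fun i => z (s.orderEmbOfFin hs i), hfill_down s hs z hz⟩ :
        Sk W (m + 2)) : W → ℝ) = f z := by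
      rw [← h2, ← h1]
    rw [h3]
    exact hr2 (f z) (hfm z hz hne).1.1 (hfm z hz hne).2
  · intro z hz
    rw [hg z hz]
    have h1 := (B ⟨fun i => z (s.orderEmbOfFin hs i), hfill_down s hs z hz⟩).2
    obtain ⟨h2, h3, h4⟩ := hr1 _ h1.1
    exact ⟨⟨h2, h4.trans h1.2⟩, h3⟩

end Vale.Agent.P093.T
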