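import Vale.Agent.P093.T.Poly
import Vale.Agent.P093.T.ChainH
import Vale.Agent.P093.T.AffMap
import Vale.Agent.P093.T.HopfDisk
import Vale.Agent.P093.T.HopfFill

/-!
The Hopf step: a map of a complex which is affine on the simplices with at most `m + 2` vertices,
modified on the simplices with `m + 3` vertices, extends over the simplices with `m + 4` vertices
with values in the `(m+2)`-skeleton.
-/

open Set

namespace Vale.Agent.P093.T

variable {U W : Type*} [Fintype U] [LinearOrder U] [Fintype W]

theorem hopfStep_extend_add {V M : Type*} [AddCommGroup M] (F : List V → M) (c c' : OChain V) :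
    extend F (c + c') = extend F c + extend F c' := by
  classical
  unfold extend
  exact Finsupp.sum_add_index' (fun s => zero_smul ℤ _) (fun s a b => add_smul a b _)

theorem hopfStep_extend_smul {V M : Type*} [AddCommGroup M] (F : List V → M) (k : ℤ)
    (c : OChain V) : extend F (k • c) = k • extend F c := by
  classical
  unfold extend
  have h : (k • c).sum (fun s n => n • F s) = c.sum (fun s n => (k * n) • F s) :=
    Finsupp.sum_smul_index (fun s => zero_smul ℤ _)
  rw [h, Finsupp.smul_sum]
  exact Finsupp.sum_congr fun s _ => mul_smul _ _ _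

theorem hopfStep_extend_zero {V M : Type*} [AddCommGroup M] (F : List V → M) :
    extend F (0 : OChain V) = 0 := by
  unfold extend
  exact Finsupp.sum_zero_index

theorem hopfStep_extend_sub {V M : Type*} [AddCommGroup M] (F : List V → M) (c c' : OChain V) :
    extend F (c - c') = extend F c - extend F c' := by
  have h := hopfStep_extend_add F (c - c') c'
  rw [sub_add_cancel] at h
  rw [h, add_sub_cancel_right]

theorem hopfStep_extend_sum {V M ι : Type*} [AddCommGroup M] (F : List V → M) (T : Finset ι)
    (c : ι → OChain V) : extend F (∑ i ∈ T, c i) = ∑ i ∈ T, extend F (c i) := by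
  classical
  induction T using Finset.induction_on with
  | empty => simp [hopfStep_extend_zero]
  | insert i T hi ih =>
    rw [Finset.sum_insert hi, Finset.sum_insert hi, hopfStep_extend_add, ih]

theorem hopfStep_extend_single {V M : Type*} [AddCommGroup M] (F : List V → M) (l : List V) :
    extend F (Finsupp.single l 1) = F l := by
  classical
  unfold extend
  rw [Finsupp.sum_single_index (zero_smul ℤ (F l)), one_smul]

omit [Fintype U] [Fintype W] in
theorem hopfStep_sort_face (s : Finset U) (j : ℕ) :
    (faceF s j).sort (· ≤ ·) = (s.sort (· ≤ ·)).eraseIdx j := by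
  unfold faceF
  have hsub : ((s.sort (· ≤ ·)).eraseIdx j).Sublist (s.sort (· ≤ ·)) := List.eraseIdx_sublist _ _
  have h1 : ((s.sort (· ≤ ·)).eraseIdx j).Nodup := (Finset.sort_nodup s (· ≤ ·)).sublist hsub
  rw [List.toFinset_sort _ h1]
  exact (Finset.pairwise_sort s (· ≤ ·)).sublist hsub

omit [Fintype U] [Fintype W] in
theorem hopfStep_img_face (φ : U → W) (s : Finset U) (j : ℕ) :
    imgList φ (faceF s j) = (imgList φ s).eraseIdx j := by
  unfold imgList
  rw [hopfStep_sort_face, List.eraseIdx_map]

omit [Fintype U] in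
theorem hopfStep_face_erase {k : ℕ} (s : Finset U) (hs : s.card = k) (j : Fin k) :
    faceF s j = s.erase (s.orderEmbOfFin hs j) := by
  have hj : (j : ℕ) < (s.sort (· ≤ ·)).length := by
    rw [Finset.length_sort, hs]
    exact j.2
  have h1 := (Finset.sort_nodup s (· ≤ ·)).erase_getElem (j : ℕ) hj
  unfold faceF
  rw [← h1, Finset.orderEmbOfFin_apply]
  ext u
  rw [List.mem_toFinset, (Finset.sort_nodup s (· ≤ ·)).mem_erase_iff, Finset.mem_erase,
    Finset.mem_sort]
  rfl

omit [Fintype U] in
theorem hopfStep_face_card {k : ℕ} (s : Finset U) (hs : s.card = k + 1) (j : Fin (k + 1)) :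
    (faceF s j).card = k := by
  rw [hopfStep_face_erase s hs j, Finset.card_erase_of_mem (Finset.orderEmbOfFin_mem _ _ _), hs]
  rfl

omit [Fintype U] in
theorem hopfStep_face_emb {k : ℕ} (s : Finset U) (hs : s.card = k + 1) (j : Fin (k + 1))
    (i : Fin k) : (faceF s j).orderEmbOfFin (hopfStep_face_card s hs j) i =
      s.orderEmbOfFin hs (j.succAbove i) := by
  have h := Finset.orderEmbOfFin_unique (hopfStep_face_card s hs j)
    (f := fun i => s.orderEmbOfFin hs (j.succAbove i)) (fun i => by
      rw [hopfStep_face_erase s hs j, Finset.mem_erase]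
      refine ⟨fun h => ?_, Finset.orderEmbOfFin_mem _ _ _⟩
      exact Fin.succAbove_ne j i ((s.orderEmbOfFin hs).injective h))
    (fun a b hab => (s.orderEmbOfFin hs).strictMono (Fin.strictMono_succAbove j hab))
  exact (congrFun h i).symm

open Classical in
/-- THE HOPF STEP -/
theorem hopf_step {m : ℕ} (w₀ : W) (K : Set (Finset U))
    (hK : ∀ s ∈ K, ∀ t ⊆ s, t.Nonempty → t ∈ K) (φ : U → W) (S : U → Finset W)
    (hφ : ∀ u, φ u ∈ S u) (H : Finset U → OChain W)
    (hH : ∀ s ∈ K, s.card = m + 3 → ∀ l ∈ (H s).support, l.length = m + 4 ∧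
      ∀ w ∈ l, w ∈ s.biUnion S)
    (hcyc : ∀ s ∈ K, s.card = m + 4 → extend simplexBoundary
        (Finsupp.single (imgList φ s) 1 -
          ∑ j ∈ Finset.range s.card, (-1 : ℤ) ^ j • H (faceF s j)) = 0) :
    ∃ ψ : (U → ℝ) → (W → ℝ), ContinuousOn ψ (Rlz K (m + 4)) ∧
      ∀ z ∈ Rlz K (m + 4), ψ z ∈ stdSimplex ℝ W ∧ spt (ψ z) ⊆ (spt z).biUnion S ∧
        (spt (ψ z)).card ≤ min (spt z).card (m + 3) := by
  -- the maps on the simplices with `m + 3` vertices
  have hd : ∀ t : Finset U, ∃ (a : DiskMap m W) (g : (U → ℝ) → (W → ℝ)), t ∈ K →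
      ∀ ht : t.card = m + 3, ContinuousOn g (Face t) ∧
      (∀ z ∈ Face t, spt z ≠ t → g z = affMap φ z) ∧
      (∀ z ∈ Face t, g z ∈ Sk W (m + 2) ∧ spt (g z) ⊆ t.biUnion S) ∧
      (∀ (z : stdSimplex ℝ (Fin (m + 3))) (z' : U → ℝ), z' ∈ Face t →
        (∀ i, z' ((t.orderEmbOfFin ht) i) = z.1 i) → g z' = a.toFun z) ∧
      a.cl w₀ = theta w₀ (Finsupp.single (imgList φ t) 1 - extend simplexBoundary (H t)) := by
    intro t
    by_cases htK : t ∈ K
    · by_cases ht : t.card = m + 3
      · obtain ⟨a, g, h⟩ := disk_step w₀ φ S hφ t ht (H t) (hH t htK ht)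
        exact ⟨a, g, fun _ _ => h⟩
      · exact ⟨aff (fun _ => w₀), fun _ _ => 0, fun _ h => absurd h ht⟩
    · exact ⟨aff (fun _ => w₀), fun _ _ => 0, fun h => absurd h htK⟩
  choose A G hAG using hd
  set f1 : (U → ℝ) → (W → ℝ) := fun z => if (spt z).card = m + 2 + 1 then G (spt z) z
    else affMap φ z with hf1
  have hf1c : ContinuousOn f1 (Rlz K (m + 2 + 1)) := by
    refine glue_step K hK (m + 2) (affMap φ) (continuous_affMap φ).continuousOn G ?_
    intro s hs hsc
    have h := hAG s hs hsc
    exact ⟨h.1, h.2.1⟩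
  have hne : ∀ z : U → ℝ, z ∈ stdSimplex ℝ U → (spt z).Nonempty := fun z hz =>
    spt_nonempty_of_mem hz
  have hf1m : ∀ z ∈ Rlz K (m + 2 + 1), f1 z ∈ stdSimplex ℝ W ∧
      spt (f1 z) ⊆ (spt z).biUnion S ∧ (spt (f1 z)).card ≤ (spt z).card := by
    intro z hz
    by_cases h : (spt z).card = m + 2 + 1
    · have e : f1 z = G (spt z) z := by simp only [hf1, if_pos h]
      have h2 := (hAG (spt z) hz.2.1 h).2.2.1 z ⟨hz.1, Finset.Subset.refl _⟩
      rw [e]
      exact ⟨h2.1.1, h2.2, h2.1.2.trans_eq h.symm⟩
    · have e : f1 z = affMap φ z := by simp only [hf1, if_neg h]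
      rw [e]
      exact affMap_mem φ S hφ z hz.1
  -- the faces of a simplex with `m + 4` vertices
  have hfc : ∀ s ∈ K, ∀ (hs : s.card = m + 4) (j : Fin (m + 4)), faceF s j ∈ K := by
    intro s hs hsc j
    refine hK s hs _ ?_ ?_
    · rw [hopfStep_face_erase s hsc j]
      exact Finset.erase_subset _ _
    · rw [← Finset.card_pos, hopfStep_face_card s hsc j]
      omega
  have hfill : ∀ s : Finset U, ∃ g : (U → ℝ) → (W → ℝ), s ∈ K → s.card = m + 4 →
      ContinuousOn g (Face s) ∧ (∀ z ∈ Face s, spt z ≠ s → g z = f1 z) ∧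
      ∀ z ∈ Face s, g z ∈ Sk W (m + 2) ∧ spt (g z) ⊆ s.biUnion S := by
    intro s
    by_cases hsK : s ∈ K
    swap
    · exact ⟨f1, fun h => absurd h hsK⟩
    by_cases hs : s.card = m + 4
    swap
    · exact ⟨f1, fun _ h => absurd h hs⟩
    have hbd : ∀ z ∈ Face s, spt z ≠ s → z ∈ Rlz K (m + 2 + 1) := by
      intro z hz hzs
      refine ⟨hz.1, hK s hsK _ hz.2 (hne z hz.1), ?_⟩
      have := Finset.card_lt_card (Finset.ssubset_iff_subset_ne.mpr ⟨hz.2, hzs⟩)
      omega
    have hSne : (s.biUnion S).Nonempty := by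
      have h1 : s.Nonempty := by
        rw [← Finset.card_pos]
        omega
      obtain ⟨u, hu⟩ := h1
      exact ⟨φ u, Finset.mem_biUnion.mpr ⟨u, hu, hφ u⟩⟩
    have hA : ∀ j : Fin (m + 4), (A (faceF s j)).cl w₀ = theta w₀
        (Finsupp.single (imgList φ (faceF s j)) 1 -
          extend simplexBoundary (H (faceF s j))) := fun j =>
      (hAG (faceF s j) (hfc s hsK hs j) (hopfStep_face_card s hs j)).2.2.2.2
    obtain ⟨g, h1, h2, h3⟩ := fill_step w₀ (s.biUnion S) hSne s hs f1
      (hf1c.mono (fun z hz => hbd z hz.1 hz.2))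
      (fun z hz hzs => by
        have h := hf1m z (hbd z hz hzs)
        refine ⟨⟨h.1, h.2.2.trans ?_⟩, h.2.1.trans (Finset.biUnion_subset_biUnion_of_subset_left _ hz.2)⟩
        exact (hbd z hz hzs).2.2)
      (fun j => A (faceF s j))
      (fun j z z' hz' h => by
        have hfcard := hopfStep_face_card s hs j
        have hj0 : z' (s.orderEmbOfFin hs j) = 0 := by
          rw [h j, Fin.insertNth_apply_same]
        have hzf : z' ∈ Face (faceF s j) := by
          refine ⟨hz'.1, fun u hu => ?_⟩
          rw [hopfStep_face_erase s hs j, Finset.mem_erase]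
          refine ⟨?_, hz'.2 hu⟩
          rintro rfl
          have := (Finset.mem_filter.mp hu).2
          exact this hj0
        have h4 := (hAG (faceF s j) (hfc s hsK hs j) hfcard)
        have h5 : G (faceF s j) z' = (A (faceF s j)).toFun z := by
          refine h4.2.2.2.1 z z' hzf (fun i => ?_)
          rw [hopfStep_face_emb s hs j i, h (j.succAbove i), Fin.insertNth_apply_succAbove]
        rw [← h5]
        by_cases h6 : spt z' = faceF s j
        · have : (spt z').card = m + 2 + 1 := by rw [h6]; exact hfcard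
          simp only [hf1, if_pos this]
          rw [h6]
        · have h7 := h4.2.1 z' hzf h6
          have : (spt z').card ≠ m + 2 + 1 := by
            have := Finset.card_lt_card (Finset.ssubset_iff_subset_ne.mpr ⟨hzf.2, h6⟩)
            omega
          simp only [hf1, if_neg this]
          exact h7.symm)
      (by
        have h0 := hcyc s hsK hs
        have h1 : (theta w₀ (extend simplexBoundary (Finsupp.single (imgList φ s) 1 -
          ∑ j ∈ Finset.range s.card, (-1 : ℤ) ^ j • H (faceF s j))) :
            PiGrp m (Sk W (m + 2)) (base m w₀)) = 0 := by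
          rw [h0]
          exact hopfStep_extend_zero _
        have hlen : (imgList φ s).length = m + 4 := by
          unfold imgList
          rw [List.length_map, Finset.length_sort, hs]
        have h2 : extend simplexBoundary (Finsupp.single (imgList φ s) 1 -
          ∑ j ∈ Finset.range s.card, (-1 : ℤ) ^ j • H (faceF s j)) =
          ∑ j : Fin (m + 4), (-1 : ℤ) ^ (j : ℕ) • (Finsupp.single (imgList φ (faceF s j)) 1 -
          extend simplexBoundary (H (faceF s j))) := by
          rw [hopfStep_extend_sub, hopfStep_extend_single, hopfStep_extend_sum, hs]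
          have e1 : simplexBoundary (imgList φ s) = ∑ j ∈ Finset.range (m + 4),
              (-1 : ℤ) ^ j • Finsupp.single (imgList φ (faceF s j)) 1 := by
            unfold simplexBoundary
            rw [if_neg (by omega), hlen]
            exact Finset.sum_congr rfl (fun j _ => by rw [hopfStep_img_face])
          rw [e1, ← Finset.sum_sub_distrib, Finset.sum_range]
          refine Finset.sum_congr rfl (fun j _ => ?_)
          rw [hopfStep_extend_smul, smul_sub]
        rw [h2] at h1
        unfold theta at h1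
        rw [hopfStep_extend_sum] at h1
        rw [← h1]
        refine Finset.sum_congr rfl (fun j _ => ?_)
        rw [hopfStep_extend_smul, hA j]
        rfl)
    exact ⟨g, fun _ _ => ⟨h1, h2, h3⟩⟩
  choose G2 hG2 using hfill
  set f2 : (U → ℝ) → (W → ℝ) := fun z => if (spt z).card = m + 3 + 1 then G2 (spt z) z
    else f1 z with hf2
  refine ⟨f2, glue_step K hK (m + 3) f1 hf1c G2 (fun s hs hsc => ?_), fun z hz => ?_⟩
  · have h := hG2 s hs hsc
    exact ⟨h.1, h.2.1⟩
  · by_cases h : (spt z).card = m + 3 + 1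
    · have e : f2 z = G2 (spt z) z := by simp only [hf2, if_pos h]
      have h2 := (hG2 (spt z) hz.2.1 h).2.2 z ⟨hz.1, Finset.Subset.refl _⟩
      rw [e]
      refine ⟨h2.1.1, h2.2, ?_⟩
      rw [h, min_eq_right (by omega)]
      exact h2.1.2
    · have e : f2 z = f1 z := by simp only [hf2, if_neg h]
      have hz3 : (spt z).card ≤ m + 2 + 1 := by
        have := hz.2.2
        omega
      rw [e]
      have h2 := hf1m z ⟨hz.1, hz.2.1, hz3⟩
      exact ⟨h2.1, h2.2.1, le_min h2.2.2 (h2.2.2.trans hz3)⟩

end Vale.Agent.P093.T
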