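import Vale.Agent.P093.T.Loops

/-!
Reflections, dilations and permutations of the coordinates of loops.
-/

open Topology.Homotopy
open scoped unitInterval Topology

namespace Vale.Agent.P093.T

variable {X : Type*} [TopologicalSpace X] {x₀ : X} {m : ℕ}

/-- loops with the same values have the same class -/
theorem cls_congr_fun (p r : ELoop (m + 2) X x₀) (h : ∀ y, r y = p y) : r.cls = p.cls := by
  have h1 : r.toGen = p.toGen := by
    apply GenLoop.ext
    intro y
    exact h _
  unfold ELoop.cls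
  rw [h1]

/-- reflection of the `i`-th coordinate changes the sign of the class -/
theorem cls_refl (i : Fin (m + 2)) (p : ELoop (m + 2) X x₀)
    (r : ELoop (m + 2) X x₀) (hr : ∀ y, r y = p (Function.update y i (1 - y i))) :
    r.cls = - p.cls := by
  have h1 : r.toGen = GenLoop.symmAt i p.toGen := by
    apply GenLoop.ext
    intro y
    change r (fun j => (y j : ℝ)) =
      p (fun j => ((if j = i then σ (y i) else y j : I) : ℝ))
    rw [hr]
    congr 1
    funext j
    by_cases hj : j = i
    · subst hj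
      simp
    · simp [hj]
  have h2 : ((⟦p.toGen⟧ : HomotopyGroup (Fin (m + 2)) X x₀)⁻¹ :
      HomotopyGroup (Fin (m + 2)) X x₀) =
      ⟦GenLoop.symmAt i p.toGen⟧ := HomotopyGroup.inv_spec
  have h3 : r.cls = Additive.ofMul
      ((⟦p.toGen⟧ : HomotopyGroup (Fin (m + 2)) X x₀)⁻¹ : HomotopyGroup (Fin (m + 2)) X x₀) := by
    rw [h2, ← h1]
    rfl
  rw [h3]
  rfl

theorem not_openCube_iff {n : ℕ} (y : Fin n → ℝ) :
    y ∉ openCube n ↔ ∃ k, 1 / 2 ≤ |y k - 1 / 2| := by
  have h0 : y ∉ openCube n ↔ ¬ ∀ k, 0 < y k ∧ y k < 1 := Iff.rfl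
  rw [h0, not_forall]
  refine exists_congr fun k => ?_
  rw [le_abs]
  constructor
  · intro h
    by_cases h0 : 0 < y k
    · left
      by_contra h1
      exact h ⟨h0, by linarith⟩
    · right
      linarith
  · rintro (h | h) ⟨h0, h1⟩
    · linarith
    · linarith

/-- the form of `cls_pre_congr` for loops given by their values -/
theorem cls_pre_congr_fun (p r0 r1 : ELoop (m + 2) X x₀)
    (A : ℝ → (Fin (m + 2) → ℝ) → (Fin (m + 2) → ℝ))
    (hA : Continuous (fun z : ℝ × (Fin (m + 2) → ℝ) => A z.1 z.2))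
    (h : ∀ t y, y ∉ openCube (m + 2) → A t y ∉ openCube (m + 2))
    (h0 : ∀ y, r0 y = p (A 0 y)) (h1 : ∀ y, r1 y = p (A 1 y)) : r0.cls = r1.cls := by
  have e0 := cls_congr_fun (p.pre (A 0) (hA.comp (by fun_prop : Continuous fun y => ((0 : ℝ), y)))
    (h 0)) r0 (fun y => h0 y)
  have e1 := cls_congr_fun (p.pre (A 1) (hA.comp (by fun_prop : Continuous fun y => ((1 : ℝ), y)))
    (h 1)) r1 (fun y => h1 y)
  rw [e0, e1]
  exact cls_pre_congr p A hA h

/-- the loop obtained by shrinking a loop to the inner cube `[1/4, 3/4]^n` has the same class -/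
theorem cls_scale (p r : ELoop (m + 2) X x₀)
    (hr : ∀ y, r y = p (fun i => 1 / 2 + 2 * (y i - 1 / 2))) : r.cls = p.cls := by
  symm
  apply cls_pre_congr_fun p p r (fun t y k => 1 / 2 + (1 + |t|) * (y k - 1 / 2))
  · fun_prop
  · intro t y hy
    rw [not_openCube_iff] at hy ⊢
    obtain ⟨k, hk⟩ := hy
    refine ⟨k, ?_⟩
    have e1 : 1 / 2 + (1 + |t|) * (y k - 1 / 2) - 1 / 2 = (1 + |t|) * (y k - 1 / 2) := by ring
    simp only [e1]
    rw [abs_mul]
    have h1 : 1 ≤ abs (1 + |t|) := by
      rw [abs_of_nonneg (by positivity)]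
      linarith [abs_nonneg t]
    nlinarith [abs_nonneg (y k - 1 / 2)]
  · intro y
    congr 1
    funext k
    simp
  · intro y
    rw [hr]
    congr 1
    funext k
    rw [abs_one]
    ring

/-- the rotation of the coordinates `i`, `j` used in `cls_swap` -/
noncomputable def rotRefl (i j : Fin (m + 2)) (t : ℝ) (y : Fin (m + 2) → ℝ) (k : Fin (m + 2)) : ℝ :=
  if k = i then 1 / 2 + 2 * (-Real.cos (t * (Real.pi / 2)) * (y i - 1 / 2)
      + Real.sin (t * (Real.pi / 2)) * (y j - 1 / 2))
  else if k = j then 1 / 2 + 2 * (Real.sin (t * (Real.pi / 2)) * (y i - 1 / 2)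
      + Real.cos (t * (Real.pi / 2)) * (y j - 1 / 2))
  else 1 / 2 + 2 * (y k - 1 / 2)

theorem rotRefl_cont (i j : Fin (m + 2)) :
    Continuous (fun z : ℝ × (Fin (m + 2) → ℝ) => rotRefl i j z.1 z.2) := by
  refine continuous_pi fun k => ?_
  unfold rotRefl
  by_cases h1 : k = i
  · simp only [if_pos h1]
    fun_prop
  · by_cases h2 : k = j
    · simp only [if_neg h1, if_pos h2]
      fun_prop
    · simp only [if_neg h1, if_neg h2]
      fun_prop

theorem rot_aux (c s u v : ℝ) (hcs : c ^ 2 + s ^ 2 = 1) (huv : 1 / 4 ≤ u ^ 2 + v ^ 2) :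
    1 / 2 ≤ |2 * (-c * u + s * v)| ∨ 1 / 2 ≤ |2 * (s * u + c * v)| := by
  by_contra hcon
  push Not at hcon
  obtain ⟨h1, h2⟩ := hcon
  have h1' : (2 * (-c * u + s * v)) ^ 2 < (1 / 2) ^ 2 := by
    rw [← sq_abs]
    exact pow_lt_pow_left₀ h1 (abs_nonneg _) (by norm_num)
  have h2' : (2 * (s * u + c * v)) ^ 2 < (1 / 2) ^ 2 := by
    rw [← sq_abs]
    exact pow_lt_pow_left₀ h2 (abs_nonneg _) (by norm_num)
  have e : (2 * (-c * u + s * v)) ^ 2 + (2 * (s * u + c * v)) ^ 2 =
      4 * (c ^ 2 + s ^ 2) * (u ^ 2 + v ^ 2) := by ring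
  rw [hcs] at e
  nlinarith

theorem rotRefl_off (i j : Fin (m + 2)) (hij : i ≠ j) (t : ℝ) (y : Fin (m + 2) → ℝ)
    (hy : y ∉ openCube (m + 2)) : rotRefl i j t y ∉ openCube (m + 2) := by
  rw [not_openCube_iff] at hy ⊢
  obtain ⟨k, hk⟩ := hy
  have main : 1 / 4 ≤ (y i - 1 / 2) ^ 2 + (y j - 1 / 2) ^ 2 →
      ∃ k, 1 / 2 ≤ |rotRefl i j t y k - 1 / 2| := by
    intro hs
    have hcs : Real.cos (t * (Real.pi / 2)) ^ 2 + Real.sin (t * (Real.pi / 2)) ^ 2 = 1 :=
      Real.cos_sq_add_sin_sq _
    rcases rot_aux _ _ _ _ hcs hs with h | h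
    · refine ⟨i, ?_⟩
      unfold rotRefl
      rw [if_pos rfl, add_sub_cancel_left]
      exact h
    · refine ⟨j, ?_⟩
      unfold rotRefl
      rw [if_neg (Ne.symm hij), if_pos rfl, add_sub_cancel_left]
      exact h
  have hsq : 1 / 4 ≤ (y k - 1 / 2) ^ 2 := by
    rw [← sq_abs]
    nlinarith
  by_cases h1 : k = i
  · subst h1
    exact main (by nlinarith [sq_nonneg (y j - 1 / 2)])
  · by_cases h2 : k = j
    · subst h2
      exact main (by nlinarith [sq_nonneg (y i - 1 / 2)])
    · refine ⟨k, ?_⟩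
      unfold rotRefl
      rw [if_neg h1, if_neg h2, add_sub_cancel_left, abs_mul, abs_of_pos (by norm_num : (0 : ℝ) < 2)]
      linarith [abs_nonneg (y k - 1 / 2)]

theorem comp_perm_off {n : ℕ} (e : Equiv.Perm (Fin n)) (y : Fin n → ℝ) (hy : y ∉ openCube n) :
    y ∘ e ∉ openCube n := by
  intro h
  apply hy
  intro k
  have := h (e.symm k)
  simpa using this

/-- a loop precomposed with a permutation of the coordinates -/
def ELoop.perm {n : ℕ} (p : ELoop n X x₀) (e : Equiv.Perm (Fin n)) : ELoop n X x₀ :=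
  p.pre (fun y => y ∘ e) (by fun_prop) (fun y hy => comp_perm_off e y hy)

/-- exchanging two coordinates changes the sign of the class: the matrices
`[[-cos a, sin a], [sin a, cos a]]` join the reflection to the exchange; multiplied by `2` (and
centred at `1/2`) they preserve the complement of the open cube; use `cls_pre_congr`, `cls_scale`,
`cls_refl`. -/
theorem cls_swap (i j : Fin (m + 2)) (hij : i ≠ j) (p r : ELoop (m + 2) X x₀)
    (hr : ∀ y, r y = p (y ∘ Equiv.swap i j)) : r.cls = - p.cls := by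
  have hdil : ∀ y : Fin (m + 2) → ℝ, y ∉ openCube (m + 2) →
      (fun k => 1 / 2 + 2 * (y k - 1 / 2)) ∉ openCube (m + 2) := by
    intro y hy
    rw [not_openCube_iff] at hy ⊢
    obtain ⟨k, hk⟩ := hy
    refine ⟨k, ?_⟩
    rw [add_sub_cancel_left, abs_mul, abs_of_pos (by norm_num : (0 : ℝ) < 2)]
    linarith [abs_nonneg (y k - 1 / 2)]
  have href : ∀ y : Fin (m + 2) → ℝ, y ∉ openCube (m + 2) →
      (Function.update y i (1 - y i)) ∉ openCube (m + 2) := by
    intro y hy
    rw [not_openCube_iff] at hy ⊢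
    obtain ⟨k, hk⟩ := hy
    refine ⟨k, ?_⟩
    by_cases h : k = i
    · subst h
      rw [Function.update_self]
      have e : 1 - y k - 1 / 2 = - (y k - 1 / 2) := by ring
      rw [e, abs_neg]
      exact hk
    · rw [Function.update_of_ne h]
      exact hk
  have hrefc : Continuous (fun y : Fin (m + 2) → ℝ => Function.update y i (1 - y i)) := by
    fun_prop
  let s : ELoop (m + 2) X x₀ := p.pre (fun y => Function.update y i (1 - y i)) hrefc href
  let s' : ELoop (m + 2) X x₀ := s.pre (fun y k => 1 / 2 + 2 * (y k - 1 / 2)) (by fun_prop) hdil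
  let r' : ELoop (m + 2) X x₀ := r.pre (fun y k => 1 / 2 + 2 * (y k - 1 / 2)) (by fun_prop) hdil
  have h1 : s.cls = - p.cls := cls_refl i p s (fun y => rfl)
  have h2 : s'.cls = s.cls := cls_scale s s' (fun y => rfl)
  have h3 : r'.cls = r.cls := cls_scale r r' (fun y => rfl)
  have h4 : s'.cls = r'.cls := by
    apply cls_pre_congr_fun p s' r' (rotRefl i j) (rotRefl_cont i j)
      (fun t y hy => rotRefl_off i j hij t y hy)
    · intro y
      change p (Function.update (fun k => 1 / 2 + 2 * (y k - 1 / 2)) i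
        (1 - (1 / 2 + 2 * (y i - 1 / 2)))) = _
      congr 1
      funext k
      unfold rotRefl
      rw [zero_mul, Real.cos_zero, Real.sin_zero]
      by_cases h : k = i
      · subst h
        rw [Function.update_self, if_pos rfl]
        ring
      · rw [Function.update_of_ne h, if_neg h]
        by_cases h' : k = j
        · subst h'
          rw [if_pos rfl]
          ring
        · rw [if_neg h']
    · intro y
      change r (fun k => 1 / 2 + 2 * (y k - 1 / 2)) = _
      rw [hr]
      congr 1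
      funext k
      unfold rotRefl
      rw [one_mul, Real.cos_pi_div_two, Real.sin_pi_div_two]
      simp only [Function.comp_apply]
      by_cases h : k = i
      · subst h
        rw [Equiv.swap_apply_left, if_pos rfl]
        ring
      · rw [if_neg h]
        by_cases h' : k = j
        · subst h'
          rw [Equiv.swap_apply_right, if_pos rfl]
          ring
        · rw [if_neg h', Equiv.swap_apply_of_ne_of_ne h h']
  rw [← h3, ← h4, h2, h1]

/-- permuting the coordinates multiplies the class by the sign -/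
theorem cls_perm (e : Equiv.Perm (Fin (m + 2))) (p r : ELoop (m + 2) X x₀)
    (hr : ∀ y, r y = p (y ∘ e)) : r.cls = (Equiv.Perm.sign e : ℤ) • p.cls := by
  induction e using Equiv.Perm.swap_induction_on generalizing r with
  | one =>
    rw [Equiv.Perm.sign_one, Units.val_one, one_smul]
    exact cls_congr_fun p r (fun y => by rw [hr]; rfl)
  | swap_mul f i j hij ih =>
    have h1 := ih (p.perm f) (fun y => rfl)
    have h2 : r.cls = - (p.perm f).cls := by
      apply cls_swap i j hij (p.perm f) r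
      intro y
      rw [hr]
      change p _ = p _
      congr 1
    rw [h2, h1, Equiv.Perm.sign_mul, Equiv.Perm.sign_swap hij]
    simp
end Vale.Agent.P093.T
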