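import Vale.Agent.P093.T.PolyGlue

/-!
Maps on the realisation of a finite simplicial complex, built skeleton by skeleton.
-/

open Set

namespace Vale.Agent.P093.T

variable {U W : Type*} [Fintype U] [Fintype W]

theorem coneMemSpt (y : W → ℝ) (w : W) : w ∈ spt y ↔ y w ≠ 0 := by
  simp [spt]

omit [Fintype W] in
theorem coneVtxSelf (v : W) : (vtx v : W → ℝ) v = 1 := by
  simp [vtx]

omit [Fintype W] in
theorem coneVtxNe {v w : W} (h : w ≠ v) : (vtx v : W → ℝ) w = 0 := by
  simp [vtx, h]

theorem coneVtxMem (v : W) : (vtx v : W → ℝ) ∈ stdSimplex ℝ W := by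
  classical
  have : (vtx v : W → ℝ) = Pi.single v 1 := by
    ext w
    by_cases h : w = v
    · subst h; simp [vtx]
    · simp [vtx, h]
  rw [this]
  exact single_mem_stdSimplex ℝ v

theorem coneSptNonempty {z : U → ℝ} (hz : z ∈ stdSimplex ℝ U) : (spt z).Nonempty := by
  by_contra h
  rw [Finset.not_nonempty_iff_eq_empty] at h
  have h0 : ∀ u, z u = 0 := by
    intro u
    by_contra hu
    have : u ∈ spt z := (coneMemSpt z u).2 hu
    rw [h] at this
    simp at this
  have h1 := hz.2
  simp [h0] at h1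

theorem coneLeOne {y : W → ℝ} (hy : y ∈ stdSimplex ℝ W) (w : W) : y w ≤ 1 := by
  rw [← hy.2]
  exact Finset.single_le_sum (fun i _ => hy.1 i) (Finset.mem_univ w)

/-- minimum of the coordinates over `s` -/
noncomputable def coneMin (s : Finset U) (hne : s.Nonempty) (z : U → ℝ) : ℝ := s.inf' hne z

/-- weight of the barycentre -/
noncomputable def coneMu (s : Finset U) (hne : s.Nonempty) (z : U → ℝ) : ℝ :=
  (s.card : ℝ) * coneMin s hne z

open Classical in
/-- barycentre -/
noncomputable def coneBar (s : Finset U) : U → ℝ := fun u => if u ∈ s then 1 / (s.card : ℝ) else 0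

/-- radial projection to the boundary -/
noncomputable def conePr (s : Finset U) (hne : s.Nonempty) (z : U → ℝ) : U → ℝ :=
  (1 - coneMu s hne z)⁻¹ • (z - coneMu s hne z • coneBar s)

/-- the cone map -/
noncomputable def coneMap (s : Finset U) (hne : s.Nonempty) (f : (U → ℝ) → (W → ℝ)) (v : W)
    (z : U → ℝ) : W → ℝ :=
  (1 - coneMu s hne z) • f (conePr s hne z) + coneMu s hne z • vtx v

section

variable (s : Finset U) (hne : s.Nonempty)

omit [Fintype U] in
theorem coneMu_continuous : Continuous (coneMu s hne) :=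
  continuous_const.mul (Continuous.finset_inf'_apply hne fun u _ => continuous_apply u)

omit [Fintype U] in
theorem coneMin_le {z : U → ℝ} {u : U} (hu : u ∈ s) : coneMin s hne z ≤ z u :=
  Finset.inf'_le z hu

omit [Fintype U] in
theorem coneMin_exists (z : U → ℝ) : ∃ u ∈ s, coneMin s hne z = z u :=
  Finset.exists_mem_eq_inf' hne z

theorem coneFace_zero {z : U → ℝ} (hz : z ∈ Face s) {u : U} (hu : u ∉ s) : z u = 0 := by
  by_contra h
  exact hu (hz.2 ((coneMemSpt z u).2 h))

theorem coneFace_sum {z : U → ℝ} (hz : z ∈ Face s) : ∑ u ∈ s, z u = 1 := by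
  rw [← hz.1.2]
  exact Finset.sum_subset (Finset.subset_univ s) fun u _ hu => coneFace_zero s hz hu

theorem coneMin_nonneg {z : U → ℝ} (hz : z ∈ Face s) : 0 ≤ coneMin s hne z := by
  obtain ⟨u, _, hu⟩ := coneMin_exists s hne z
  rw [hu]
  exact hz.1.1 u

theorem coneMu_nonneg {z : U → ℝ} (hz : z ∈ Face s) : 0 ≤ coneMu s hne z :=
  mul_nonneg (Nat.cast_nonneg _) (coneMin_nonneg s hne hz)

theorem coneMu_le {z : U → ℝ} (hz : z ∈ Face s) : coneMu s hne z ≤ 1 := by
  rw [← coneFace_sum s hz, coneMu, ← nsmul_eq_mul]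
  exact Finset.card_nsmul_le_sum s z _ fun u hu => coneMin_le s hne hu

include hne in
omit [Fintype U] in
theorem coneCard_pos : (0 : ℝ) < s.card := by exact_mod_cast Finset.card_pos.2 hne

theorem conePr_mem {z : U → ℝ} (hz : z ∈ Face s) (h : coneMu s hne z < 1) :
    conePr s hne z ∈ {z | z ∈ Face s ∧ spt z ≠ s} := by
  have hc := coneCard_pos s hne
  have h1 : 0 < 1 - coneMu s hne z := by linarith
  have hb : ∀ u ∈ s, coneMu s hne z * coneBar s u = coneMin s hne z := by
    intro u hu
    rw [coneBar, if_pos hu, coneMu]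
    field_simp
  have hb0 : ∀ u, u ∉ s → coneBar s u = 0 := by
    intro u hu
    rw [coneBar, if_neg hu]
  have hp : ∀ u, conePr s hne z u =
      (1 - coneMu s hne z)⁻¹ * (z u - coneMu s hne z * coneBar s u) := by
    intro u
    simp [conePr]
  have hout : ∀ u, u ∉ s → conePr s hne z u = 0 := by
    intro u hu
    rw [hp, hb0 u hu, coneFace_zero s hz hu]
    simp
  refine ⟨⟨⟨fun u => ?_, ?_⟩, fun u hu => ?_⟩, fun h2 => ?_⟩
  · by_cases hu : u ∈ s
    · rw [hp, hb u hu]
      exact mul_nonneg (inv_nonneg.2 h1.le) (by linarith [coneMin_le s hne (z := z) hu])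
    · rw [hout u hu]
  · rw [← Finset.sum_subset (Finset.subset_univ s) fun u _ hu => hout u hu]
    have : ∀ u ∈ s, conePr s hne z u = (1 - coneMu s hne z)⁻¹ * (z u - coneMin s hne z) := by
      intro u hu
      rw [hp, hb u hu]
    rw [Finset.sum_congr rfl this, ← Finset.mul_sum, Finset.sum_sub_distrib, coneFace_sum s hz,
      Finset.sum_const, nsmul_eq_mul]
    exact inv_mul_cancel₀ h1.ne'
  · by_contra h3
    exact (coneMemSpt _ u).1 hu (hout u h3)
  · obtain ⟨u, hu, hu'⟩ := coneMin_exists s hne z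
    have h3 : u ∈ spt (conePr s hne z) := by
      rw [h2]
      exact hu
    rw [coneMemSpt, hp, hb u hu, hu'] at h3
    simp at h3

omit [Fintype U] in
theorem conePr_continuousAt {z : U → ℝ} (h : coneMu s hne z < 1) :
    ContinuousAt (conePr s hne) z := by
  have h1 : (1 - coneMu s hne z) ≠ 0 := by linarith
  have hm := (coneMu_continuous s hne).continuousAt (x := z)
  exact ((continuousAt_const.sub hm).inv₀ h1).smul
    (continuousAt_id.sub (hm.smul continuousAt_const))

end

/-- cone extension over one simplex: `z = (1 - μ) z' + μ • barycentre`, `z'` in the boundary,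
goes to `(1 - μ) f z' + μ • vtx v` (`μ = card s * min_{u ∈ s} z u`). -/
theorem cone_ext (s : Finset U) (hs : 2 ≤ s.card) (f : (U → ℝ) → (W → ℝ))
    (hf : ContinuousOn f {z | z ∈ Face s ∧ spt z ≠ s}) (v : W) (S : Finset W) (hv : v ∈ S) (N : ℕ)
    (hfm : ∀ z ∈ Face s, spt z ≠ s → f z ∈ stdSimplex ℝ W ∧ spt (f z) ⊆ S ∧
      (spt (f z)).card ≤ N) :
    ∃ g : (U → ℝ) → (W → ℝ), ContinuousOn g (Face s) ∧
      (∀ z ∈ Face s, spt z ≠ s → g z = f z) ∧
      ∀ z ∈ Face s, g z ∈ stdSimplex ℝ W ∧ spt (g z) ⊆ S ∧ (spt (g z)).card ≤ N + 1 := by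
  classical
  have hne : s.Nonempty := Finset.card_pos.1 (by omega)
  have hg1 : ∀ z, coneMu s hne z = 1 → coneMap s hne f v z = vtx v := by
    intro z h
    simp [coneMap, h]
  refine ⟨coneMap s hne f v, ?_, ?_, ?_⟩
  · intro z hz
    have hm := (coneMu_continuous s hne).continuousAt (x := z)
    rcases lt_or_eq_of_le (coneMu_le s hne hz) with h | h
    · have h1 : Filter.Tendsto (conePr s hne) (nhdsWithin z (Face s))
          (nhdsWithin (conePr s hne z) {z | z ∈ Face s ∧ spt z ≠ s}) := by
        rw [tendsto_nhdsWithin_iff]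
        refine ⟨(conePr_continuousAt s hne h).continuousWithinAt, ?_⟩
        have h2 : ∀ᶠ y in nhdsWithin z (Face s), coneMu s hne y < 1 :=
          (hm.eventually_lt continuousAt_const h).filter_mono nhdsWithin_le_nhds
        filter_upwards [h2, self_mem_nhdsWithin] with y hy hy'
        exact conePr_mem s hne hy' hy
      have h2 : Filter.Tendsto (fun y => f (conePr s hne y)) (nhdsWithin z (Face s))
          (nhds (f (conePr s hne z))) := (hf _ (conePr_mem s hne hz h)).tendsto.comp h1
      have h3 : Filter.Tendsto (coneMu s hne) (nhdsWithin z (Face s)) (nhds (coneMu s hne z)) :=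
        hm.continuousWithinAt
      exact ((tendsto_const_nhds.sub h3).smul h2).add (h3.smul tendsto_const_nhds)
    · have h3 : Filter.Tendsto (coneMu s hne) (nhdsWithin z (Face s)) (nhds 1) := by
        rw [← h]
        exact hm.continuousWithinAt
      rw [ContinuousWithinAt, hg1 z h, tendsto_pi_nhds]
      intro w
      have h4 : Filter.Tendsto (fun y => 1 - coneMu s hne y) (nhdsWithin z (Face s)) (nhds 0) := by
        simpa using (tendsto_const_nhds (x := (1 : ℝ))).sub h3
      rw [tendsto_iff_dist_tendsto_zero]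
      refine squeeze_zero' (Filter.Eventually.of_forall fun y => dist_nonneg) ?_ h4
      filter_upwards [self_mem_nhdsWithin] with y hy
      rcases lt_or_eq_of_le (coneMu_le s hne hy) with h5 | h5
      · have h6 := hfm _ (conePr_mem s hne hy h5).1 (conePr_mem s hne hy h5).2
        have e : coneMap s hne f v y w - (vtx v : W → ℝ) w =
            (1 - coneMu s hne y) * (f (conePr s hne y) w - (vtx v : W → ℝ) w) := by
          simp only [coneMap, Pi.add_apply, Pi.smul_apply, smul_eq_mul]
          ring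
        rw [Real.dist_eq, e, abs_mul, abs_of_pos (by linarith : 0 < 1 - coneMu s hne y)]
        have a1 := h6.1.1 w
        have a2 := coneLeOne h6.1 w
        have a3 := (coneVtxMem v).1 w
        have a4 := coneLeOne (coneVtxMem v) w
        have a5 : |f (conePr s hne y) w - (vtx v : W → ℝ) w| ≤ 1 := by
          rw [abs_le]
          constructor <;> linarith
        nlinarith
      · rw [hg1 y h5, dist_self, h5]
        simp
  · intro z hz hzs
    have h0 : coneMu s hne z = 0 := by
      have : ∃ u ∈ s, z u = 0 := by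
        by_contra hcon
        push Not at hcon
        exact hzs (Finset.Subset.antisymm hz.2 fun u hu => (coneMemSpt z u).2 (hcon u hu))
      obtain ⟨u, hu, hu0⟩ := this
      have h1 := coneMin_le s hne (z := z) hu
      have h2 := coneMin_nonneg s hne hz
      have : coneMin s hne z = 0 := by linarith
      rw [coneMu, this, mul_zero]
    simp [coneMap, conePr, h0]
  · intro z hz
    rcases lt_or_eq_of_le (coneMu_le s hne hz) with h | h
    · have h6 := hfm _ (conePr_mem s hne hz h).1 (conePr_mem s hne hz h).2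
      have hsub : spt (coneMap s hne f v z) ⊆ insert v (spt (f (conePr s hne z))) := by
        intro w hw
        rw [coneMemSpt] at hw
        rw [Finset.mem_insert]
        by_cases hwv : w = v
        · exact Or.inl hwv
        · right
          rw [coneMemSpt]
          intro h7
          apply hw
          simp [coneMap, h7, coneVtxNe hwv]
      refine ⟨?_, ?_, ?_⟩
      · exact convex_stdSimplex ℝ W h6.1 (coneVtxMem v) (by linarith) (coneMu_nonneg s hne hz)
          (by ring)
      · refine hsub.trans ?_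
        intro w hw
        rcases Finset.mem_insert.1 hw with rfl | hw
        · exact hv
        · exact h6.2.1 hw
      · calc _ ≤ _ := Finset.card_le_card hsub
          _ ≤ _ := Finset.card_insert_le _ _
          _ ≤ N + 1 := by have := h6.2.2; omega
    · rw [hg1 z h]
      have hsub : spt (vtx v : W → ℝ) ⊆ {v} := by
        intro w hw
        rw [coneMemSpt] at hw
        rw [Finset.mem_singleton]
        by_contra hwv
        exact hw (coneVtxNe hwv)
      refine ⟨coneVtxMem v, ?_, ?_⟩
      · intro w hw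
        rw [Finset.mem_singleton.1 (hsub hw)]
        exact hv
      · calc _ ≤ _ := Finset.card_le_card hsub
          _ = 1 := Finset.card_singleton v
          _ ≤ N + 1 := by omega

open Classical in
/-- all higher simplices by cones: if `ψ` is defined on `Rlz K k₀` and on it the supports have
at most `k₀ - 1` vertices, then it extends to the whole complex with supports of at most
`card (spt z) - 1` vertices over the simplices with more than `k₀` vertices. -/
theorem cone_all (K : Set (Finset U)) (hK : ∀ s ∈ K, ∀ t ⊆ s, t.Nonempty → t ∈ K)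
    (S : U → Finset W) (hS : ∀ u, (S u).Nonempty) (k₀ : ℕ) (hk : 2 ≤ k₀)
    (ψ : (U → ℝ) → (W → ℝ)) (hψ : ContinuousOn ψ (Rlz K k₀))
    (hm : ∀ z ∈ Rlz K k₀, ψ z ∈ stdSimplex ℝ W ∧ spt (ψ z) ⊆ (spt z).biUnion S ∧
      (spt (ψ z)).card ≤ k₀ - 1) :
    ∃ ψ' : (U → ℝ) → (W → ℝ), ContinuousOn ψ' {z | z ∈ stdSimplex ℝ U ∧ spt z ∈ K} ∧
      (∀ z ∈ Rlz K k₀, ψ' z = ψ z) ∧
      ∀ z, z ∈ stdSimplex ℝ U → spt z ∈ K → k₀ < (spt z).card →
        ψ' z ∈ stdSimplex ℝ W ∧ spt (ψ' z) ⊆ (spt z).biUnion S ∧
          (spt (ψ' z)).card ≤ (spt z).card - 1 := by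
  have main : ∀ k, k₀ ≤ k → ∃ ψ' : (U → ℝ) → (W → ℝ), ContinuousOn ψ' (Rlz K k) ∧
      (∀ z ∈ Rlz K k₀, ψ' z = ψ z) ∧
      ∀ z ∈ Rlz K k, k₀ < (spt z).card →
        ψ' z ∈ stdSimplex ℝ W ∧ spt (ψ' z) ⊆ (spt z).biUnion S ∧
          (spt (ψ' z)).card ≤ (spt z).card - 1 := by
    intro k hk0
    induction k, hk0 using Nat.le_induction with
    | base =>
      refine ⟨ψ, hψ, fun _ _ => rfl, fun z hz h => ?_⟩
      have := hz.2.2
      omega
    | succ k hk0 ih =>
      obtain ⟨φ, hφc, hφe, hφm⟩ := ih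
      have hbd : ∀ s ∈ K, s.card = k + 1 → ∀ z ∈ Face s, spt z ≠ s →
          z ∈ Rlz K k ∧ φ z ∈ stdSimplex ℝ W ∧ spt (φ z) ⊆ s.biUnion S ∧
            (spt (φ z)).card ≤ k - 1 := by
        intro s hs hsc z hz hzs
        have hlt : (spt z).card < s.card :=
          Finset.card_lt_card (Finset.ssubset_iff_subset_ne.2 ⟨hz.2, hzs⟩)
        have hzK : z ∈ Rlz K k :=
          ⟨hz.1, hK s hs _ hz.2 (coneSptNonempty hz.1), by omega⟩
        have hbi : (spt z).biUnion S ⊆ s.biUnion S := Finset.biUnion_subset_biUnion_of_subset_left _ hz.2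
        refine ⟨hzK, ?_⟩
        by_cases h : k₀ < (spt z).card
        · obtain ⟨h1, h2, h3⟩ := hφm z hzK h
          exact ⟨h1, h2.trans hbi, by omega⟩
        · have hz0 : z ∈ Rlz K k₀ := ⟨hz.1, hzK.2.1, by omega⟩
          rw [hφe z hz0]
          obtain ⟨h1, h2, h3⟩ := hm z hz0
          exact ⟨h1, h2.trans hbi, by omega⟩
      have hex : ∀ s : Finset U, ∃ g : (U → ℝ) → (W → ℝ), s ∈ K → s.card = k + 1 →
          ContinuousOn g (Face s) ∧ (∀ z ∈ Face s, spt z ≠ s → g z = φ z) ∧
          ∀ z ∈ Face s, g z ∈ stdSimplex ℝ W ∧ spt (g z) ⊆ s.biUnion S ∧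
            (spt (g z)).card ≤ (k - 1) + 1 := by
        intro s
        by_cases hs : s ∈ K ∧ s.card = k + 1
        · obtain ⟨hs, hsc⟩ := hs
          have hne : s.Nonempty := Finset.card_pos.1 (by omega)
          obtain ⟨u, hu⟩ := hne
          obtain ⟨v, hv⟩ := hS u
          obtain ⟨g, hg1, hg2, hg3⟩ := cone_ext s (by omega) φ
            (hφc.mono fun z hz => (hbd s hs hsc z hz.1 hz.2).1) v (s.biUnion S)
            (Finset.mem_biUnion.2 ⟨u, hu, hv⟩) (k - 1)
            (fun z hz hzs => (hbd s hs hsc z hz hzs).2)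
          exact ⟨g, fun _ _ => ⟨hg1, hg2, hg3⟩⟩
        · exact ⟨φ, fun h1 h2 => absurd ⟨h1, h2⟩ hs⟩
      choose g hg using hex
      refine ⟨fun z => if (spt z).card = k + 1 then g (spt z) z else φ z,
        glue_step K hK k φ hφc g fun s hs hsc => ⟨(hg s hs hsc).1, (hg s hs hsc).2.1⟩, ?_, ?_⟩
      · intro z hz
        have : ¬ (spt z).card = k + 1 := by
          have := hz.2.2
          omega
        simp only [this, if_false]
        exact hφe z hz
      · intro z hz hkz
        by_cases h : (spt z).card = k + 1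
        · simp only [h, if_true]
          obtain ⟨h1, h2, h3⟩ := (hg (spt z) hz.2.1 h).2.2 z ⟨hz.1, subset_rfl⟩
          exact ⟨h1, h2, by omega⟩
        · simp only [h, if_false]
          exact hφm z ⟨hz.1, hz.2.1, by have := hz.2.2; omega⟩ hkz
  obtain ⟨φ, h1, h2, h3⟩ := main (max k₀ (Fintype.card U)) (le_max_left _ _)
  have hle : ∀ z : U → ℝ, (spt z).card ≤ max k₀ (Fintype.card U) := fun z =>
    (Finset.card_le_univ _).trans (le_max_right _ _)
  refine ⟨φ, h1.mono fun z hz => ⟨hz.1, hz.2, hle z⟩, h2, fun z hz hzK hkz => ?_⟩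
  exact h3 z ⟨hz, hzK, hle z⟩ hkz

end Vale.Agent.P093.T
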