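import Vale.Agent.P093.T.SkelDef

/-!
Realisation of a finite simplicial complex: definitions.
-/

open Set

namespace Vale.Agent.P093.T

variable {U W : Type*} [Fintype U] [Fintype W]

/-- the part of the realisation of the complex `K` with supports of at most `k` vertices -/
def Rlz (K : Set (Finset U)) (k : ℕ) : Set (U → ℝ) :=
  {z | z ∈ stdSimplex ℝ U ∧ spt z ∈ K ∧ (spt z).card ≤ k}

/-- the closed face `σ` -/
def Face (s : Finset U) : Set (U → ℝ) := {z | z ∈ stdSimplex ℝ U ∧ spt z ⊆ s}

end Vale.Agent.P093.T
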