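import Vale.Agent.P093.T.PolyDef

/-!
Gluing of maps on a finite simplicial complex: one skeleton to the next.
-/

open Set

namespace Vale.Agent.P093.T

variable {U W : Type*} [Fintype U] [Fintype W]

theorem isClosed_Face (s : Finset U) : IsClosed (Face s) := by
  have h : Face s = stdSimplex ℝ U ∩ ⋂ u ∈ {u : U | u ∉ s}, {z : U → ℝ | z u = 0} := by
    ext z
    simp only [Face, mem_ofPred_eq, mem_inter_iff, mem_iInter]
    refine and_congr_right fun _ => ⟨fun hz u hu => ?_, fun hz u hu => ?_⟩
    · by_contra hne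
      exact hu (hz (by simp [spt, hne]))
    · by_contra hns
      have h0 := hz u hns
      simp only [spt, Finset.mem_filter, Finset.mem_univ, true_and] at hu
      exact hu h0
  rw [h]
  refine (isClosed_stdSimplex ℝ U).inter (isClosed_biInter fun u _ => ?_)
  exact isClosed_eq (continuous_apply u) continuous_const

theorem spt_nonempty_of_mem {z : U → ℝ} (hz : z ∈ stdSimplex ℝ U) : (spt z).Nonempty := by
  by_contra hne
  rw [Finset.not_nonempty_iff_eq_empty] at hne
  have h0 : ∀ u, z u = 0 := by
    intro u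
    by_contra hu
    have : u ∈ spt z := by simp [spt, hu]
    rw [hne] at this
    simp at this
  have h1 := hz.2
  simp [h0] at h1

theorem Rlz_eq_iUnion (K : Set (Finset U)) (hK : ∀ s ∈ K, ∀ t ⊆ s, t.Nonempty → t ∈ K) (k : ℕ) :
    Rlz K k = ⋃ s ∈ {s : Finset U | s ∈ K ∧ s.card ≤ k}, Face s := by
  ext z
  simp only [Rlz, Face, mem_ofPred_eq, mem_iUnion, exists_prop]
  constructor
  · rintro ⟨h1, h2, h3⟩
    exact ⟨spt z, ⟨h2, h3⟩, h1, Finset.Subset.refl _⟩
  · rintro ⟨s, ⟨h1, h2⟩, h3, h4⟩
    exact ⟨h3, hK s h1 _ h4 (spt_nonempty_of_mem h3), (Finset.card_le_card h4).trans h2⟩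

theorem isClosed_Rlz (K : Set (Finset U)) (hK : ∀ s ∈ K, ∀ t ⊆ s, t.Nonempty → t ∈ K) (k : ℕ) :
    IsClosed (Rlz K k) := by
  rw [Rlz_eq_iUnion K hK k]
  exact (Set.toFinite _).isClosed_biUnion fun s _ => isClosed_Face s

open Classical in
/-- gluing: extension from the supports of size `≤ k` to size `≤ k + 1` -/
theorem glue_step (K : Set (Finset U)) (hK : ∀ s ∈ K, ∀ t ⊆ s, t.Nonempty → t ∈ K) (k : ℕ)
    (f : (U → ℝ) → (W → ℝ)) (hf : ContinuousOn f (Rlz K k))
    (g : Finset U → (U → ℝ) → (W → ℝ))
    (hg : ∀ s ∈ K, s.card = k + 1 → ContinuousOn (g s) (Face s) ∧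
      ∀ z ∈ Face s, spt z ≠ s → g s z = f z) :
    ContinuousOn (fun z => if (spt z).card = k + 1 then g (spt z) z else f z) (Rlz K (k + 1)) := by
  let C : Option {s : Finset U // s ∈ K ∧ s.card = k + 1} → Set (U → ℝ) := fun i =>
    match i with
    | none => Rlz K k
    | some s => Face s.1
  have hC : ⋃ i, C i = Rlz K (k + 1) := by
    ext z
    rw [mem_iUnion]
    constructor
    · rintro ⟨i, hi⟩
      match i, hi with
      | none, hi => exact ⟨hi.1, hi.2.1, hi.2.2.trans (Nat.le_succ k)⟩
      | some s, hi =>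
        exact ⟨hi.1, hK s.1 s.2.1 _ hi.2 (spt_nonempty_of_mem hi.1),
          (Finset.card_le_card hi.2).trans s.2.2.le⟩
    · intro hz
      by_cases hk : (spt z).card = k + 1
      · exact ⟨some ⟨spt z, hz.2.1, hk⟩, hz.1, Finset.Subset.refl _⟩
      · exact ⟨none, hz.1, hz.2.1, by have := hz.2.2; omega⟩
  rw [← hC]
  refine (locallyFinite_of_finite C).continuousOn_iUnion ?_ ?_
  · intro i
    match i with
    | none => exact isClosed_Rlz K hK k
    | some s => exact isClosed_Face s.1
  · intro i
    match i with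
    | none =>
      refine hf.congr fun z hz => ?_
      have : (spt z).card ≠ k + 1 := by have := hz.2.2; omega
      simp only [this, if_false]
    | some s =>
      refine (hg s.1 s.2.1 s.2.2).1.congr fun z hz => ?_
      by_cases hs : spt z = s.1
      · simp only [hs, s.2.2, if_true]
      · have hlt : (spt z).card < s.1.card :=
          Finset.card_lt_card (lt_of_le_of_ne hz.2 hs)
        have : (spt z).card ≠ k + 1 := by have := s.2.2; omega
        simp only [this, if_false]
        exact ((hg s.1 s.2.1 s.2.2).2 z hz hs).symm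

end Vale.Agent.P093.T
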